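import Vale.Agent.P161.Free

/-!
# P161: regular trees are distance transitive
-/

open SimpleGraph

namespace Vale.Agent.P161

variable {V : Type*} {G : SimpleGraph V}

lemma par_eq (hT : G.IsTree) {o x y : V} (hadj : G.Adj x y) (hd : G.dist o x = G.dist o y + 1) :
    par G o x = y := by
  have hxo : x ≠ o := by rintro rfl; simp at hd
  exact closer_unique hT (par_spec hT hxo).1 hadj (par_spec hT hxo).2 hd

lemma par_root (o : V) : par G o o = o := by
  rw [par, dif_neg]
  rintro ⟨y, -, h⟩
  simp at h

open scoped Classical in
/-- The level by level extension of `o ↦ o'` along given neighbour bijections. -/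
noncomputable def extN (G : SimpleGraph V) (o o' : V)
    (e0 : ∀ x y : V, {z // G.Adj x z} ≃ {z // G.Adj y z}) : ℕ → V → V
  | 0, _ => o'
  | n + 1, x =>
    if x = o then o' else
      if h : G.Adj (par G o x) x then
        if h' : G.Adj (par G o x) (par G o (par G o x)) then
          Equiv.swap
            (e0 (par G o x) (extN G o o' e0 n (par G o x)) ⟨par G o (par G o x), h'⟩ : V)
            (extN G o o' e0 n (par G o (par G o x)))
            (e0 (par G o x) (extN G o o' e0 n (par G o x)) ⟨x, h⟩ : V)
        else (e0 (par G o x) (extN G o o' e0 n (par G o x)) ⟨x, h⟩ : V)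
      else o'

/-- The extension map. -/
noncomputable def ext (G : SimpleGraph V) (o o' : V)
    (e0 : ∀ x y : V, {z // G.Adj x z} ≃ {z // G.Adj y z}) (x : V) : V :=
  extN G o o' e0 (G.dist o x) x

variable {o o' : V} {e0 : ∀ x y : V, {z // G.Adj x z} ≃ {z // G.Adj y z}}

lemma extN_eq (hT : G.IsTree) : ∀ n x, G.dist o x ≤ n → extN G o o' e0 n x = ext G o o' e0 x := by
  intro n
  induction n using Nat.strong_induction_on with
  | _ n ih =>
    intro x hx
    by_cases hxo : x = o
    · subst hxo
      cases n <;> simp [ext, extN]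
    · obtain ⟨-, hd⟩ := par_spec hT hxo
      have hle : G.dist o (par G o (par G o x)) ≤ G.dist o (par G o x) := by
        by_cases hpo : par G o x = o
        · rw [hpo, par_root]
        · have := (par_spec hT hpo).2; omega
      obtain ⟨k, rfl⟩ := Nat.exists_eq_add_of_lt (show G.dist o (par G o x) < n by omega)
      have e : ext G o o' e0 x = extN G o o' e0 (G.dist o (par G o x) + 1) x := by rw [ext, hd]
      rw [e]
      simp only [extN, if_neg hxo]
      rw [ih _ (Nat.lt_succ_self _) (par G o x) (by omega),
        ih _ (Nat.lt_succ_self _) (par G o (par G o x)) (by omega),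
        ih (G.dist o (par G o x)) (by omega) (par G o x) le_rfl,
        ih (G.dist o (par G o x)) (by omega) (par G o (par G o x)) hle]

open scoped Classical in
/-- The bijection used at a vertex `p`. -/
noncomputable def stepMap (G : SimpleGraph V) (o o' : V)
    (e0 : ∀ x y : V, {z // G.Adj x z} ≃ {z // G.Adj y z}) (p x : V) : V :=
  if h : G.Adj p x then
    if h' : G.Adj p (par G o p) then
      Equiv.swap (e0 p (ext G o o' e0 p) ⟨par G o p, h'⟩ : V) (ext G o o' e0 (par G o p))
        (e0 p (ext G o o' e0 p) ⟨x, h⟩ : V)
    else (e0 p (ext G o o' e0 p) ⟨x, h⟩ : V)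
  else o'

lemma ext_root : ext G o o' e0 o = o' := by simp [ext, extN]

lemma ext_step (hT : G.IsTree) {x : V} (hxo : x ≠ o) :
    ext G o o' e0 x = stepMap G o o' e0 (par G o x) x := by
  obtain ⟨hadj, hd⟩ := par_spec hT hxo
  conv_lhs => rw [ext, hd]
  have hle : G.dist o (par G o (par G o x)) ≤ G.dist o (par G o x) := by
    by_cases hpo : par G o x = o
    · rw [hpo, par_root]
    · have := (par_spec hT hpo).2; omega
  simp only [extN, if_neg hxo, stepMap]
  rw [extN_eq hT _ _ le_rfl, extN_eq hT _ _ hle]

open scoped Classical in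
lemma ext_spec (hT : G.IsTree) :
    ∀ x, G.dist o' (ext G o o' e0 x) = G.dist o x ∧
      (x ≠ o → G.Adj (ext G o o' e0 (par G o x)) (ext G o o' e0 x)) := by
  suffices h : ∀ n x, G.dist o x = n → G.dist o' (ext G o o' e0 x) = G.dist o x ∧
      (x ≠ o → G.Adj (ext G o o' e0 (par G o x)) (ext G o o' e0 x)) from fun x => h _ x rfl
  intro n
  induction n using Nat.strong_induction_on with
  | _ n ih =>
    intro x hn
    by_cases hxo : x = o
    · subst hxo; simp [ext_root]
    obtain ⟨hadj, hd⟩ := par_spec hT hxo
    have hp := ih (G.dist o (par G o x)) (by omega) _ rfl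
    rw [ext_step hT hxo]
    by_cases hpo : par G o x = o
    · rw [hpo] at hadj hd ⊢
      have hno : ¬ G.Adj o (par G o o) := by rw [par_root]; exact G.loopless.irrefl o
      simp only [stepMap, dif_pos hadj.symm, dif_neg hno]
      have h1 := (e0 o (ext G o o' e0 o) ⟨x, hadj.symm⟩).2
      have h2 : G.Adj o' (e0 o (ext G o o' e0 o) ⟨x, hadj.symm⟩ : V) := by
        simp only [ext_root] at h1 ⊢; exact h1
      refine ⟨by rw [dist_eq_one_iff_adj.2 h2, hd]; simp, fun _ => ?_⟩
      simp only [ext_root] at h2 ⊢; exact h2
    obtain ⟨hadj', hd'⟩ := par_spec hT hpo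
    have hA := hp.2 hpo
    simp only [stepMap, dif_pos hadj.symm, dif_pos hadj']
    set y := ext G o o' e0 (par G o x) with hy
    set a : V := (e0 (par G o x) y ⟨x, hadj.symm⟩ : V) with ha
    set a' : V := (e0 (par G o x) y ⟨par G o (par G o x), hadj'⟩ : V) with ha'
    set b := ext G o o' e0 (par G o (par G o x)) with hb
    have haN : G.Adj y a := (e0 (par G o x) y ⟨x, hadj.symm⟩).2
    have ha'N : G.Adj y a' := (e0 (par G o x) y ⟨par G o (par G o x), hadj'⟩).2
    have hN : G.Adj y (Equiv.swap a' b a) := by
      rw [Equiv.swap_apply_def]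
      split_ifs
      · exact hA.symm
      · exact ha'N
      · exact haN
    have hne : Equiv.swap a' b a ≠ b := by
      intro h
      have h2 : a = a' := (Equiv.swap a' b).injective (h.trans (Equiv.swap_apply_left a' b).symm)
      have h3 := (e0 (par G o x) y).injective (Subtype.ext h2)
      have h4 := congrArg (fun z : {z // G.Adj (par G o x) z} => G.dist o (z : V)) h3
      simp only at h4
      omega
    refine ⟨?_, fun _ => hN⟩
    have hb2 := (ih (G.dist o (par G o (par G o x))) (by omega) _ rfl).1
    rcases hT.dist_eq_dist_add_one_of_adj o' hN with h | h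
    · exact absurd (closer_unique hT hN hA.symm h
        (by rw [hp.1, hb2]; omega)) hne
    · rw [h, hp.1]; omega

open scoped Classical in
lemma ext_injective (hT : G.IsTree) : Function.Injective (ext G o o' e0) := by
  suffices h : ∀ n x x', G.dist o x = n → ext G o o' e0 x = ext G o o' e0 x' → x = x' from
    fun x x' hx => h _ x x' rfl hx
  intro n
  induction n using Nat.strong_induction_on with
  | _ n ih =>
    intro x x' hn hxx
    have hd' : G.dist o x' = G.dist o x := by
      rw [← (ext_spec hT (e0 := e0) (o := o) (o' := o') x').1, ← hxx, (ext_spec hT x).1]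
    by_cases hxo : x = o
    · subst hxo
      rw [SimpleGraph.dist_self] at hd'
      exact (hT.connected.dist_eq_zero_iff.1 hd')
    have hxo' : x' ≠ o := by
      rintro rfl
      rw [SimpleGraph.dist_self] at hd'
      exact hxo (hT.connected.dist_eq_zero_iff.1 hd'.symm).symm
    obtain ⟨hadj, hd⟩ := par_spec hT hxo
    obtain ⟨hadj', hde⟩ := par_spec hT hxo'
    have h1 := ext_spec hT (e0 := e0) (o := o) (o' := o') x
    have h2 := ext_spec hT (e0 := e0) (o := o) (o' := o') x'
    have hpe : ext G o o' e0 (par G o x) = ext G o o' e0 (par G o x') := by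
      have e1 := (ext_spec hT (e0 := e0) (o := o) (o' := o') (par G o x)).1
      have e2 := (ext_spec hT (e0 := e0) (o := o) (o' := o') (par G o x')).1
      refine closer_unique hT (h1.2 hxo).symm ?_ (by rw [h1.1, e1]; exact hd) ?_
      · rw [hxx]; exact (h2.2 hxo').symm
      · rw [hxx, h2.1, e2]; exact hde
    have hpar := ih (G.dist o (par G o x)) (by omega) _ _ rfl hpe
    rw [ext_step hT hxo, ext_step hT hxo', ← hpar] at hxx
    have hadj'' : G.Adj (par G o x) x' := by rw [hpar]; exact hadj'.symm
    simp only [stepMap, dif_pos hadj.symm, dif_pos hadj''] at hxx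
    split_ifs at hxx with h'
    · exact congrArg Subtype.val ((e0 _ _).injective (Subtype.ext (Equiv.injective _ hxx)))
    · exact congrArg Subtype.val ((e0 _ _).injective (Subtype.ext hxx))

open scoped Classical in
lemma ext_surjective (hT : G.IsTree) : Function.Surjective (ext G o o' e0) := by
  suffices h : ∀ n z, G.dist o' z = n → ∃ x, ext G o o' e0 x = z from fun z => h _ z rfl
  intro n
  induction n using Nat.strong_induction_on with
  | _ n ih =>
    intro z hn
    by_cases hzo : z = o'
    · exact ⟨o, by rw [ext_root, hzo]⟩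
    obtain ⟨q, hq, hqd⟩ := exists_closer hT hzo
    obtain ⟨p, rfl⟩ := ih (G.dist o' q) (by omega) q rfl
    have hp := ext_spec hT (e0 := e0) (o := o) (o' := o') p
    -- the preimage under the bijection at `p`
    by_cases h' : G.Adj p (par G o p)
    · set a' : V := (e0 p (ext G o o' e0 p) ⟨par G o p, h'⟩ : V) with ha'
      set b := ext G o o' e0 (par G o p) with hb
      have hpo : p ≠ o := by rintro rfl; rw [par_root] at h'; exact G.loopless.irrefl _ h'
      have hA := hp.2 hpo
      have hw : G.Adj (ext G o o' e0 p) (Equiv.swap a' b z) := by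
        rw [Equiv.swap_apply_def]
        split_ifs
        · exact hA.symm
        · exact (e0 p (ext G o o' e0 p) ⟨par G o p, h'⟩).2
        · exact hq.symm
      set x : {z // G.Adj p z} := (e0 p (ext G o o' e0 p)).symm ⟨_, hw⟩ with hx
      have hval : Equiv.swap a' b (e0 p (ext G o o' e0 p) x : V) = z := by
        rw [hx, Equiv.apply_symm_apply]; exact Equiv.swap_apply_self _ _ _
      have hxp : G.Adj p x := x.2
      have hstep : stepMap G o o' e0 p x = z := by
        simp only [stepMap, dif_pos hxp, dif_pos h', Subtype.coe_eta]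
        exact hval
      have hne : (x : V) ≠ par G o p := by
        intro h
        have h2 : x = ⟨par G o p, h'⟩ := Subtype.ext h
        rw [h2, ← ha', Equiv.swap_apply_left] at hval
        have h4 := (ext_spec hT (e0 := e0) (o := o) (o' := o') (par G o p)).1
        have := (par_spec hT hpo).2
        rw [← hb, hval] at h4
        have := hp.1
        omega
      have hdx : G.dist o (x : V) = G.dist o p + 1 := by
        rcases hT.dist_eq_dist_add_one_of_adj o hxp with h | h
        · exact absurd (par_eq hT hxp h).symm hne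
        · exact h
      exact ⟨x, by rw [ext_step hT (fun h => by rw [h] at hdx; simp at hdx),
        par_eq hT hxp.symm hdx, hstep]⟩
    · have hpo : p = o := by
        by_contra hne; exact h' (par_spec hT hne).1
      subst hpo
      set x : {z // G.Adj p z} := (e0 p (ext G p o' e0 p)).symm ⟨z, hq.symm⟩ with hx
      refine ⟨x, ?_⟩
      have hxo : (x : V) ≠ p := (G.ne_of_adj x.2).symm
      have hdx : G.dist p (x : V) = G.dist p p + 1 := by
        rw [SimpleGraph.dist_self, dist_eq_one_iff_adj.2 x.2]
      rw [ext_step hT hxo, par_eq hT (G.adj_symm x.2) hdx, stepMap, dif_pos x.2, dif_neg h',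
        Subtype.coe_eta, hx, Equiv.apply_symm_apply]

/-- The automorphism extending `o ↦ o'`. -/
noncomputable def extIso (hT : G.IsTree) (o o' : V)
    (e0 : ∀ x y : V, {z // G.Adj x z} ≃ {z // G.Adj y z}) : G ≃g G where
  toEquiv := Equiv.ofBijective (ext G o o' e0) ⟨ext_injective hT, ext_surjective hT⟩
  map_rel_iff' := by
    intro a b
    show G.Adj (ext G o o' e0 a) (ext G o o' e0 b) ↔ G.Adj a b
    have ha := ext_spec hT (e0 := e0) (o := o) (o' := o') a
    have hb := ext_spec hT (e0 := e0) (o := o) (o' := o') b
    constructor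
    · intro h
      rcases hT.dist_eq_dist_add_one_of_adj o' h with hd | hd
      · rw [ha.1, hb.1] at hd
        have hao : a ≠ o := fun h => by rw [h] at hd; simp at hd
        have hp := ext_spec hT (e0 := e0) (o := o) (o' := o') (par G o a)
        have he := closer_unique hT (ha.2 hao).symm h
          (by rw [ha.1, hp.1]; exact (par_spec hT hao).2) (by rw [ha.1, hb.1]; exact hd)
        rw [← ext_injective hT he]
        exact (par_spec hT hao).1
      · rw [ha.1, hb.1] at hd
        have hbo : b ≠ o := fun h => by rw [h] at hd; simp at hd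
        have hp := ext_spec hT (e0 := e0) (o := o) (o' := o') (par G o b)
        have he := closer_unique hT (hb.2 hbo).symm h.symm
          (by rw [hb.1, hp.1]; exact (par_spec hT hbo).2) (by rw [ha.1, hb.1]; exact hd)
        rw [← ext_injective hT he]
        exact (par_spec hT hbo).1.symm
    · intro h
      rcases hT.dist_eq_dist_add_one_of_adj o h with hd | hd
      · have hao : a ≠ o := fun h => by rw [h] at hd; simp at hd
        have := ha.2 hao
        rw [par_eq hT h hd] at this
        exact this.symm
      · have hbo : b ≠ o := fun h => by rw [h] at hd; simp at hd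
        have := hb.2 hbo
        rw [par_eq hT h.symm hd] at this
        exact this

lemma extIso_apply (hT : G.IsTree) (e0 : ∀ x y : V, {z // G.Adj x z} ≃ {z // G.Adj y z}) (x : V) :
    extIso hT o o' e0 x = ext G o o' e0 x := rfl

lemma exists_nbr_equiv {d : ℕ} (hd : 0 < d) (hdeg : ∀ v, (G.neighborSet v).ncard = d) :
    Nonempty (∀ x y : V, {z // G.Adj x z} ≃ {z // G.Adj y z}) := by
  refine ⟨fun x y => Nonempty.some (show Nonempty (G.neighborSet x ≃ G.neighborSet y) from ?_)⟩
  haveI : Finite (G.neighborSet x) := (Set.finite_of_ncard_pos (by rw [hdeg]; exact hd)).to_subtype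
  haveI : Finite (G.neighborSet y) := (Set.finite_of_ncard_pos (by rw [hdeg]; exact hd)).to_subtype
  exact Finite.card_eq.1 (by rw [Nat.card_coe_set_eq, Nat.card_coe_set_eq, hdeg, hdeg])

lemma exists_branch_swap (hT : G.IsTree) {d : ℕ} (hd : 0 < d)
    (hdeg : ∀ v, (G.neighborSet v).ncard = d) {u p a b : V} (ha : G.Adj p a) (hb : G.Adj p b)
    (hda : G.dist u a = G.dist u p + 1) (hdb : G.dist u b = G.dist u p + 1) :
    ∃ g : G ≃g G, g u = u ∧ g a = b := by
  classical
  obtain ⟨f⟩ := exists_nbr_equiv hd hdeg
  let s : V → Equiv.Perm V := fun x => if x = p then Equiv.swap a b else 1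
  have hs : ∀ x z, G.Adj x z ↔ G.Adj x (s x z) := by
    intro x z
    by_cases hx : x = p
    · subst hx
      simp only [s, if_true, Equiv.swap_apply_def]
      split_ifs with h1 h2
      · exact iff_of_true (h1 ▸ ha) hb
      · exact iff_of_true (h2 ▸ hb) ha
      · exact Iff.rfl
    · simp [s, hx]
  let e0 : ∀ x y : V, {z // G.Adj x z} ≃ {z // G.Adj y z} := fun x y =>
    if h : x = y then (s x).subtypeEquiv (fun z => (hs x z).trans (by rw [h])) else f x y
  have hself : ∀ x z (hz : G.Adj x z), (e0 x x ⟨z, hz⟩ : V) = s x z := fun x z hz => by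
    simp only [e0, dif_pos]; rfl
  have hfix : ∀ n x, G.dist u x = n → n ≤ G.dist u p → ext G u u e0 x = x := by
    intro n
    induction n using Nat.strong_induction_on with
    | _ n ih =>
      intro x hn hle
      by_cases hxu : x = u
      · subst hxu; exact ext_root
      obtain ⟨hadj, hdist⟩ := par_spec hT hxu
      have hq := ih (G.dist u (par G u x)) (by omega) _ rfl (by omega)
      have hqp : par G u x ≠ p := fun h => by rw [h] at hdist; omega
      rw [ext_step hT hxu, stepMap, dif_pos hadj.symm, hq, hself]
      by_cases hq' : par G u x = u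
      · rw [hq', par_root, dif_neg (G.loopless.irrefl u)]
        simp [s, show u ≠ p from hq' ▸ hqp]
      · obtain ⟨hadj', hdist'⟩ := par_spec hT hq'
        rw [dif_pos hadj', hself,
          ih (G.dist u (par G u (par G u x))) (by omega) _ rfl (by omega)]
        simp [s, hqp]
  refine ⟨extIso hT u u e0, by rw [extIso_apply, ext_root], ?_⟩
  have hau : a ≠ u := fun h => by rw [h] at hda; simp at hda
  have hp := hfix _ p rfl le_rfl
  rw [extIso_apply, ext_step hT hau, par_eq hT ha.symm hda, stepMap, dif_pos ha, hp, hself]
  simp only [s, if_true, Equiv.swap_apply_left]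
  by_cases hpu : p = u
  · subst hpu
    rw [par_root, dif_neg (G.loopless.irrefl p)]
  · obtain ⟨hadj', hdist'⟩ := par_spec hT hpu
    have h1 : par G u p ≠ a := fun h => by rw [h] at hdist'; omega
    have h2 : par G u p ≠ b := fun h => by rw [h] at hdist'; omega
    rw [dif_pos hadj', hself, hfix _ _ rfl (by omega)]
    simp [s, Equiv.swap_apply_of_ne_of_ne h1 h2]

/-- Pairs at equal distance are equivalent under automorphisms. -/
lemma exists_iso_pair (hT : G.IsTree) {d : ℕ} (hd : 0 < d)
    (hdeg : ∀ v, (G.neighborSet v).ncard = d) :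
    ∀ (n : ℕ) (u v u' v' : V), G.dist u v = n → G.dist u' v' = n →
      ∃ g : G ≃g G, g u = u' ∧ g v = v' := by
  intro n
  induction n with
  | zero =>
    intro u v u' v' h h'
    obtain ⟨e0⟩ := exists_nbr_equiv hd hdeg
    rw [hT.connected.dist_eq_zero_iff] at h h'
    subst h h'
    exact ⟨extIso hT u u' e0, ext_root, ext_root⟩
  | succ n ih =>
    intro u v u' v' h h'
    have hvu : v ≠ u := fun e => by rw [e] at h; simp at h
    have hvu' : v' ≠ u' := fun e => by rw [e] at h'; simp at h'
    obtain ⟨p, hp, hpd⟩ := exists_closer hT hvu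
    obtain ⟨p', hp', hpd'⟩ := exists_closer hT hvu'
    obtain ⟨g, hgu, hgp⟩ := ih u p u' p' (by omega) (by omega)
    have hgdist : G.dist u' (g v) = G.dist u' p' + 1 := by
      have hA : G.Adj p' (g v) := hgp ▸ g.map_rel_iff.2 hp.symm
      rcases hT.dist_eq_dist_add_one_of_adj u' hA with e | e
      · exfalso
        have hp'u : p' ≠ u' := fun e' => by rw [e'] at e; simp at e
        -- the closer neighbour of `p'` has a closer preimage
        obtain ⟨q, hq, hqd⟩ := exists_closer hT (u := u) (x := p)
          (fun e' => hp'u (by rw [← hgp, e', hgu]))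
        have hk : ∀ x, G.dist u' (g x) ≤ G.dist u x := fun x => by
          obtain ⟨w, hw⟩ := hT.connected.exists_walk_length_eq_dist u x
          have hle := dist_le (w.map g.toHom)
          rw [Walk.length_map, hw] at hle
          rw [← hgu]
          exact hle
        have hgq : G.dist u' p' = G.dist u' (g q) + 1 := by
          have hA' : G.Adj p' (g q) := hgp ▸ g.map_rel_iff.2 hq
          rcases hT.dist_eq_dist_add_one_of_adj u' hA' with e' | e'
          · exact e'
          · have := hk q; omega
        have hqv : g v = g q := closer_unique hT hA (hgp ▸ g.map_rel_iff.2 hq) e hgq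
        have := g.injective hqv
        subst this
        omega
      · exact e
    obtain ⟨g', hg'u, hg'a⟩ := exists_branch_swap hT hd hdeg (u := u') (p := p') (a := g v) (b := v')
      (hgp ▸ g.map_rel_iff.2 hp.symm) hp'.symm hgdist hpd'
    exact ⟨g.trans g', by simp [hgu, hg'u], by simp [hg'a]⟩

end Vale.Agent.P161
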