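import Mathlib.MeasureTheory.Function.JacobianOneDim
import Mathlib.Analysis.SpecialFunctions.Integrals.Basic
import Mathlib.Analysis.Calculus.Deriv.Pow
import Mathlib.Analysis.Calculus.Deriv.Mul
import Mathlib.Analysis.Calculus.Deriv.Add
import Mathlib.MeasureTheory.Integral.Bochner.Basic
import Mathlib.Analysis.SpecialFunctions.Pow.Real
import Mathlib.Probability.ProductMeasure

/-!
# P161: the observation channel

Given the value `a` (a bias), the observation lies in `[-1, 1]` and has density `(1 + a y) / 2`.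
`chF a` is its distribution function and `chQ a` the inverse of `chF a`.
-/

open MeasureTheory

namespace Vale.Agent.P161

/-- Clamp to `[-1, 1]`. -/
noncomputable def clY (y : ℝ) : ℝ := max (-1) (min 1 y)

/-- Clamp to `[0, 1]`. -/
noncomputable def clZ (z : ℝ) : ℝ := max 0 (min 1 z)

lemma abs_clY (y : ℝ) : |clY y| ≤ 1 := by
  rw [abs_le]; simp [clY]

lemma clY_of_abs_le {y : ℝ} (h : |y| ≤ 1) : clY y = y := by
  obtain ⟨h1, h2⟩ := abs_le.1 h
  simp [clY, h1, h2]

lemma clZ_mem (z : ℝ) : 0 ≤ clZ z ∧ clZ z ≤ 1 := by simp [clZ]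

lemma clZ_of_mem {z : ℝ} (h : 0 ≤ z) (h' : z ≤ 1) : clZ z = z := by simp [clZ, h, h']

lemma abs_clY_sub (y y' : ℝ) : |clY y - clY y'| ≤ |y - y'| :=
  (abs_max_sub_max_le_max _ _ _ _).trans (by
    simpa using (abs_min_sub_min_le_max (1 : ℝ) y 1 y').trans (le_of_eq (by simp)))

lemma abs_clZ_sub (y y' : ℝ) : |clZ y - clZ y'| ≤ |y - y'| :=
  (abs_max_sub_max_le_max _ _ _ _).trans (by
    simpa using (abs_min_sub_min_le_max (1 : ℝ) y 1 y').trans (le_of_eq (by simp)))

lemma continuous_clY : Continuous clY := continuous_const.max (continuous_const.min continuous_id)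

lemma continuous_clZ : Continuous clZ := continuous_const.max (continuous_const.min continuous_id)

/-- Distribution function of the observation with bias `a`. -/
noncomputable def chF (a y : ℝ) : ℝ := (clY y + 1) / 2 + a * (clY y ^ 2 - 1) / 4

/-- The inverse of `chF a`. -/
noncomputable def chQ (a z : ℝ) : ℝ :=
  (4 * clZ z - 2 + a) / (1 + Real.sqrt ((1 - a) ^ 2 + 4 * a * clZ z))

lemma chQ_aux {a : ℝ} (ha : |a| < 1) {x : ℝ} (h0 : 0 ≤ x) (h1 : x ≤ 1) :
    |(4 * x - 2 + a) / (1 + Real.sqrt ((1 - a) ^ 2 + 4 * a * x))| ≤ 1 ∧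
    ((4 * x - 2 + a) / (1 + Real.sqrt ((1 - a) ^ 2 + 4 * a * x)) + 1) / 2 +
      a * (((4 * x - 2 + a) / (1 + Real.sqrt ((1 - a) ^ 2 + 4 * a * x))) ^ 2 - 1) / 4 = x := by
  obtain ⟨ha1, ha2⟩ := abs_lt.1 ha
  have hD : 0 ≤ (1 - a) ^ 2 + 4 * a * x := by
    rcases le_total 0 a with h | h
    · positivity
    · nlinarith [sq_nonneg (1 + a), mul_le_mul_of_nonpos_left h1 h]
  set s := Real.sqrt ((1 - a) ^ 2 + 4 * a * x) with hs
  have hs0 : 0 ≤ s := Real.sqrt_nonneg _
  have hs2 : s ^ 2 = (1 - a) ^ 2 + 4 * a * x := Real.sq_sqrt hD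
  refine ⟨?_, ?_⟩
  · rw [abs_div, abs_of_pos (show (0 : ℝ) < 1 + s by linarith), div_le_one (by linarith), abs_le]
    refine ⟨?_, ?_⟩
    · by_contra hlt
      push Not at hlt
      have : -(4 * x - 1 + a) > s := by linarith
      have h2 : s ^ 2 < (4 * x - 1 + a) ^ 2 := by nlinarith
      nlinarith [mul_nonneg h0 (show (0 : ℝ) ≤ 2 - a - 4 * x by linarith)]
    · by_contra hlt
      push Not at hlt
      have : 4 * x - 3 + a > s := by linarith
      have h2 : s ^ 2 < (4 * x - 3 + a) ^ 2 := by nlinarith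
      nlinarith [mul_nonneg (show (0 : ℝ) ≤ 1 - x by linarith)
        (show (0 : ℝ) ≤ 4 * x - 2 + a by linarith)]
  · field_simp
    linear_combination (2 * (2 - 4 * x - a)) * hs2

lemma abs_chQ {a : ℝ} (ha : |a| < 1) (z : ℝ) : |chQ a z| ≤ 1 :=
  (chQ_aux ha (clZ_mem z).1 (clZ_mem z).2).1

lemma chF_chQ {a : ℝ} (ha : |a| < 1) (z : ℝ) : chF a (chQ a z) = clZ z := by
  rw [chF, clY_of_abs_le (abs_chQ ha z)]
  exact (chQ_aux ha (clZ_mem z).1 (clZ_mem z).2).2

lemma chF_sub {a y y' : ℝ} :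
    chF a y - chF a y' = (clY y - clY y') * (1 / 2 + a * (clY y + clY y') / 4) := by
  simp [chF]; ring

lemma chF_mem {a : ℝ} (ha : |a| ≤ 1) (y : ℝ) : 0 ≤ chF a y ∧ chF a y ≤ 1 := by
  obtain ⟨h1, h2⟩ := abs_le.1 (abs_clY y)
  obtain ⟨h3, h4⟩ := abs_le.1 ha
  constructor <;> simp only [chF] <;>
    nlinarith [mul_nonneg (sub_nonneg.2 h2) (sub_nonneg.2 h1),
      mul_nonneg (sub_nonneg.2 h3) (sub_nonneg.2 h4)]

lemma chQ_chF {a : ℝ} (ha : |a| < 1) {y : ℝ} (hy : |y| ≤ 1) : chQ a (chF a y) = y := by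
  have h := chF_chQ ha (chF a y)
  rw [clZ_of_mem (chF_mem ha.le y).1 (chF_mem ha.le y).2] at h
  have hq := abs_chQ ha (chF a y)
  have h2 := sub_eq_zero.2 h
  rw [chF_sub, clY_of_abs_le hq, clY_of_abs_le hy, mul_eq_zero] at h2
  rcases h2 with h2 | h2
  · linarith
  · exfalso
    obtain ⟨h5, h6⟩ := abs_le.1 hy
    obtain ⟨h7, h8⟩ := abs_le.1 hq
    obtain ⟨h9, h10⟩ := abs_lt.1 ha
    have : |a * (chQ a (chF a y) + y)| < 2 := by
      rw [abs_mul]
      have : |chQ a (chF a y) + y| ≤ 2 := abs_le.2 ⟨by linarith, by linarith⟩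
      nlinarith [abs_nonneg a, abs_nonneg (chQ a (chF a y) + y)]
    obtain ⟨h11, -⟩ := abs_lt.1 this
    linarith

lemma abs_chF_sub_bias (a b y : ℝ) : |chF a y - chF b y| ≤ |a - b| / 4 := by
  have : chF a y - chF b y = (a - b) * (clY y ^ 2 - 1) / 4 := by simp [chF]; ring
  rw [this, abs_div, abs_mul, abs_of_pos (show (0 : ℝ) < 4 by norm_num)]
  obtain ⟨h1, h2⟩ := abs_le.1 (abs_clY y)
  have : |clY y ^ 2 - 1| ≤ 1 := abs_le.2 ⟨by nlinarith, by nlinarith⟩
  gcongr
  nlinarith [abs_nonneg (a - b)]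

lemma abs_chQ_sub {a b : ℝ} (ha : |a| ≤ 1 / 2) (hb : |b| ≤ 1 / 2) (z z' : ℝ) :
    |chQ a z - chQ b z'| ≤ 4 * |z - z'| + |a - b| := by
  have ha' : |a| < 1 := by linarith
  have hb' : |b| < 1 := by linarith
  set q := chQ a z
  set q' := chQ b z'
  have hq : |q| ≤ 1 := abs_chQ ha' z
  have hq' : |q'| ≤ 1 := abs_chQ hb' z'
  have e : (clZ z - clZ z') - (chF a q' - chF b q') = (q - q') * (1 / 2 + a * (q + q') / 4) := by
    have h1 : chF a q = clZ z := chF_chQ ha' z
    have h2 : chF b q' = clZ z' := chF_chQ hb' z'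
    have := chF_sub (a := a) (y := q) (y' := q')
    rw [clY_of_abs_le hq, clY_of_abs_le hq'] at this
    linarith
  obtain ⟨h1, h2⟩ := abs_le.1 hq
  obtain ⟨h3, h4⟩ := abs_le.1 hq'
  obtain ⟨h5, h6⟩ := abs_le.1 ha
  have hfac : 1 / 4 ≤ 1 / 2 + a * (q + q') / 4 := by
    nlinarith [mul_nonneg (show (0 : ℝ) ≤ 1 / 2 + a by linarith) (show (0 : ℝ) ≤ 2 + (q + q') by linarith),
      mul_nonneg (show (0 : ℝ) ≤ 1 / 2 - a by linarith) (show (0 : ℝ) ≤ 2 - (q + q') by linarith)]
  have hm := congrArg abs e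
  rw [abs_mul, abs_of_nonneg (le_trans (by norm_num) hfac)] at hm
  have h7 := abs_sub (clZ z - clZ z') (chF a q' - chF b q')
  have h8 := abs_clZ_sub z z'
  have h9 := abs_chF_sub_bias a b q'
  nlinarith [mul_le_mul_of_nonneg_left hfac (abs_nonneg (q - q'))]

lemma continuous_chQ : Continuous (fun p : ℝ × ℝ => chQ p.1 p.2) := by
  unfold chQ
  refine Continuous.div ?_ ?_ fun p => (add_pos_of_pos_of_nonneg one_pos (Real.sqrt_nonneg _)).ne'
  · exact ((continuous_const.mul (continuous_clZ.comp continuous_snd)).sub continuous_const).add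
      continuous_fst
  · exact continuous_const.add (Real.continuous_sqrt.comp
      (((continuous_const.sub continuous_fst).pow 2).add
        ((continuous_const.mul continuous_fst).mul (continuous_clZ.comp continuous_snd))))

lemma continuous_chF : Continuous (fun p : ℝ × ℝ => chF p.1 p.2) := by
  unfold chF
  exact (((continuous_clY.comp continuous_snd).add continuous_const).div_const _).add
    ((continuous_fst.mul (((continuous_clY.comp continuous_snd).pow 2).sub continuous_const)).div_const _)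

/-- The uniform law on `[0, 1]`. -/
noncomputable def unifR : Measure ℝ := volume.restrict (Set.Icc 0 1)

instance : IsProbabilityMeasure unifR :=
  ⟨by simp [unifR, Measure.restrict_apply, Real.volume_Icc]⟩

lemma ae_unifR_mem : ∀ᵐ x ∂unifR, 0 ≤ x ∧ x ≤ 1 :=
  ae_restrict_mem (μ := volume) measurableSet_Icc

/-- The map `u ↦ 2 u - 1`. -/
noncomputable def xi (u : ℝ) : ℝ := 2 * clZ u - 1

lemma abs_xi (u : ℝ) : |xi u| ≤ 1 := by
  obtain ⟨h1, h2⟩ := clZ_mem u
  rw [xi, abs_le]; constructor <;> linarith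

lemma continuous_xi : Continuous xi := (continuous_const.mul continuous_clZ).sub continuous_const

/-- Change of variables: `chQ a` pushes the uniform law to the density `1 + a xi`. -/
lemma integral_chQ {a : ℝ} (ha : |a| < 1) (ψ : ℝ → ℝ) :
    ∫ x, ψ (chQ a x) ∂unifR = ∫ x, (1 + a * xi x) * ψ (xi x) ∂unifR := by
  obtain ⟨ha1, ha2⟩ := abs_lt.1 ha
  let g : ℝ → ℝ := fun x => x + a * (x ^ 2 - x)
  have hd : ∀ x ∈ Set.Icc (0 : ℝ) 1,
      HasDerivWithinAt g (1 + a * (2 * x - 1)) (Set.Icc 0 1) x := fun x _ => by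
    have h1 : HasDerivAt (fun y : ℝ => y ^ 2 - y) (2 * x - 1) x := by
      have h := HasDerivAt.sub (hasDerivAt_pow 2 x) (hasDerivAt_id x)
      exact h.congr_deriv (by simp)
    exact (HasDerivAt.add (hasDerivAt_id x) (HasDerivAt.const_mul a h1)).hasDerivWithinAt
  have hpos : ∀ x ∈ Set.Icc (0 : ℝ) 1, 0 < 1 + a * (2 * x - 1) := fun x hx => by
    have h : |a * (2 * x - 1)| < 1 := by
      rw [abs_mul]
      have : |2 * x - 1| ≤ 1 := abs_le.2 ⟨by linarith [hx.1], by linarith [hx.2]⟩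
      nlinarith [abs_nonneg a, abs_nonneg (2 * x - 1)]
    linarith [(abs_lt.1 h).1]
  have hg : ∀ x ∈ Set.Icc (0 : ℝ) 1, g x = chF a (xi x) := fun x hx => by
    simp only [g, chF, clY_of_abs_le (abs_xi x)]
    rw [xi, clZ_of_mem hx.1 hx.2]; ring
  have hinj : Set.InjOn g (Set.Icc 0 1) := fun x hx y hy h => by
    rw [hg x hx, hg y hy] at h
    have := congrArg (chQ a) h
    rw [chQ_chF ha (abs_xi x), chQ_chF ha (abs_xi y)] at this
    rw [xi, xi, clZ_of_mem hx.1 hx.2, clZ_of_mem hy.1 hy.2] at this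
    linarith
  have himg : g '' Set.Icc 0 1 = Set.Icc 0 1 := by
    ext z
    constructor
    · rintro ⟨x, hx, rfl⟩
      rw [hg x hx]
      exact chF_mem ha.le _
    · intro hz
      obtain ⟨h1, h2⟩ := abs_le.1 (abs_chQ ha z)
      refine ⟨(chQ a z + 1) / 2, ⟨by linarith, by linarith⟩, ?_⟩
      rw [hg _ ⟨by linarith, by linarith⟩, xi, clZ_of_mem (by linarith) (by linarith),
        show 2 * ((chQ a z + 1) / 2) - 1 = chQ a z by ring, chF_chQ ha, clZ_of_mem hz.1 hz.2]
  have key := integral_image_eq_integral_abs_deriv_smul measurableSet_Icc hd hinj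
    (fun z => ψ (chQ a z))
  rw [himg] at key
  rw [unifR, key]
  refine setIntegral_congr_fun measurableSet_Icc fun x hx => ?_
  rw [smul_eq_mul, abs_of_pos (hpos x hx), hg x hx, chQ_chF ha (abs_xi x), xi,
    clZ_of_mem hx.1 hx.2]

lemma integral_xi : ∫ x, xi x ∂unifR = 0 ∧ ∫ x, xi x * xi x ∂unifR = 1 / 3 := by
  constructor
  · rw [unifR, setIntegral_congr_fun measurableSet_Icc (g := fun x : ℝ => 2 * x - 1)
      (fun x hx => by rw [xi, clZ_of_mem hx.1 hx.2]), integral_Icc_eq_integral_Ioc,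
      ← intervalIntegral.integral_of_le zero_le_one]
    rw [intervalIntegral.integral_sub (Continuous.intervalIntegrable (by fun_prop) _ _)
      (Continuous.intervalIntegrable (by fun_prop) _ _), intervalIntegral.integral_const_mul,
      integral_id]
    simp
  · rw [unifR, setIntegral_congr_fun measurableSet_Icc
      (g := fun x : ℝ => 4 * x ^ 2 - 4 * x + 1)
      (fun x hx => by rw [xi, clZ_of_mem hx.1 hx.2]; ring), integral_Icc_eq_integral_Ioc,
      ← intervalIntegral.integral_of_le zero_le_one]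
    rw [intervalIntegral.integral_add (Continuous.intervalIntegrable (by fun_prop) _ _)
        (Continuous.intervalIntegrable (by fun_prop) _ _),
      intervalIntegral.integral_sub (Continuous.intervalIntegrable (by fun_prop) _ _)
        (Continuous.intervalIntegrable (by fun_prop) _ _), intervalIntegral.integral_const_mul,
      intervalIntegral.integral_const_mul, integral_id, integral_pow]
    norm_num

/-- The mean of an observation with bias `a`. -/
lemma integral_chQ_id {a : ℝ} (ha : |a| < 1) : ∫ x, chQ a x ∂unifR = a / 3 := by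
  rw [show (fun x => chQ a x) = fun x => id (chQ a x) from rfl, integral_chQ ha id]
  have hb : ∀ f : ℝ → ℝ, Continuous f → (∀ x, |f x| ≤ 1) → Integrable f unifR := fun f hf hb =>
    Integrable.of_bound hf.aestronglyMeasurable 1 (ae_of_all _ hb)
  have h2 : ∀ x, |xi x * xi x| ≤ 1 := fun x => by
    rw [abs_mul]; exact mul_le_one₀ (abs_xi x) (abs_nonneg _) (abs_xi x)
  simp only [id, add_mul, one_mul, mul_assoc]
  rw [integral_add (hb xi continuous_xi abs_xi)
      ((hb (fun x => xi x * xi x) (continuous_xi.mul continuous_xi) h2).const_mul a),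
    integral_const_mul, integral_xi.1, integral_xi.2]
  ring

end Vale.Agent.P161
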