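import Vale.Agent.P161.Main
import Vale.Agent.P161.Automorphism
import Mathlib.MeasureTheory.Measure.MeasuredSets

/-!
# P161: no factor of IID above the threshold
-/

open MeasureTheory SimpleGraph Finset

namespace Vale.Agent.P161

variable {V : Type*} {G : SimpleGraph V} {θ : ℝ}

/-- One uniform label per vertex. -/
noncomputable def labels (V : Type*) : Measure (V → unitInterval) :=
  Measure.infinitePi fun _ : V => (volume : Measure unitInterval)

instance : IsProbabilityMeasure (labels V) := by unfold labels; infer_instance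

lemma map_labels_comp (π : V ≃ V) :
    (labels V).map (fun u i => u (π i)) = labels V := by
  have hm : Measurable fun (u : V → unitInterval) i => u (π i) :=
    measurable_pi_lambda _ fun i => measurable_pi_apply (π i)
  refine Measure.eq_infinitePi _ fun s q hq => ?_
  rw [Measure.map_apply hm (MeasurableSet.pi s.countable_toSet fun i _ => hq i)]
  have : (fun (u : V → unitInterval) i => u (π i)) ⁻¹' Set.pi (s : Set V) q =
      Set.pi ((s.map π.toEmbedding : Finset V) : Set V) (fun j => q (π.symm j)) := by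
    ext u
    simp only [Set.mem_preimage, Set.mem_pi, Finset.mem_coe, Finset.forall_mem_map]
    exact forall₂_congr fun i _ => by simp
  rw [this, labels, Measure.infinitePi_pi _ (fun i _ => hq _), Finset.prod_map]
  simp

/-- Functions of disjoint sets of labels are uncorrelated. -/
lemma integral_mul_disjoint {F F' : Finset V} (hFF : Disjoint F F')
    {f g : (V → unitInterval) → ℝ} (hf : Measurable f) (hg : Measurable g)
    (hfd : DependsOn f (F : Set V)) (hgd : DependsOn g (F' : Set V)) {C D : ℝ}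
    (hC : ∀ u, |f u| ≤ C) (hD : ∀ u, |g u| ≤ D) :
    ∫ u, f u * g u ∂labels V = (∫ u, f u ∂labels V) * ∫ u, g u ∂labels V := by
  classical
  let m : (V → unitInterval) × (V → unitInterval) → V → unitInterval :=
    fun p i => if i ∈ F then p.1 i else p.2 i
  have hm : Measurable m := measurable_pi_lambda _ fun i => by
    by_cases hi : i ∈ F
    · simp only [m, if_pos hi]; exact (measurable_pi_apply i).comp measurable_fst
    · simp only [m, if_neg hi]; exact (measurable_pi_apply i).comp measurable_snd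
  have hmap : ((labels V).prod (labels V)).map m = labels V := by
    refine Measure.eq_infinitePi _ fun s t ht => ?_
    rw [Measure.map_apply hm (MeasurableSet.pi s.countable_toSet fun i _ => ht i)]
    have : m ⁻¹' Set.pi (s : Set V) t =
        Set.pi ((s.filter (· ∈ F) : Finset V) : Set V) t ×ˢ
          Set.pi ((s.filter (· ∉ F) : Finset V) : Set V) t := by
      ext p
      simp only [Set.mem_preimage, Set.mem_pi, Finset.mem_coe, m, Set.mem_prod, Finset.mem_filter]
      constructor
      · intro h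
        exact ⟨fun i hi => by simpa [hi.2] using h i hi.1, fun i hi => by simpa [hi.2] using h i hi.1⟩
      · intro h i hi
        by_cases hF : i ∈ F
        · simpa [hF] using h.1 i ⟨hi, hF⟩
        · simpa [hF] using h.2 i ⟨hi, hF⟩
    rw [this, Measure.prod_prod, labels, Measure.infinitePi_pi _ (fun i _ => ht i),
      Measure.infinitePi_pi _ (fun i _ => ht i), Finset.prod_filter_mul_prod_filter_not]
  have hCD : ∀ u, |f u * g u| ≤ C * D := fun u => by
    rw [abs_mul]
    exact mul_le_mul (hC u) (hD u) (abs_nonneg _) ((abs_nonneg _).trans (hC u))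
  conv_lhs => rw [← hmap]
  rw [integral_map (f := fun u => f u * g u) hm.aemeasurable (hf.mul hg).aestronglyMeasurable,
    integral_prod (f := fun p => f (m p) * g (m p))
      (integrable_of_abs_le ((hf.comp hm).mul (hg.comp hm)) fun p => hCD _)]
  have e : ∀ z u, f (m (z, u)) * g (m (z, u)) = f z * g u := fun z u => by
    rw [hfd (x := m (z, u)) (y := z) fun i hi => by simp [m, mem_coe.1 hi],
      hgd (x := m (z, u)) (y := u) fun i hi => by
        simp [m, Finset.disjoint_right.1 hFF (mem_coe.1 hi)]]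
  simp only [e, integral_const_mul, integral_mul_const]

lemma two_point (hT : G.IsTree) (hθ0 : 0 ≤ θ) (hθ : θ < 1) {μ : Measure (V → Bool)}
    (h : IsFreeIsing G θ μ) (u v : V) :
    ∫ σ, sgn (σ u) * sgn (σ v) ∂μ = θ ^ G.dist u v := by
  classical
  haveI := h.1
  induction hn : G.dist u v using Nat.strong_induction_on generalizing v with
  | _ n ih =>
    by_cases hvu : v = u
    · subst hvu
      rw [SimpleGraph.dist_self] at hn
      subst hn
      simp [sgn_mul_self]
    obtain ⟨p, hp, hpd⟩ := exists_closer hT hvu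
    -- the geodesic from `u` to `p`
    obtain ⟨w, hw, hwl⟩ := hT.connected.exists_path_of_dist u p
    let B : Finset V := w.support.toFinset
    have hBd : ∀ x ∈ B, G.dist u x ≤ G.dist u p := fun x hx => by
      rw [List.mem_toFinset] at hx
      rw [← hwl]
      exact (dist_le (w.takeUntil x hx)).trans (w.length_takeUntil_le_length hx)
    have huB : u ∈ B := List.mem_toFinset.2 w.start_mem_support
    have hpB : p ∈ B := List.mem_toFinset.2 w.end_mem_support
    have hmem : ∀ x, x ∈ B ↔ x ∈ w.support := fun x => List.mem_toFinset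
    have hB : (G.induce (B : Set V)).Connected := by
      rw [connected_iff_exists_forall_reachable]
      refine ⟨⟨u, huB⟩, fun x => ?_⟩
      have hxs : (x : V) ∈ w.support := (hmem x).1 x.2
      exact ((w.takeUntil x hxs).induce (B : Set V) fun y hy =>
        (hmem y).2 (w.support_takeUntil_subset_support hxs hy)).reachable
    have hvB : v ∉ B := fun hv => by have := hBd v hv; omega
    have hins : (G.induce ((insert v B : Finset V) : Set V)).Connected := by
      refine connected_of_closer (u := u) (mem_insert_of_mem huB) fun x hx hxu => ?_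
      rcases mem_insert.1 hx with rfl | hx
      · exact ⟨p, mem_insert_of_mem hpB, hp, hpd⟩
      · obtain ⟨y, hy, hyd⟩ := exists_closer hT hxu
        exact ⟨y, mem_insert_of_mem (closer_mem hT hB huB hx hy hyd), hy, hyd⟩
    have hleaf : ∀ x ∈ B, G.Adj x v → x = p := fun x hx hxv => by
      rcases hT.dist_eq_dist_add_one_of_adj u hxv with h' | h'
      · exact absurd (closer_mem hT hB huB hx hxv h') hvB
      · exact closer_unique hT hxv.symm hp h' hpd
    have := leaf_integral (abs_le.2 ⟨by linarith, hθ.le⟩) h hB hvB hpB hins hp.symm hleaf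
      (f := fun σ => sgn (σ u)) (fun σ σ' hh => by simp only [hh u huB]) sgn
    rw [this, show n = G.dist u p + 1 by omega, pow_succ,
      ← ih (G.dist u p) (by omega) p rfl, ← integral_mul_const]
    refine integral_congr_ae (ae_of_all _ fun σ => ?_)
    beta_reduce
    generalize σ u = a
    generalize σ p = b
    cases a <;> cases b <;> simp [sgn] <;> ring

lemma one_point (hθ : |θ| ≤ 1) {μ : Measure (V → Bool)} (h : IsFreeIsing G θ μ) (v : V) :
    ∫ σ, sgn (σ v) ∂μ = 0 := by
  classical
  haveI := h.1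
  have hd : DependsOn (fun σ : V → Bool => sgn (σ v)) (({v} : Finset V) : Set V) :=
    fun σ σ' hh => by simp only [hh v (by simp)]
  rw [integral_eq_sum hd]
  have he : edgesIn G ({v} : Finset V) = ∅ := by
    ext e
    induction e using Sym2.ind with
    | _ a b =>
      simp only [edgesIn, mem_filter, mem_sym2_iff, Sym2.mem_iff, forall_eq_or_imp, forall_eq,
        mem_singleton, mem_edgeSet, notMem_empty, iff_false, not_and]
      rintro ⟨rfl, rfl⟩ hab
      exact hab.ne rfl
  have hr : ∀ η : V → Bool, μ.real {σ | ∀ x ∈ ({v} : Finset V), σ x = η x} = 1 / 2 := fun η => by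
    rw [measureReal_def, h.2 {v} (connected_singleton v) η,
      ENNReal.toReal_ofReal (prob_nonneg hθ _ _), he, prod_empty, mul_one]
  simp only [hr, ← sum_mul]
  rw [Fintype.sum_equiv (Equiv.funUnique ({v} : Finset V) Bool) _ (fun b => sgn b) fun η => by
    simp [extConf, Equiv.funUnique]; rfl]
  simp [sgn]

lemma amgm {f1 f2 : (V → unitInterval) → ℝ} (hf1 : Measurable f1) (hf2 : Measurable f2)
    {B1 B2 : ℝ} (hB1 : ∀ U, |f1 U| ≤ B1) (hB2 : ∀ U, |f2 U| ≤ B2) {t : ℝ} (ht : 0 < t) :
    ∫ U, f1 U * f2 U ∂labels V ≤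
      t / 2 * ∫ U, f1 U ^ 2 ∂labels V + 1 / (2 * t) * ∫ U, f2 U ^ 2 ∂labels V := by
  have hi : ∀ {f : (V → unitInterval) → ℝ}, Measurable f → ∀ {B : ℝ}, (∀ U, |f U| ≤ B) →
      Integrable (fun U => f U ^ 2) (labels V) := fun {f} hf {B} hB =>
    integrable_of_abs_le (hf.pow_const 2) (C := B ^ 2) fun U => by
      rw [abs_pow]; exact pow_le_pow_left₀ (abs_nonneg _) (hB U) 2
  rw [← integral_const_mul, ← integral_const_mul,
    ← integral_add ((hi hf1 hB1).const_mul _) ((hi hf2 hB2).const_mul _)]
  refine integral_mono (integrable_of_abs_le (hf1.mul hf2) (C := B1 * B2) fun U => ?_)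
    (((hi hf1 hB1).const_mul _).add ((hi hf2 hB2).const_mul _)) fun U => ?_
  · rw [abs_mul]
    exact mul_le_mul (hB1 U) (hB2 U) (abs_nonneg _) ((abs_nonneg _).trans (hB1 U))
  · show f1 U * f2 U ≤ _
    rw [← sub_nonneg]
    have : t / 2 * f1 U ^ 2 + 1 / (2 * t) * f2 U ^ 2 - f1 U * f2 U =
        (t * f1 U - f2 U) ^ 2 / (2 * t) := by field_simp; ring
    rw [this]
    positivity

/-- Linearity for a split product against a finite sum. -/
lemma split_integral {X Y g Z : (V → unitInterval) → ℝ} {m : ℝ} (hX : Measurable X)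
    (hY : Measurable Y) (hZ : Measurable Z) {B : ℝ} (hXb : ∀ U, |X U| ≤ 1) (hYb : ∀ U, |Y U| ≤ 1)
    (hZb : ∀ U, |Z U| ≤ B) (hg : ∀ U, g U = Y U - m) (hm : |m| ≤ 1)
    (hZ0 : ∫ U, Z U ∂labels V = 0) :
    ∫ U, X U * Z U ∂labels V =
      (∫ U, (X U - Y U) * Z U ∂labels V) + ∫ U, g U * Z U ∂labels V := by
  have j1 : Integrable (fun U => (X U - Y U) * Z U) (labels V) :=
    integrable_of_abs_le ((hX.sub hY).mul hZ) (C := 2 * B) fun U => by
      rw [abs_mul]
      exact mul_le_mul ((abs_sub _ _).trans (by linarith [hXb U, hYb U])) (hZb U)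
        (abs_nonneg _) (by norm_num)
  have j2 : Integrable (fun U => g U * Z U) (labels V) := by
    simp only [hg]
    exact integrable_of_abs_le ((hY.sub_const m).mul hZ) (C := 2 * B) fun U => by
      rw [abs_mul]
      exact mul_le_mul ((abs_sub _ _).trans (by linarith [hYb U])) (hZb U) (abs_nonneg _)
        (by norm_num)
  have j3 : Integrable (fun U => m * Z U) (labels V) :=
    (integrable_of_abs_le hZ hZb).const_mul m
  have e : ∀ U, X U * Z U = (X U - Y U) * Z U + g U * Z U + m * Z U := fun U => by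
    rw [hg]; ring
  simp only [e]
  rw [integral_add (f := fun U => (X U - Y U) * Z U + g U * Z U) (j1.add j2) j3,
    integral_add j1 j2, integral_const_mul, hZ0, mul_zero, add_zero]

lemma threshold_arith {C N L K d θ : ℝ} {R : ℕ} (hd : 2 ≤ d - 1) (hθ : 0 < θ) (hC : 0 ≤ C)
    (hK : 0 ≤ K) (hN : N = d * (d - 1) ^ R) (hL : L = N * θ ^ (R + 1))
    (hR : 64 * K / (d * θ ^ 2) < (θ ^ 2 * (d - 1)) ^ R) {a b c A B E P : ℝ}
    (ha : a ≤ 4 * (1 / (16 * (C + 1)))) (hb : b ≤ C * L ^ 2) (hc : c ≤ N * K * 4)
    (hsplit : L = A + B) (hA : A = P) (hP : P ≤ 2 * (C + 1) * L / 2 * a + 1 / (2 * (2 * (C + 1) * L)) * b)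
    (hB : B = E) (hE : E ≤ L / 2 / 2 * 1 + 1 / (2 * (L / 2)) * c) : False := by
  have hd0 : 0 < d := by linarith
  have hd1 : 0 < d - 1 := by linarith
  have hN0 : 0 < N := by rw [hN]; positivity
  have hL0 : 0 < L := by rw [hL]; positivity
  have k1 : 2 * (C + 1) * L / 2 * a ≤ L / 4 := by
    refine (mul_le_mul_of_nonneg_left ha (by positivity)).trans (le_of_eq ?_)
    field_simp; ring
  have k2 : 1 / (2 * (2 * (C + 1) * L)) * b ≤ C / (C + 1) * L / 4 := by
    refine (mul_le_mul_of_nonneg_left hb (by positivity)).trans (le_of_eq ?_)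
    field_simp; ring
  have k3 : 1 / (2 * (L / 2)) * c ≤ N * K * 4 / L := by
    refine (mul_le_mul_of_nonneg_left hc (by positivity)).trans (le_of_eq ?_)
    field_simp
  have k4 : C / (C + 1) * L ≤ L := by
    rw [div_mul_eq_mul_div, div_le_iff₀ (by linarith)]; nlinarith
  have k5 : N * K * 4 / L < L / 4 := by
    rw [div_lt_iff₀ hL0, hL]
    rw [div_lt_iff₀ (by positivity)] at hR
    have e : N * θ ^ (R + 1) / 4 * (N * θ ^ (R + 1)) =
        N * ((θ ^ 2 * (d - 1)) ^ R * (d * θ ^ 2)) / 4 := by
      rw [hN, mul_pow, ← pow_mul]; ring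
    rw [e]
    nlinarith [mul_lt_mul_of_pos_left hR hN0, mul_nonneg hN0.le hK]
  linarith

/-- The pair sum over a sphere has order at most `N ^ 2 θ ^ (2 R)` above the threshold. -/
lemma sphere_pair_bound (hT : G.IsTree) {d : ℕ} (hd : 3 ≤ d)
    (hdeg : ∀ v, (G.neighborSet v).ncard = d) (hθ0 : 0 ≤ θ)
    (hsup : 1 < θ ^ 2 * ((d : ℝ) - 1)) (o : V) :
    ∃ C : ℝ, 0 ≤ C ∧ ∀ R : ℕ, ∃ S : Finset V, (∀ x, x ∈ S ↔ G.dist o x = R + 1) ∧
      (S.card : ℝ) = d * ((d : ℝ) - 1) ^ R ∧
      ∑ v ∈ S, ∑ w ∈ S, θ ^ G.dist v w ≤ C * ((S.card : ℝ) * θ ^ (R + 1)) ^ 2 := by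
  classical
  have hfin : ∀ v, (G.neighborSet v).Finite := fun v =>
    Set.finite_of_ncard_pos (by rw [hdeg]; omega)
  have hd' : (2 : ℝ) ≤ (d : ℝ) - 1 := by
    have : (3 : ℝ) ≤ d := by exact_mod_cast hd
    linarith
  set S : ℕ → Finset V := fun R =>
    (finite_dist_le hT hfin o (R + 1)).toFinset.filter (fun x => G.dist o x = R + 1) with hS
  have hmemS : ∀ R x, x ∈ S R ↔ G.dist o x = R + 1 := fun R x => by
    simp only [hS, mem_filter, Set.Finite.mem_toFinset, Set.mem_ofPred_eq]
    omega
  have hS0 : S 0 = (hfin o).toFinset := by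
    ext x; simp [hmemS, dist_eq_one_iff_adj]
  let ch : V → Finset V := fun p => (hfin p).toFinset.filter (fun x => G.dist o x = G.dist o p + 1)
  have hchmem : ∀ p x, x ∈ ch p ↔ G.Adj p x ∧ G.dist o x = G.dist o p + 1 := fun p x => by
    simp [ch]
  have hchcard : ∀ p, p ≠ o → (ch p).card = d - 1 := by
    intro p hpo
    obtain ⟨q, hq, hqd⟩ := exists_closer hT hpo
    have : ch p = (hfin p).toFinset.erase q := by
      ext x
      simp only [hchmem, mem_erase, Set.Finite.mem_toFinset, mem_neighborSet]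
      constructor
      · exact fun hx => ⟨fun e => by subst e; omega, hx.1⟩
      · rintro ⟨hxq, hx⟩
        refine ⟨hx, ?_⟩
        rcases hT.dist_eq_dist_add_one_of_adj o hx with e | e
        · exact absurd (closer_unique hT hx hq e hqd) hxq
        · exact e
    rw [this, card_erase_of_mem ((hfin p).mem_toFinset.2 hq),
      ← Set.ncard_eq_toFinset_card _ (hfin p), hdeg]
  have hbU : ∀ R, S (R + 1) = (S R).biUnion ch := by
    intro R
    ext x
    simp only [hmemS, mem_biUnion, hchmem]
    constructor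
    · intro hx
      obtain ⟨p, hp, hpd⟩ := exists_closer hT (u := o) (x := x) (fun e => by subst e; simp at hx)
      exact ⟨p, by omega, hp.symm, by omega⟩
    · rintro ⟨p, hp, -, hx⟩; omega
  have hdisj : ∀ R, ((S R : Finset V) : Set V).PairwiseDisjoint ch := by
    intro R p hp q hq hpq
    rw [Function.onFun, Finset.disjoint_left]
    intro x hxp hxq
    rw [hchmem] at hxp hxq
    exact hpq (closer_unique hT hxp.1.symm hxq.1.symm hxp.2 hxq.2)
  have hSne : ∀ R p, p ∈ S R → p ≠ o := fun R p hp e => by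
    rw [hmemS, e, SimpleGraph.dist_self] at hp; omega
  have hcard : ∀ R, ((S R).card : ℝ) = d * ((d : ℝ) - 1) ^ R := by
    intro R
    induction R with
    | zero => rw [hS0, ← Set.ncard_eq_toFinset_card _ (hfin o), hdeg]; simp
    | succ R ih =>
      rw [hbU, card_biUnion (hdisj R), Finset.sum_congr rfl fun p hp => hchcard p (hSne R p hp),
        sum_const, smul_eq_mul, Nat.cast_mul, ih, Nat.cast_sub (by omega), pow_succ]
      push_cast
      ring
  let T : ℕ → ℝ := fun R => ∑ v ∈ S R, ∑ w ∈ S R, θ ^ G.dist v w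
  -- children of distinct parents are two steps further apart
  have hdist : ∀ R, ∀ p ∈ S R, ∀ q ∈ S R, p ≠ q → ∀ v ∈ ch p, ∀ w ∈ ch q,
      G.dist v w = G.dist p q + 2 := by
    intro R p hp q hq hpq v hv w hw
    rw [hchmem] at hv hw
    rw [hmemS] at hp hq
    let B : Finset V := (finite_dist_le hT hfin o (R + 1)).toFinset
    have hBm : ∀ x, x ∈ B ↔ G.dist o x ≤ R + 1 := fun x => by simp [B]
    have hBc : (G.induce (B : Set V)).Connected :=
      connected_of_closer (u := o) ((hBm o).2 (by simp)) fun x hx hxo => by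
        obtain ⟨y, hy, hyd⟩ := exists_closer hT hxo
        exact ⟨y, (hBm y).2 (by have := (hBm x).1 hx; omega), hy, hyd⟩
    have hwB : w ∉ B := fun h => by have := (hBm w).1 h; omega
    have hvB : v ∉ B := fun h => by have := (hBm v).1 h; omega
    have hpB : p ∈ B := (hBm p).2 hp.le
    have hqB : q ∈ B := (hBm q).2 hq.le
    -- `w` is one step further from `p` than `q`
    have h1 : G.dist p w = G.dist p q + 1 := by
      rcases hT.dist_eq_dist_add_one_of_adj p hw.1 with e | e
      · exact absurd (closer_mem hT hBc hpB hqB hw.1 e) hwB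
      · exact e
    -- `v` is one step further from `w` than `p`
    have hins : (G.induce ((insert w B : Finset V) : Set V)).Connected :=
      connected_of_closer (u := o) (mem_insert_of_mem ((hBm o).2 (by simp))) fun x hx hxo => by
        rcases mem_insert.1 hx with rfl | hx
        · exact ⟨q, mem_insert_of_mem hqB, hw.1.symm, hw.2⟩
        · obtain ⟨y, hy, hyd⟩ := exists_closer hT hxo
          exact ⟨y, mem_insert_of_mem ((hBm y).2 (by have := (hBm x).1 hx; omega)), hy, hyd⟩
    have hvw : v ≠ w := fun e => by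
      subst e; exact hpq (closer_unique hT hv.1.symm hw.1.symm hv.2 hw.2)
    have h2 : G.dist w v = G.dist w p + 1 := by
      rcases hT.dist_eq_dist_add_one_of_adj w hv.1 with e | e
      · have hmem := closer_mem hT hins (mem_insert_self w B) (mem_insert_of_mem hpB) hv.1 e
        rcases mem_insert.1 hmem with h | h
        · exact absurd h hvw
        · exact absurd h hvB
      · exact e
    rw [dist_comm, h2, dist_comm, h1]
  have hrec : ∀ R, T (R + 1) ≤
      ((d : ℝ) - 1) ^ 2 * θ ^ 2 * T R + ((d : ℝ) - 1) * (S R).card := by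
    intro R
    simp only [T]
    rw [hbU, sum_biUnion (hdisj R)]
    simp only [fun v : V => sum_biUnion (hdisj R) (f := fun w => θ ^ G.dist v w)]
    have hb : ∀ p ∈ S R, ∀ q ∈ S R, ∑ v ∈ ch p, ∑ w ∈ ch q, θ ^ G.dist v w ≤
        ((d : ℝ) - 1) ^ 2 * θ ^ 2 * θ ^ G.dist p q + if p = q then (d : ℝ) - 1 else 0 := by
      intro p hp q hq
      have hc : ∀ x ∈ S R, ((ch x).card : ℝ) = (d : ℝ) - 1 := fun x hx => by
        rw [hchcard x (hSne R x hx), Nat.cast_sub (by omega), Nat.cast_one]
      by_cases hpq : p = q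
      · subst hpq
        rw [if_pos rfl, SimpleGraph.dist_self, pow_zero, mul_one]
        calc ∑ v ∈ ch p, ∑ w ∈ ch p, θ ^ G.dist v w
            ≤ ∑ v ∈ ch p, (((d : ℝ) - 1) * θ ^ 2 + 1) := by
              refine sum_le_sum fun v hv => ?_
              rw [← add_sum_erase _ _ hv, SimpleGraph.dist_self, pow_zero, add_comm]
              gcongr
              refine (sum_le_card_nsmul _ _ (θ ^ 2) fun w hw => le_of_eq ?_).trans ?_
              · obtain ⟨hwv, hw⟩ := mem_erase.1 hw
                rw [hchmem] at hv hw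
                congr 1
                have hle : G.dist v w ≤ 2 :=
                  (hT.connected.dist_triangle (v := p)).trans (le_of_eq (by
                    rw [dist_eq_one_iff_adj.2 hv.1.symm, dist_eq_one_iff_adj.2 hw.1]))
                have hne0 : G.dist v w ≠ 0 := fun e =>
                  hwv (hT.connected.dist_eq_zero_iff.1 e).symm
                have hne1 : G.dist v w ≠ 1 := fun e => by
                  have := hT.dist_ne_of_adj o (dist_eq_one_iff_adj.1 e)
                  omega
                omega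
              · rw [nsmul_eq_mul, card_erase_of_mem hv,
                  Nat.cast_sub (Finset.card_pos.2 ⟨v, hv⟩), hc p hp]
                push_cast
                nlinarith [sq_nonneg θ]
          _ = _ := by rw [sum_const, nsmul_eq_mul, hc p hp]; ring
      · rw [if_neg hpq, add_zero, Finset.sum_congr rfl fun v hv => Finset.sum_congr rfl fun w hw => by
          rw [hdist R p hp q hq hpq v hv w hw]]
        simp only [sum_const, nsmul_eq_mul, hc p hp, hc q hq]
        apply le_of_eq
        ring
    calc ∑ p ∈ S R, ∑ v ∈ ch p, ∑ q ∈ S R, ∑ w ∈ ch q, θ ^ G.dist v w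
        = ∑ p ∈ S R, ∑ q ∈ S R, ∑ v ∈ ch p, ∑ w ∈ ch q, θ ^ G.dist v w :=
          sum_congr rfl fun p _ => sum_comm
      _ ≤ ∑ p ∈ S R, ∑ q ∈ S R, (((d : ℝ) - 1) ^ 2 * θ ^ 2 * θ ^ G.dist p q +
            if p = q then (d : ℝ) - 1 else 0) :=
          sum_le_sum fun p hp => sum_le_sum fun q hq => hb p hp q hq
      _ = _ := by
          simp only [sum_add_distrib, ← mul_sum]
          congr 1
          rw [Finset.sum_congr rfl fun p hp => by rw [Finset.sum_ite_eq, if_pos hp], sum_const,
            nsmul_eq_mul, mul_comm]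
  have hsup' : 0 < θ ^ 2 * ((d : ℝ) - 1) - 1 := by linarith
  set D : ℝ := 1 / (θ ^ 2 * ((d : ℝ) - 1) - 1) with hD
  have hD0 : 0 < D := by positivity
  have hθpos : 0 < θ := by
    rcases hθ0.eq_or_lt with e | e
    · rw [← e] at hsup'; norm_num at hsup'
    · exact e
  set C : ℝ := (T 0 + D * d) / ((d : ℝ) * θ) ^ 2 with hC
  have hT0 : 0 ≤ T 0 := sum_nonneg fun _ _ => sum_nonneg fun _ _ => pow_nonneg hθ0 _
  refine ⟨C, by rw [hC]; positivity, fun R => ⟨S R, hmemS R, hcard R, ?_⟩⟩
  have key : ∀ R, T R ≤ C * ((S R).card * θ ^ (R + 1)) ^ 2 - D * (S R).card := by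
    intro R
    induction R with
    | zero =>
      rw [hcard 0, pow_zero, mul_one, hC, div_mul_eq_mul_div, zero_add, pow_one,
        mul_div_assoc, div_self (by positivity), mul_one]
      linarith
    | succ R ih =>
      have h1 := hrec R
      have h2 := mul_le_mul_of_nonneg_left ih
        (show 0 ≤ ((d : ℝ) - 1) ^ 2 * θ ^ 2 by positivity)
      have h3 : ((S (R + 1)).card : ℝ) = ((d : ℝ) - 1) * (S R).card := by
        rw [hcard, hcard, pow_succ]; ring
      have h4 : D * (θ ^ 2 * ((d : ℝ) - 1)) = D + 1 := by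
        have : D * (θ ^ 2 * ((d : ℝ) - 1) - 1) = 1 := by rw [hD]; field_simp
        linarith
      rw [h3]
      have h5 : ((d : ℝ) - 1) ^ 2 * θ ^ 2 * (C * ((S R).card * θ ^ (R + 1)) ^ 2 - D * (S R).card)
          = C * (((d : ℝ) - 1) * (S R).card * θ ^ (R + 1 + 1)) ^ 2 -
            ((d : ℝ) - 1) * (S R).card * (D * (θ ^ 2 * ((d : ℝ) - 1))) := by
        rw [pow_succ (n := R + 1)]; ring
      rw [h5, h4] at h2
      linarith
  have := key R
  have : 0 ≤ D * (S R).card := mul_nonneg hD0.le (Nat.cast_nonneg _)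
  linarith

/-- Above the threshold the free Ising measure is not a factor of IID. -/
theorem not_isFactorOfIID {d : ℕ} (hd : 3 ≤ d) (hT : G.IsTree)
    (hdeg : ∀ v, (G.neighborSet v).ncard = d) (hθ1 : θ < 1)
    (hθ : 1 / Real.sqrt ((d : ℝ) - 1) < θ) {μ : Measure (V → Bool)} (hμ : IsFreeIsing G θ μ) :
    ¬ IsFactorOfIID G μ := by
  classical
  rintro ⟨Φ, hΦ, hmap, hequi⟩
  change (labels V).map Φ = μ at hmap
  change ∀ g : G ≃g G, ∀ᵐ U ∂labels V, Φ (fun v => U (g.symm v)) = fun v => Φ U (g.symm v) at hequi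
  have hfin : ∀ v, (G.neighborSet v).Finite := fun v =>
    Set.finite_of_ncard_pos (by rw [hdeg]; omega)
  haveI := hμ.1
  have hd' : (2 : ℝ) ≤ (d : ℝ) - 1 := by
    have : (3 : ℝ) ≤ d := by exact_mod_cast hd
    linarith
  have hs : 0 < Real.sqrt ((d : ℝ) - 1) := Real.sqrt_pos.2 (by linarith)
  have hθ0 : 0 < θ := lt_trans (by positivity) hθ
  have hsup : 1 < θ ^ 2 * ((d : ℝ) - 1) := by
    rw [div_lt_iff₀ hs] at hθ
    have := mul_lt_mul'' hθ hθ zero_le_one zero_le_one
    rw [one_mul, mul_mul_mul_comm, Real.mul_self_sqrt (by linarith)] at this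
    nlinarith
  obtain ⟨o⟩ := hT.connected.nonempty
  obtain ⟨C, hC0, hC⟩ := sphere_pair_bound hT hd hdeg hθ0.le hsup o
  -- the spins as functions of the labels
  let X : V → (V → unitInterval) → ℝ := fun v U => sgn (Φ U v)
  have hX : ∀ v, Measurable (X v) := fun v => (measurable_sgn_eval v).comp hΦ
  have hXb : ∀ v U, |X v U| ≤ 1 := fun v U => le_of_eq (abs_sgn _)
  have hXX : ∀ v w, ∫ U, X v U * X w U ∂labels V = θ ^ G.dist v w := fun v w => by
    rw [← two_point hT hθ0.le hθ1 hμ v w, ← hmap,
      integral_map (f := fun σ : V → Bool => sgn (σ v) * sgn (σ w)) hΦ.aemeasurable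
        ((measurable_sgn_eval v).fun_mul (measurable_sgn_eval w)).aestronglyMeasurable]
  have hX0 : ∀ v, ∫ U, X v U ∂labels V = 0 := fun v => by
    rw [← one_point (abs_le.2 ⟨by linarith, hθ1.le⟩) hμ v, ← hmap,
      integral_map (f := fun σ : V → Bool => sgn (σ v)) hΦ.aemeasurable
        (measurable_sgn_eval v).aestronglyMeasurable]
  -- a finite range approximation of the root spin
  set δ : ℝ := 1 / (16 * (C + 1)) with hδ
  have hδ0 : 0 < δ := by positivity
  obtain ⟨E, hE, hEap⟩ := exists_measure_symmDiff_lt_of_generateFrom_isSetRing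
    (μ := labels V) (C := measurableCylinders fun _ : V => unitInterval) isSetRing_measurableCylinders
    ⟨{Set.univ}, Set.countable_singleton _,
      Set.singleton_subset_iff.2 (univ_mem_measurableCylinders _), by simp⟩
    generateFrom_measurableCylinders.symm
    (hΦ ((measurable_pi_apply (X := fun _ : V => Bool) o) (measurableSet_singleton true)))
    (ε := ENNReal.ofReal δ) (ENNReal.ofReal_pos.2 hδ0)
  obtain ⟨I, A, hA, rfl⟩ := (mem_measurableCylinders _).1 hE
  let Y : (V → unitInterval) → ℝ := fun U => if U ∈ cylinder I A then 1 else -1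
  have hY : Measurable Y := Measurable.ite (hA.cylinder I) measurable_const measurable_const
  have hYb : ∀ U, |Y U| ≤ 1 := fun U => by simp only [Y]; split_ifs <;> simp
  have hYdep : DependsOn Y (I : Set V) := fun U U' h => by
    have : I.restrict U = I.restrict U' := funext fun i => h i i.2
    simp only [Y, mem_cylinder, this]
  have hXY : ∫ U, (X o U - Y U) ^ 2 ∂labels V ≤ 4 * δ := by
    set Δ := symmDiff (cylinder I A)
      (Φ ⁻¹' ((fun σ : V → Bool => σ o) ⁻¹' {true})) with hΔ
    have hΔm : MeasurableSet Δ := (hA.cylinder I).symmDiff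
      (hΦ ((measurable_pi_apply (X := fun _ : V => Bool) o) (measurableSet_singleton true)))
    have hle : ∀ U, (X o U - Y U) ^ 2 ≤ Δ.indicator (fun _ => (4 : ℝ)) U := fun U => by
      have hΔU : U ∈ Δ ↔ (U ∈ cylinder I A ∧ ¬ Φ U o = true) ∨ (Φ U o = true ∧ U ∉ cylinder I A) := by
        rw [hΔ, Set.mem_symmDiff]; simp
      by_cases h1 : U ∈ cylinder I A <;> by_cases h2 : Φ U o = true
      · rw [Set.indicator_of_notMem (by rw [hΔU]; tauto)]; simp only [X, Y, sgn, h1, h2, ↓reduceIte]; norm_num
      · rw [Set.indicator_of_mem (by rw [hΔU]; tauto)]; simp only [X, Y, sgn, h1, h2, ↓reduceIte]; norm_num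
      · rw [Set.indicator_of_mem (by rw [hΔU]; tauto)]; simp only [X, Y, sgn, h1, h2, ↓reduceIte]; norm_num
      · rw [Set.indicator_of_notMem (by rw [hΔU]; tauto)]; simp only [X, Y, sgn, h1, h2, ↓reduceIte]; norm_num
    refine (integral_mono (integrable_of_abs_le (((hX o).sub hY).pow_const 2) (C := 4) fun U => ?_)
      ((integrable_const (4 : ℝ)).indicator hΔm) hle).trans ?_
    · rw [abs_pow]
      calc |X o U - Y U| ^ 2 ≤ (1 + 1) ^ 2 :=
            pow_le_pow_left₀ (abs_nonneg _) ((abs_sub _ _).trans (add_le_add (hXb o U) (hYb U))) 2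
        _ = 4 := by norm_num
    · rw [integral_indicator_const _ hΔm, smul_eq_mul, measureReal_def]
      have h1 := ENNReal.toReal_mono ENNReal.ofReal_ne_top hEap.le
      rw [ENNReal.toReal_ofReal hδ0.le] at h1
      have h2 : ((labels V) Δ).toReal ≤ δ := h1
      linarith
  set m : ℝ := ∫ U, Y U ∂labels V with hm
  let g : (V → unitInterval) → ℝ := fun U => Y U - m
  have hg : Measurable g := hY.sub_const m
  have hmb : |m| ≤ 1 := abs_integral_le_of_bound hYb
  have hgb : ∀ U, |g U| ≤ 2 := fun U => (abs_sub _ _).trans (by linarith [hYb U])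
  have hg0 : ∫ U, g U ∂labels V = 0 := by
    simp only [g]
    rw [integral_sub (integrable_of_abs_le hY hYb) (integrable_const _)]
    simp [hm]
  have hgdep : DependsOn g (I : Set V) := fun U U' h => by simp only [g, hYdep h]
  -- swaps of `o` with sphere points
  choose h hho hhv using fun v : V => exists_iso_pair hT (by omega : 0 < d) hdeg (G.dist o v)
    o v v o rfl dist_comm
  let gv : V → (V → unitInterval) → ℝ := fun v U => g (fun x => U (h v x))
  have hperm : ∀ v, Measurable fun (U : V → unitInterval) x => U (h v x) := fun v =>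
    measurable_pi_lambda _ fun x => measurable_pi_apply _
  have hgvm : ∀ v, Measurable (gv v) := fun v => hg.comp (hperm v)
  have hpres : ∀ v (f : (V → unitInterval) → ℝ), Measurable f →
      ∫ U, f (fun x => U (h v x)) ∂labels V = ∫ U, f U ∂labels V := fun v f hf => by
    conv_rhs => rw [← map_labels_comp (h v).toEquiv]
    rw [integral_map (f := f)
      (measurable_pi_lambda (fun (U : V → unitInterval) x => U ((h v).toEquiv x))
        fun x => measurable_pi_apply _).aemeasurable hf.aestronglyMeasurable]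
    rfl
  have hswap : ∀ v, ∫ U, g U * X v U ∂labels V = ∫ U, gv v U * X o U ∂labels V := fun v => by
    rw [← hpres v (fun U => g U * X v U) (hg.mul (hX v))]
    refine integral_congr_ae ?_
    filter_upwards [hequi (h v).symm] with U hU
    simp only [gv, X]
    congr 1
    have : Φ (fun x => U (h v x)) = fun x => Φ U (h v x) := hU
    rw [this]
    show sgn (Φ U (h v v)) = _
    rw [hhv v]
  -- a radius beyond which the translates rarely overlap
  set ρ := I.sup (G.dist o) with hρ
  set K : ℕ := (finite_dist_le hT hfin o (2 * ρ)).toFinset.card with hKdef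
  obtain ⟨R, hR⟩ := pow_unbounded_of_one_lt (64 * (K : ℝ) / ((d : ℝ) * θ ^ 2)) hsup
  obtain ⟨S, hS, hScard, hST⟩ := hC R
  set N : ℝ := (S.card : ℝ) with hN
  have hN0 : 0 < N := by
    have : (0 : ℝ) < d := by exact_mod_cast (by omega : 0 < d)
    rw [hScard]; positivity
  have isum : ∀ F : V → (V → unitInterval) → ℝ, (∀ v, Measurable (F v)) →
      ∀ B : ℝ, (∀ v U, |F v U| ≤ B) →
      ∫ U, ∑ v ∈ S, F v U ∂labels V = ∑ v ∈ S, ∫ U, F v U ∂labels V := fun F hF B hB =>
    integral_finsetSum S fun v _ => integrable_of_abs_le (hF v) (hB v)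
  have hb1 : ∀ v w U, |X v U * X w U| ≤ 1 := fun v w U => by
    rw [abs_mul]; exact mul_le_one₀ (hXb v U) (abs_nonneg _) (hXb w U)
  have hsumX : ∫ U, X o U * ∑ v ∈ S, X v U ∂labels V = N * θ ^ (R + 1) := by
    simp only [mul_sum]
    rw [isum (fun v U => X o U * X v U) (fun v => (hX o).mul (hX v)) 1 (hb1 o),
      Finset.sum_congr rfl fun v hv => by rw [hXX, (hS v).1 hv]]
    simp [hN]
  -- the translated test functions
  have hgsum : ∫ U, g U * ∑ v ∈ S, X v U ∂labels V = ∫ U, X o U * ∑ v ∈ S, gv v U ∂labels V := by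
    simp only [mul_sum]
    rw [isum (fun v U => g U * X v U) (fun v => hg.mul (hX v)) 2 (fun v U => by
        rw [abs_mul]; exact (mul_le_mul (hgb U) (hXb v U) (abs_nonneg _) (by norm_num)).trans (by norm_num)),
      isum (fun v U => X o U * gv v U) (fun v => (hX o).mul (hgvm v)) 2 (fun v U => by
        rw [abs_mul]
        exact (mul_le_mul (hXb o U) (hgb _) (abs_nonneg _) (by norm_num)).trans (by norm_num))]
    refine Finset.sum_congr rfl fun v _ => ?_
    rw [hswap v]
    exact integral_congr_ae (ae_of_all _ fun U => mul_comm _ _)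
  have hgv2 : ∫ U, (∑ v ∈ S, gv v U) ^ 2 ∂labels V ≤ N * K * 4 := by
    simp only [sq, sum_mul_sum]
    have hb4 : ∀ v w U, |gv v U * gv w U| ≤ 4 := fun v w U => by
      rw [abs_mul]
      calc |gv v U| * |gv w U| ≤ 2 * 2 :=
            mul_le_mul (hgb _) (hgb _) (abs_nonneg _) (by norm_num)
        _ = 4 := by norm_num
    rw [isum (fun v U => ∑ w ∈ S, gv v U * gv w U)
      (fun v => Finset.measurable_sum _ fun w _ => (hgvm v).mul (hgvm w)) (S.card • (4 : ℝ)) fun v U =>
        (abs_sum_le_sum_abs _ _).trans (sum_le_card_nsmul _ _ 4 fun w _ => hb4 v w U)]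
    refine (sum_le_card_nsmul _ _ ((K : ℝ) * 4) fun v hv => ?_).trans (le_of_eq (by simp [hN]; ring))
    rw [isum (fun w U => gv v U * gv w U) (fun w => (hgvm v).mul (hgvm w)) 4 (hb4 v)]
    have hzero : ∀ w, 2 * ρ < G.dist v w → ∫ U, gv v U * gv w U ∂labels V = 0 := by
      intro w hw
      have hdisj : Disjoint (I.map (h v).toEquiv.toEmbedding) (I.map (h w).toEquiv.toEmbedding) := by
        rw [Finset.disjoint_left]
        intro x hx hx'
        obtain ⟨a, ha, rfl⟩ := Finset.mem_map.1 hx
        obtain ⟨b, hb, hba⟩ := Finset.mem_map.1 hx'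
        have hk : ∀ (f : G ≃g G) (a b : V), G.dist (f a) (f b) ≤ G.dist a b := fun f a b => by
          obtain ⟨q, hq⟩ := hT.connected.exists_walk_length_eq_dist a b
          have hle := dist_le (q.map f.toHom)
          rw [Walk.length_map, hq] at hle
          exact hle
        have h1 := hk (h v) o a
        have h2 := hk (h w) o b
        rw [hho] at h1 h2
        have h3 := le_sup (f := G.dist o) ha
        have h4 := le_sup (f := G.dist o) hb
        have hba : h w b = h v a := hba
        rw [hba] at h2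
        have := hT.connected.dist_triangle (u := v) (v := h v a) (w := w)
        rw [dist_comm (u := h v a)] at this
        omega
      rw [integral_mul_disjoint hdisj (hgvm v) (hgvm w)
        (fun U U' hh => hgdep fun x hx => hh _ (Finset.mem_map.2 ⟨x, hx, rfl⟩))
        (fun U U' hh => hgdep fun x hx => hh _ (Finset.mem_map.2 ⟨x, hx, rfl⟩))
        (fun U => hgb _) (fun U => hgb _), hpres v g hg, hg0, zero_mul]
    rw [← sum_filter_add_sum_filter_not S (fun w => G.dist v w ≤ 2 * ρ),
      sum_eq_zero (s := S.filter fun w => ¬ G.dist v w ≤ 2 * ρ) (fun w hw =>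
        hzero w (not_le.1 (mem_filter.1 hw).2)), add_zero]
    refine (sum_le_card_nsmul _ _ 4 fun w _ =>
      le_trans (le_abs_self _) (abs_integral_le_of_bound (hb4 v w))).trans ?_
    rw [nsmul_eq_mul]
    gcongr
    -- the ball around `v` has as many points as the ball around `o`
    refine (card_le_card_of_injOn (fun w => (h v).symm w) (fun w hw => ?_)
      (h v).symm.injective.injOn).trans le_rfl
    simp only [Finset.mem_coe, mem_filter, Set.Finite.mem_toFinset, Set.mem_ofPred_eq] at hw ⊢
    obtain ⟨q, hq⟩ := hT.connected.exists_walk_length_eq_dist v w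
    have hle := dist_le (q.map (h v).symm.toHom)
    rw [Walk.length_map, hq] at hle
    have e : (h v).symm v = o := by rw [RelIso.symm_apply_eq, hho]
    have hle' : G.dist ((h v).symm v) ((h v).symm w) ≤ G.dist v w := hle
    rw [e] at hle'
    omega
  -- assemble
  have hZ2 : ∫ U, (∑ v ∈ S, X v U) ^ 2 ∂labels V ≤ C * (N * θ ^ (R + 1)) ^ 2 := by
    simp only [sq, sum_mul_sum]
    rw [isum (fun v U => ∑ w ∈ S, X v U * X w U)
      (fun v => Finset.measurable_sum _ fun w _ => (hX v).mul (hX w)) (S.card • (1 : ℝ)) fun v U =>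
        (abs_sum_le_sum_abs _ _).trans (sum_le_card_nsmul _ _ 1 fun w _ => hb1 v w U),
      Finset.sum_congr rfl fun v _ =>
        isum (fun w U => X v U * X w U) (fun w => (hX v).mul (hX w)) 1 (hb1 v)]
    simp only [hXX]
    simpa [sq] using hST
  set L := N * θ ^ (R + 1) with hL
  have hL0 : 0 < L := by positivity
  have hmeas1 : Measurable fun U => ∑ v ∈ S, X v U := Finset.measurable_sum _ fun v _ => hX v
  have hmeas2 : Measurable fun U => ∑ v ∈ S, gv v U := Finset.measurable_sum _ fun v _ => hgvm v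
  have hZb : ∀ U, |∑ v ∈ S, X v U| ≤ N := fun U =>
    (abs_sum_le_sum_abs _ _).trans ((sum_le_card_nsmul _ _ 1 fun v _ => hXb v U).trans
      (le_of_eq (by simp [hN])))
  have hGb : ∀ U, |∑ v ∈ S, gv v U| ≤ 2 * N := fun U =>
    (abs_sum_le_sum_abs _ _).trans ((sum_le_card_nsmul _ _ 2 fun v _ => hgb _).trans
      (le_of_eq (by simp [hN]; ring)))
  have i1 := amgm (f1 := fun U => X o U - Y U) ((hX o).sub hY) hmeas1
    (fun U => (abs_sub _ _).trans (add_le_add (hXb o U) (hYb U))) hZb
    (t := 2 * (C + 1) * L) (by positivity)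
  have i2 := amgm (f1 := fun U => X o U) (hX o) hmeas2 (hXb o) hGb (t := L / 2) (by positivity)
  have hXsq : ∫ U, X o U ^ 2 ∂labels V = 1 := by simp [X, sgn_mul_self, sq]
  have hsplit : ∫ U, X o U * ∑ v ∈ S, X v U ∂labels V =
      (∫ U, (X o U - Y U) * ∑ v ∈ S, X v U ∂labels V) + ∫ U, g U * ∑ v ∈ S, X v U ∂labels V := by
    refine split_integral (Z := fun U => ∑ v ∈ S, X v U) (hX o) hY hmeas1 (hXb o) hYb hZb
      (fun U => rfl) hmb ?_
    rw [isum X hX 1 hXb]
    simp [hX0]
  rw [hsumX, hgsum] at hsplit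
  rw [hXsq] at i2
  exact threshold_arith hd' hθ0 hC0 (Nat.cast_nonneg K) hScard hL hR
    (hδ ▸ hXY) hZ2 hgv2 hsplit rfl i1 rfl i2

end Vale.Agent.P161
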