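import Vale.Agent.P161.Recovery
import Mathlib.Probability.Kernel.Representation
import Mathlib.Logic.Encodable.Basic
import Mathlib.Analysis.SpecialFunctions.Trigonometric.Basic

/-!
# P161: equivariance and the factor map
-/

open MeasureTheory Filter Finset SimpleGraph
open scoped Topology

namespace Vale.Agent.P161

variable {V : Type*} {P : Setup V} {G : SimpleGraph V} {θ : ℝ}

lemma map_iidU_comp {ι : Type*} (π : ι ≃ ι) :
    (iidU ι).map (fun u i => u (π i)) = iidU ι := by
  have hm : Measurable fun (u : ι → ℝ) i => u (π i) :=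
    measurable_pi_lambda _ fun i => measurable_pi_apply (π i)
  refine Measure.eq_infinitePi _ fun s q hq => ?_
  rw [Measure.map_apply hm (MeasurableSet.pi s.countable_toSet fun i _ => hq i)]
  have : (fun (u : ι → ℝ) i => u (π i)) ⁻¹' Set.pi (s : Set ι) q =
      Set.pi ((s.map π.toEmbedding : Finset ι) : Set ι) (fun j => q (π.symm j)) := by
    ext u
    simp only [Set.mem_preimage, Set.mem_pi, Finset.mem_coe, Finset.forall_mem_map]
    exact forall₂_congr fun i _ => by simp
  rw [this, iidU, Measure.infinitePi_pi _ (fun i _ => hq _), Finset.prod_map]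
  simp

lemma ae_injective [Countable V] : ∀ᵐ L ∂iidU V, Function.Injective L := by
  classical
  have h : ∀ v w : V, ∀ᵐ L ∂iidU V, L v = L w → v = w := by
    intro v w
    by_cases hvw : v = w
    · exact ae_of_all _ fun _ _ => hvw
    · have hE : MeasurableSet {L : V → ℝ | L v = L w} :=
        measurableSet_eq_fun (measurable_pi_apply v) (measurable_pi_apply w)
      have hm : iidU V {L : V → ℝ | L v = L w} = 0 := by
        conv_lhs => rw [← map_update v]
        rw [Measure.map_apply (measurable_update₂ v) hE,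
          Measure.prod_apply ((measurable_update₂ v) hE)]
        refine lintegral_eq_zero_of_ae_eq_zero (ae_of_all _ fun u => ?_)
        have : Prod.mk u ⁻¹' ((fun p : (V → ℝ) × ℝ => Function.update p.1 v p.2) ⁻¹'
            {L : V → ℝ | L v = L w}) = {u w} := by
          ext x
          simp [Function.update_of_ne (Ne.symm hvw)]
        simp only [Pi.zero_apply, this]
        exact le_antisymm ((Measure.restrict_apply_le _ _).trans_eq Real.volume_singleton) zero_le
      filter_upwards [measure_eq_zero_iff_ae_notMem.1 hm] with L hL hLeq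
      exact absurd hLeq hL
  filter_upwards [ae_all_iff.2 fun v => ae_all_iff.2 (h v)] with L hL
  exact fun v w => hL v w

/-- The action of an automorphism on the whole space. -/
def act (g : G ≃g G) (ω : (V → ℝ) × ((V → Bool) × (V × ℕ → ℝ))) :
    (V → ℝ) × ((V → Bool) × (V × ℕ → ℝ)) :=
  (fun v => ω.1 (g.symm v), (fun v => ω.2.1 (g.symm v), fun t => ω.2.2 (g.symm t.1, t.2)))

lemma measurePreserving_act (hP : P.Good G θ) (g : G ≃g G) :
    MeasurePreserving (act g) (joint P) (joint P) := by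
  haveI := hP.prob
  haveI := isProb_base hP
  have h1 : MeasurePreserving (fun (L : V → ℝ) v => L (g.symm v)) (iidU V) (iidU V) :=
    ⟨measurable_pi_lambda _ fun v => measurable_pi_apply _, map_iidU_comp g.symm.toEquiv⟩
  have h2 : MeasurePreserving (fun (σ : V → Bool) v => σ (g.symm v)) P.μ P.μ :=
    ⟨measurable_pi_lambda _ fun v => measurable_pi_apply _,
      isFreeIsing_invariant hP.tree hP.fin hP.free g⟩
  have h3 : MeasurePreserving (fun (u : V × ℕ → ℝ) t => u (g.symm t.1, t.2))
      (iidU (V × ℕ)) (iidU (V × ℕ)) :=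
    ⟨measurable_pi_lambda _ fun v => measurable_pi_apply _,
      map_iidU_comp (g.symm.toEquiv.prodCongr (Equiv.refl ℕ))⟩
  exact h1.prod (h2.prod h3)

lemma mfin_act (hP : P.Good G θ) (g : G ≃g G) (A : Finset V) (v : V) (k : ℕ)
    (ω : (V → ℝ) × ((V → Bool) × (V × ℕ → ℝ))) (hω : Function.Injective ω.1) :
    mfin P (A.map g.toEquiv.toEmbedding) (g v, k) (act g ω) = mfin P A (v, k) ω := by
  classical
  haveI := hP.prob
  let ψ : (V × ℕ) ↪ (V × ℕ) := (g.toEquiv.prodCongr (Equiv.refl ℕ)).toEmbedding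
  have hy : ∀ t : V × ℕ, yobs P (act g ω) (g t.1, t.2) = yobs P ω t := fun t => by
    simp [yobs, obs, act]
  have hkey : ∀ x : V × ℕ, x.1 ∈ A →
      (slotKey P.e (act g ω).1 (g x.1, x.2) < slotKey P.e (act g ω).1 (g v, k) ↔
        slotKey P.e ω.1 x < slotKey P.e ω.1 (v, k)) := fun x _ => by
    simp only [slotKey_lt_iff, act, RelIso.symm_apply_apply]
    by_cases hxv : x.1 = v
    · simp [hxv]
    · have hne : ω.1 x.1 ≠ ω.1 v := fun h => hxv (hω h)
      simp [hne]
  have hpast : past P.e (A.map g.toEquiv.toEmbedding) (act g ω).1 (g v, k) =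
      (past P.e A ω.1 (v, k)).map ψ := by
    ext ⟨w, j⟩
    simp only [mem_past, Finset.mem_map, ψ, Equiv.coe_toEmbedding]
    constructor
    · rintro ⟨⟨x, hx, rfl⟩, hlt⟩
      exact ⟨(x, j), ⟨hx, (hkey (x, j) hx).1 hlt⟩, rfl⟩
    · rintro ⟨⟨x, i⟩, ⟨hx, hlt⟩, hxi⟩
      cases hxi
      exact ⟨⟨x, hx, rfl⟩, (hkey (x, i) hx).2 hlt⟩
  have hinv : MeasurePreserving (fun (σ : V → Bool) x => σ (g.symm x)) P.μ P.μ :=
    ⟨measurable_pi_lambda _ fun v => measurable_pi_apply _,
      isFreeIsing_invariant hP.tree hP.fin hP.free g⟩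
  have hlik : ∀ σ : V → Bool,
      lik P.ε ((past P.e A ω.1 (v, k)).map ψ) (fun x => σ (g.symm x)) (yobs P (act g ω)) =
        lik P.ε (past P.e A ω.1 (v, k)) σ (yobs P ω) := fun σ => by
    rw [lik, lik, Finset.prod_map]
    refine Finset.prod_congr rfl fun t _ => ?_
    show 1 + P.ε * sgn (σ (g.symm (g t.1))) * clY (yobs P (act g ω) (g t.1, t.2)) = _
    rw [hy, RelIso.symm_apply_apply]
  simp only [mfin, mval]
  rw [hpast, post, post]
  congr 1
  · conv_lhs => rw [← hinv.map_eq]
    rw [integral_map hinv.measurable.aemeasurable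
      ((measurable_sgn_eval _).fun_mul (measurable_lik_left _ _)).aestronglyMeasurable]
    exact integral_congr_ae (ae_of_all _ fun σ => by simp only [hlik, RelIso.symm_apply_apply])
  · conv_lhs => rw [← hinv.map_eq]
    rw [integral_map hinv.measurable.aemeasurable (measurable_lik_left _ _).aestronglyMeasurable]
    exact integral_congr_ae (ae_of_all _ fun σ => hlik σ)

lemma mlim_act [Countable V] (hP : P.Good G θ) (g : G ≃g G) (v : V) (k : ℕ) :
    ∀ᵐ ω ∂joint P, mlim hP (g v, k) (act g ω) = mlim hP (v, k) ω := by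
  haveI := hP.prob
  haveI := isProb_base hP
  haveI := isProb_joint hP
  have hinj : ∀ᵐ ω ∂joint P, Function.Injective ω.1 :=
    (Measure.quasiMeasurePreserving_fst (μ := iidU V) (ν := base P)).ae ae_injective
  let B : ℕ → Finset V := fun n => (exSet hP n).map g.toEquiv.toEmbedding
  have hB : Exhausts B := fun F => by
    obtain ⟨N, hN⟩ := exSet_exhausts hP (F.map g.symm.toEquiv.toEmbedding)
    refine ⟨N, fun n hn x hx => ?_⟩
    refine Finset.mem_map.2 ⟨g.symm x, hN n hn (Finset.mem_map.2 ⟨x, hx, rfl⟩), ?_⟩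
    simp
  have hmp := measurePreserving_act hP g
  have hd : Measurable fun ω => mlim hP (g v, k) (act g ω) :=
    (measurable_mlim hP _).comp hmp.measurable
  have hi : Integrable (fun ω => |mlim hP (g v, k) (act g ω) - mlim hP (v, k) ω|) (joint P) :=
    (integrable_of_abs_le (hd.sub (measurable_mlim hP _)) (C := 1 + 1) fun ω =>
      (abs_sub _ _).trans (add_le_add (abs_mlim hP _ _) (abs_mlim hP _ _))).abs
  have h1 : ∀ n, ∫ ω, |mlim hP (g v, k) (act g ω) - mlim hP (v, k) ω| ∂joint P ≤
      (∫ ω, |mfin P (B n) (g v, k) ω - mlim hP (g v, k) ω| ∂joint P) +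
        ∫ ω, |mfin P (exSet hP n) (v, k) ω - mlim hP (v, k) ω| ∂joint P := by
    intro n
    have hm : Measurable fun ω => |mfin P (B n) (g v, k) ω - mlim hP (g v, k) ω| :=
      ((measurable_mfin hP _ _).sub (measurable_mlim hP _)).norm
    have hb : ∀ (A : Finset V) (s : V × ℕ) ω, |(|mfin P A s ω - mlim hP s ω|)| ≤ 1 + 1 :=
      fun A s ω => by
        rw [abs_abs]; exact (abs_sub _ _).trans (add_le_add (abs_mfin hP _ _ _) (abs_mlim hP _ _))
    have e : ∫ ω, |mfin P (B n) (g v, k) ω - mlim hP (g v, k) ω| ∂joint P =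
        ∫ ω, |mfin P (B n) (g v, k) (act g ω) - mlim hP (g v, k) (act g ω)| ∂joint P := by
      conv_lhs => rw [← hmp.map_eq]
      rw [integral_map hmp.measurable.aemeasurable hm.aestronglyMeasurable]
    rw [e]
    have i1 : Integrable
        (fun ω => |mfin P (B n) (g v, k) (act g ω) - mlim hP (g v, k) (act g ω)|) (joint P) :=
      integrable_of_abs_le (hm.comp hmp.measurable) fun ω => hb _ _ _
    have i2 : Integrable (fun ω => |mfin P (exSet hP n) (v, k) ω - mlim hP (v, k) ω|) (joint P) :=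
      integrable_of_abs_le (((measurable_mfin hP _ _).sub (measurable_mlim hP _)).norm)
        fun ω => hb _ _ _
    rw [← integral_add i1 i2]
    refine integral_mono_ae hi (i1.add i2) ?_
    filter_upwards [hinj] with ω hω
    have hb2 := mfin_act hP g (exSet hP n) v k ω hω
    simp only [Pi.add_apply, B, hb2]
    rw [abs_sub_comm (mfin P (exSet hP n) (v, k) ω) (mlim hP (g v, k) (act g ω))]
    exact abs_sub_le _ _ _
  have h2 : ∫ ω, |mlim hP (g v, k) (act g ω) - mlim hP (v, k) ω| ∂joint P ≤ 0 := by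
    have := ge_of_tendsto' ((tendsto_mlim hP (g v, k) hB).add
      (tendsto_mlim hP (v, k) (exSet_exhausts hP))) h1
    simpa using this
  filter_upwards [(integral_eq_zero_iff_of_nonneg (fun ω => abs_nonneg _) hi).1
    (le_antisymm h2 (integral_nonneg fun ω => abs_nonneg _))] with ω hω
  simpa [sub_eq_zero] using hω

lemma wfield_act [Countable V] (hP : P.Good G θ) (g : G ≃g G) :
    ∀ᵐ ω ∂joint P, wfield hP (act g ω) = fun t => wfield hP ω (g.symm t.1, t.2) := by
  filter_upwards [ae_all_iff.2 fun t : V × ℕ => mlim_act hP g t.1 t.2] with ω hω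
  funext t
  obtain ⟨x, k⟩ := t
  obtain ⟨v, rfl⟩ : ∃ v, g v = x := ⟨g.symm x, by simp⟩
  cases k with
  | zero => simp [wfield, mix, act]
  | succ k =>
    have h := hω (v, k)
    show zlim hP (act g ω) (g v, k) = zlim hP ω (g.symm (g v), k)
    rw [RelIso.symm_apply_apply, zlim, zlim, h]
    congr 1
    simp [yobs, obs, act]

/-- The free Ising measure is a factor of IID whenever `θ² (d - 1) < 1`. -/
theorem isFactorOfIID_of_lt {V : Type*} {G : SimpleGraph V} {θ : ℝ} {d : ℕ} (hd : 3 ≤ d)
    (hT : G.IsTree) (hdeg : ∀ v, (G.neighborSet v).ncard = d) (hθ0 : 0 ≤ θ)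
    (hθ : θ < 1 / Real.sqrt ((d : ℝ) - 1)) :
    (∃ μ, IsFreeIsing G θ μ) ∧ ∀ μ, IsFreeIsing G θ μ → IsFactorOfIID G μ := by
  classical
  have hfin : ∀ v, (G.neighborSet v).Finite := fun v =>
    Set.finite_of_ncard_pos (by rw [hdeg]; omega)
  haveI : Countable V := countable_of_tree hT hfin
  have hD : (2 : ℝ) ≤ (d : ℝ) - 1 := by
    have : (3 : ℝ) ≤ d := by exact_mod_cast hd
    linarith
  set q : ℝ := 1 / Real.sqrt ((d : ℝ) - 1) with hq
  have hs0 : 0 < Real.sqrt ((d : ℝ) - 1) := Real.sqrt_pos.2 (by linarith)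
  have hq2 : q ^ 2 * ((d : ℝ) - 1) = 1 := by
    rw [hq, div_pow, one_pow, Real.sq_sqrt (by linarith)]
    field_simp
  have hq0 : 0 < q := by rw [hq]; positivity
  have hq1 : q < 1 := by nlinarith
  have hθ1 : θ < 1 := hθ.trans hq1
  refine ⟨exists_isFreeIsing hT hfin (abs_le.2 ⟨by linarith, hθ1.le⟩), fun μ hμ => ?_⟩
  haveI := hμ.1
  set r : ℝ := (θ + q) / 2 with hr
  have hr0 : 0 < r := by rw [hr]; linarith
  have hθr : θ < r := by rw [hr]; linarith
  have hrq : r < q := by rw [hr]; linarith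
  set t : ℝ := (θ + r) / 2 with ht
  have ht0 : 0 < t := by rw [ht]; linarith
  have htr : t < r := by rw [ht]; linarith
  have hr2 : ((d : ℝ) - 1) * r ^ 2 < 1 := by
    have : r ^ 2 < q ^ 2 := by nlinarith
    nlinarith
  obtain ⟨C, hC0, hC⟩ := kernel_bound hT hdeg hfin ht0 htr (by linarith)
    (by nlinarith [mul_pos (mul_pos hr0 (sub_pos.2 htr)) (lt_of_lt_of_le two_pos hD)])
  have hK : ∀ (F : Finset V) (v u : V),
      ∑ w ∈ F, θ ^ G.dist v w * r ^ G.dist w u ≤ C * r ^ G.dist v u := fun F v u => by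
    refine le_trans (sum_le_sum fun w _ => ?_) (hC F v u)
    exact mul_le_mul_of_nonneg_right
      (pow_le_pow_left₀ hθ0 (by rw [ht]; linarith) _) (pow_nonneg hr0.le _)
  obtain ⟨C2, -, hC2⟩ := kernel_bound hT hdeg hfin (t := r ^ 2) (r := 1) (by positivity)
    (by nlinarith) le_rfl (by linarith)
  have hsq : ∀ (v : V) (U : Finset V), ∑ u ∈ U, (r ^ G.dist v u) ^ 2 ≤ C2 := fun v U => by
    simpa [← pow_mul, mul_comm] using hC2 U v v
  obtain ⟨e, he⟩ := Countable.exists_injective_nat V
  set ε : ℝ := min (1 / 2) (1 / (4 * (C + 1))) with hε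
  have hε0 : 0 < ε := lt_min (by norm_num) (by positivity)
  let P : Setup V := ⟨μ, ε, e⟩
  have hP : P.Good G θ := ⟨hμ, hT, hfin, he, hε0, min_le_left _ _, hθ0, hθ1⟩
  have hCe : 16 * P.ε ^ 2 * C ≤ 1 := by
    have h1 : ε * (4 * (C + 1)) ≤ 1 := by
      have := min_le_right (1 / 2 : ℝ) (1 / (4 * (C + 1)))
      rw [← hε, le_div_iff₀ (by positivity)] at this
      exact this
    show 16 * ε ^ 2 * C ≤ 1
    nlinarith [mul_pos hε0 hC0, mul_le_mul h1 h1 (by positivity) zero_le_one]
  haveI := isProb_base hP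
  haveI := isProb_joint hP
  choose h hhm hhe using fun v => exists_spin_eq hP hr0.le hCe hK hsq v
  have hW := map_wfield hP
  -- the key almost sure equivariance
  have hequi : ∀ (g : G ≃g G) (v : V), ∀ᵐ w ∂iidU (V × ℕ),
      h (g v) (fun t => w (g.symm t.1, t.2)) = h v w := by
    intro g v
    have hperm : Measurable fun (w : V × ℕ → ℝ) (t : V × ℕ) => w (g.symm t.1, t.2) :=
      measurable_pi_lambda _ fun t => measurable_pi_apply _
    have hS : MeasurableSet {w : V × ℕ → ℝ | h (g v) (fun t => w (g.symm t.1, t.2)) = h v w} :=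
      measurableSet_eq_fun ((hhm (g v)).comp hperm) (hhm v)
    rw [← hW]
    refine (ae_map_iff (measurable_wfield hP).aemeasurable hS).2 ?_
    filter_upwards [(measurePreserving_act hP g).quasiMeasurePreserving.ae (hhe (g v)), hhe v,
      wfield_act hP g] with ω h1 h2 h3
    rw [← h2, ← h3, ← h1]
    simp [act]
  -- transport from one uniform label per vertex
  obtain ⟨f, hf, hfmap⟩ := Measure.exists_measurable_map_eq (iidU ℕ)
  let U2W : (V → unitInterval) → V × ℕ → ℝ := fun U t => f (U t.1) t.2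
  have hU2W : Measurable U2W :=
    measurable_pi_lambda _ fun t =>
      (measurable_pi_apply t.2).comp (hf.comp (measurable_pi_apply t.1))
  have hU2Wmap : (Measure.infinitePi fun _ : V => (volume : Measure unitInterval)).map U2W =
      iidU (V × ℕ) := by
    have e1 : U2W = (MeasurableEquiv.curry V ℕ ℝ).symm ∘ fun U v => f (U v) := by
      funext U t; rfl
    have hfv : Measurable (fun (U : V → unitInterval) v => f (U v)) :=
      measurable_pi_lambda _ fun v => hf.comp (measurable_pi_apply v)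
    rw [e1, ← Measure.map_map (MeasurableEquiv.curry V ℕ ℝ).symm.measurable hfv,
      Measure.infinitePi_map_pi _ (fun _ => hf)]
    simp only [hfmap]
    exact Measure.infinitePi_map_curry_symm (fun (_ : V) (_ : ℕ) => unifR)
  let Φ0 : (V × ℕ → ℝ) → V → Bool := fun w v => h v w
  have hΦ0 : Measurable Φ0 := measurable_pi_lambda _ hhm
  refine ⟨Φ0 ∘ U2W, hΦ0.comp hU2W, ?_, fun g => ?_⟩
  · rw [← Measure.map_map hΦ0 hU2W, hU2Wmap, ← hW, Measure.map_map hΦ0 (measurable_wfield hP)]
    have hae : (Φ0 ∘ wfield hP) =ᵐ[joint P] fun ω => ω.2.1 := by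
      filter_upwards [ae_all_iff.2 hhe] with ω hω
      funext v
      exact (hω v).symm
    rw [Measure.map_congr hae]
    have h12 : MeasurePreserving (fun ω : (V → ℝ) × ((V → Bool) × (V × ℕ → ℝ)) => ω.2.1)
        (joint P) μ :=
      (measurePreserving_fst (μ := μ) (ν := iidU (V × ℕ))).comp
        (measurePreserving_snd (μ := iidU V) (ν := base P))
    exact h12.map_eq
  · have key : ∀ᵐ U ∂(Measure.infinitePi fun _ : V => (volume : Measure unitInterval)),
        ∀ v, h (g v) (fun t => U2W U (g.symm t.1, t.2)) = h v (U2W U) := by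
      refine ae_all_iff.2 fun v => ?_
      refine ae_of_ae_map (p := fun w : V × ℕ → ℝ => h (g v) (fun t => w (g.symm t.1, t.2)) = h v w)
        hU2W.aemeasurable ?_
      rw [hU2Wmap]
      exact hequi g v
    filter_upwards [key] with U hU
    funext x
    obtain ⟨v, rfl⟩ : ∃ v, g v = x := ⟨g.symm x, by simp⟩
    simp only [Function.comp_apply, RelIso.symm_apply_apply, Φ0]
    exact hU v

end Vale.Agent.P161
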