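import Vale.Agent.P161.Channel
import Mathlib.MeasureTheory.Integral.Prod
import Mathlib.MeasureTheory.Constructions.BorelSpace.Order
import Mathlib.Analysis.SpecificLimits.Basic
import Mathlib.Logic.Function.DependsOn

/-!
# P161: smoothing of functions of IID uniforms
-/

open MeasureTheory Filter
open scoped Topology

namespace Vale.Agent.P161

variable {ι : Type*}

/-- IID uniform variables indexed by `ι`. -/
noncomputable def iidU (ι : Type*) : Measure (ι → ℝ) := Measure.infinitePi fun _ : ι => unifR

instance : IsProbabilityMeasure (iidU ι) := by unfold iidU; infer_instance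

lemma iidU_eval (i : ι) : ∀ᵐ u ∂iidU ι, 0 ≤ u i ∧ u i ≤ 1 :=
  (measurePreserving_eval_infinitePi (fun _ : ι => unifR) i).quasiMeasurePreserving.ae ae_unifR_mem

/-- Bounded measurable functions are integrable on a finite measure space. -/
lemma integrable_of_abs_le {α : Type*} [MeasurableSpace α] {m : Measure α} [IsFiniteMeasure m]
    {f : α → ℝ} (hf : Measurable f) {C : ℝ} (hC : ∀ a, |f a| ≤ C) : Integrable f m :=
  Integrable.of_bound hf.aestronglyMeasurable C (ae_of_all _ hC)

/-- Keep the coordinates in `F`, take the others from the second argument. -/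
noncomputable def merge [DecidableEq ι] (F : Finset ι) (p : (ι → ℝ) × (ι → ℝ)) : ι → ℝ :=
  fun i => if i ∈ F then p.1 i else p.2 i

lemma measurable_merge [DecidableEq ι] (F : Finset ι) : Measurable (merge F) := by
  refine measurable_pi_lambda _ fun i => ?_
  simp only [merge]
  split_ifs
  · exact (measurable_pi_apply i).comp measurable_fst
  · exact (measurable_pi_apply i).comp measurable_snd

lemma map_merge [DecidableEq ι] (F : Finset ι) :
    ((iidU ι).prod (iidU ι)).map (merge F) = iidU ι := by
  refine Measure.eq_infinitePi _ fun s t ht => ?_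
  rw [Measure.map_apply (measurable_merge F) (MeasurableSet.pi s.countable_toSet fun i _ => ht i)]
  have : merge F ⁻¹' Set.pi (s : Set ι) t =
      Set.pi ((s.filter (· ∈ F) : Finset ι) : Set ι) t ×ˢ
        Set.pi ((s.filter (· ∉ F) : Finset ι) : Set ι) t := by
    ext p
    simp only [Set.mem_preimage, Set.mem_pi, Finset.mem_coe, merge, Set.mem_prod, Finset.mem_filter]
    constructor
    · intro h
      exact ⟨fun i hi => by simpa [hi.2] using h i hi.1, fun i hi => by simpa [hi.2] using h i hi.1⟩
    · intro h i hi
      by_cases hF : i ∈ F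
      · simpa [hF] using h.1 i ⟨hi, hF⟩
      · simpa [hF] using h.2 i ⟨hi, hF⟩
  rw [this, Measure.prod_prod, iidU, Measure.infinitePi_pi _ (fun i _ => ht i),
    Measure.infinitePi_pi _ (fun i _ => ht i), Finset.prod_filter_mul_prod_filter_not]

lemma map_update [DecidableEq ι] (t : ι) :
    ((iidU ι).prod unifR).map (fun p => Function.update p.1 t p.2) = iidU ι := by
  have hm : Measurable (fun p : (ι → ℝ) × ℝ => Function.update p.1 t p.2) := by
    refine measurable_pi_lambda _ fun i => ?_
    by_cases h : i = t
    · subst h; simp only [Function.update_self]; exact measurable_snd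
    · simp only [Function.update_of_ne h]; exact (measurable_pi_apply i).comp measurable_fst
  refine Measure.eq_infinitePi _ fun s q hq => ?_
  rw [Measure.map_apply hm (MeasurableSet.pi s.countable_toSet fun i _ => hq i)]
  have : (fun p : (ι → ℝ) × ℝ => Function.update p.1 t p.2) ⁻¹' Set.pi (s : Set ι) q =
      Set.pi ((s.erase t : Finset ι) : Set ι) q ×ˢ (if t ∈ s then q t else Set.univ) := by
    ext p
    simp only [Set.mem_preimage, Set.mem_pi, Finset.mem_coe, Set.mem_prod, Finset.mem_erase]
    constructor
    · intro h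
      refine ⟨fun i hi => by simpa [Function.update_of_ne hi.1] using h i hi.2, ?_⟩
      split_ifs with ht
      · simpa using h t ht
      · trivial
    · intro h i hi
      by_cases hit : i = t
      · subst hit; simpa [hi] using h.2
      · simpa [Function.update_of_ne hit] using h.1 i ⟨hit, hi⟩
  rw [this, Measure.prod_prod, iidU, Measure.infinitePi_pi _ (fun i _ => hq i)]
  split_ifs with ht
  · rw [mul_comm]; exact Finset.mul_prod_erase s (fun i => unifR (q i)) ht
  · rw [measure_univ, mul_one, Finset.erase_eq_of_notMem ht]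

lemma measurable_update₂ [DecidableEq ι] (t : ι) :
    Measurable (fun p : (ι → ℝ) × ℝ => Function.update p.1 t p.2) := by
  refine measurable_pi_lambda _ fun i => ?_
  by_cases h : i = t
  · subst h; simp only [Function.update_self]; exact measurable_snd
  · simp only [Function.update_of_ne h]; exact (measurable_pi_apply i).comp measurable_fst

/-- Resampling one coordinate does not change the integral. -/
lemma integral_update [DecidableEq ι] (t : ι) {f : (ι → ℝ) → ℝ} (hf : Measurable f) {C : ℝ}
    (hC : ∀ u, |f u| ≤ C) :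
    ∫ u, f u ∂iidU ι = ∫ u, ∫ x, f (Function.update u t x) ∂unifR ∂iidU ι := by
  conv_lhs => rw [← map_update t]
  rw [integral_map (measurable_update₂ t).aemeasurable hf.aestronglyMeasurable, integral_prod]
  exact integrable_of_abs_le (hf.comp (measurable_update₂ t)) fun _ => hC _

/-- The average of `f` over the coordinates outside `F`. -/
noncomputable def avgOut [DecidableEq ι] (f : (ι → ℝ) → ℝ) (F : Finset ι) (z : ι → ℝ) : ℝ :=
  ∫ u, f (merge F (z, u)) ∂iidU ι

lemma measurable_merge_right [DecidableEq ι] (F : Finset ι) (z : ι → ℝ) :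
    Measurable (fun u => merge F (z, u)) :=
  (measurable_merge F).comp (measurable_const.prodMk measurable_id)

lemma abs_integral_le_of_bound {α : Type*} [MeasurableSpace α] {m : Measure α}
    [IsProbabilityMeasure m] {f : α → ℝ} {C : ℝ} (hC : ∀ a, |f a| ≤ C) : |∫ a, f a ∂m| ≤ C := by
  have := norm_integral_le_of_norm_le_const (μ := m) (f := f) (C := C) (ae_of_all _ hC)
  simpa using this

lemma abs_avgOut_le [DecidableEq ι] {f : (ι → ℝ) → ℝ} {C : ℝ} (hC : ∀ u, |f u| ≤ C)
    (F : Finset ι) (z : ι → ℝ) : |avgOut f F z| ≤ C :=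
  abs_integral_le_of_bound fun _ => hC _

lemma measurable_avgOut [DecidableEq ι] {f : (ι → ℝ) → ℝ} (hf : Measurable f) (F : Finset ι) :
    Measurable (avgOut f F) := by
  have h : StronglyMeasurable (fun p : (ι → ℝ) × (ι → ℝ) => f (merge F p)) :=
    (hf.comp (measurable_merge F)).stronglyMeasurable
  exact (h.integral_prod_right' (ν := iidU ι)).measurable

lemma abs_avgOut_sub [DecidableEq ι] {f : (ι → ℝ) → ℝ} (hf : Measurable f) {C : ℝ}
    (hC : ∀ u, |f u| ≤ C) {D : Finset ι} {c : ι → ℝ}
    (hL : ∀ z z', |f z - f z'| ≤ ∑ t ∈ D, c t * |z t - z' t|) (F : Finset ι) (z z' : ι → ℝ) :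
    |avgOut f F z - avgOut f F z'| ≤ ∑ t ∈ D.filter (· ∈ F), c t * |z t - z' t| := by
  have hi : ∀ w, Integrable (fun u => f (merge F (w, u))) (iidU ι) := fun w =>
    integrable_of_abs_le (hf.comp (measurable_merge_right F w)) fun _ => hC _
  simp only [avgOut]
  rw [← integral_sub (hi z) (hi z')]
  refine abs_integral_le_of_bound fun u => (hL _ _).trans (le_of_eq ?_)
  rw [Finset.sum_filter]
  refine Finset.sum_congr rfl fun t _ => ?_
  by_cases ht : t ∈ F <;> simp [merge, ht]

/-- The variance bound for averaging out coordinates. -/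
lemma smoothing_bound [DecidableEq ι] {f : (ι → ℝ) → ℝ} (hf : Measurable f) {C : ℝ}
    (hC : ∀ u, |f u| ≤ C) {D F : Finset ι} (hFD : F ⊆ D) {c : ι → ℝ} (hc : ∀ t, 0 ≤ c t)
    (hL : ∀ z z', |f z - f z'| ≤ ∑ t ∈ D, c t * |z t - z' t|) :
    ∫ z, (f z - avgOut f F z) ^ 2 ∂iidU ι ≤ ∑ t ∈ D \ F, c t ^ 2 := by
  have hC0 : 0 ≤ C := (abs_nonneg _).trans (hC fun _ => 0)
  have hb : ∀ G, ∀ z, |avgOut f G z| ≤ C := fun G => abs_avgOut_le hC G
  have hm : ∀ G, Measurable (avgOut f G) := measurable_avgOut hf
  have hsq : ∀ {a : ℝ}, |a| ≤ C → |a ^ 2| ≤ C ^ 2 := fun {a} h => by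
    rw [abs_pow]; exact pow_le_pow_left₀ (abs_nonneg a) h 2
  have hi2 : ∀ G, Integrable (fun z => avgOut f G z ^ 2) (iidU ι) := fun G =>
    integrable_of_abs_le ((hm G).pow_const 2) fun z => hsq (hb G z)
  -- adding one coordinate
  have step : ∀ (G : Finset ι) (t : ι), t ∉ G → t ∈ D →
      ∫ z, avgOut f (insert t G) z ^ 2 ∂iidU ι ≤ (∫ z, avgOut f G z ^ 2 ∂iidU ι) + c t ^ 2 := by
    intro G t htG htD
    rw [integral_update t ((hm _).pow_const 2) fun z => hsq (hb _ z)]
    have hpt : ∀ z, ∫ x, avgOut f (insert t G) (Function.update z t x) ^ 2 ∂unifR ≤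
        avgOut f G z ^ 2 + c t ^ 2 := by
      intro z
      set φ : ℝ → ℝ := fun x => avgOut f (insert t G) (Function.update z t x) with hφ
      have hφm : Measurable φ := (hm _).comp (measurable_update z)
      have hφb : ∀ x, |φ x| ≤ C := fun x => hb _ _
      have hmean : ∫ x, φ x ∂unifR = avgOut f G z := by
        simp only [hφ, avgOut]
        have hmerge : ∀ u x, merge (insert t G) (Function.update z t x, u) =
            merge G (z, Function.update u t x) := fun u x => by
          funext i
          by_cases hit : i = t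
          · subst hit; simp [merge, htG]
          · simp [merge, hit]
        simp only [hmerge]
        rw [integral_integral_swap]
        · exact (integral_update t (hf.comp (measurable_merge_right G z)) fun _ => hC _).symm
        · refine integrable_of_abs_le (hf.comp ((measurable_merge_right G z).comp ?_)) fun _ => hC _
          exact (measurable_update₂ t).comp (measurable_snd.prodMk measurable_fst)
      have hlip : ∀ x y, |φ x - φ y| ≤ c t * |x - y| := by
        intro x y
        refine (abs_avgOut_sub hf hC hL _ _ _).trans (le_of_eq ?_)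
        rw [Finset.sum_eq_single t]
        · simp
        · intro b _ hbt; simp [Function.update_of_ne hbt]
        · intro h; exact absurd (Finset.mem_filter.2 ⟨htD, Finset.mem_insert_self _ _⟩) h
      have hnear : ∀ᵐ x ∂unifR, (φ x - avgOut f G z) ^ 2 ≤ c t ^ 2 := by
        filter_upwards [ae_unifR_mem] with x hx
        rw [← hmean, ← sq_abs]
        refine pow_le_pow_left₀ (abs_nonneg _) ?_ 2
        have : φ x - ∫ y, φ y ∂unifR = ∫ y, (φ x - φ y) ∂unifR := by
          rw [integral_sub (integrable_const _) (integrable_of_abs_le hφm hφb)]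
          simp
        rw [this]
        suffices h : ∀ᵐ y ∂unifR, ‖φ x - φ y‖ ≤ c t by
          simpa using norm_integral_le_of_norm_le_const h
        filter_upwards [ae_unifR_mem] with y hy
        refine (hlip x y).trans ?_
        have : |x - y| ≤ 1 := abs_le.2 ⟨by linarith, by linarith⟩
        nlinarith [hc t, abs_nonneg (x - y)]
      have hsub : Integrable (fun x => (φ x - avgOut f G z) ^ 2) unifR :=
        integrable_of_abs_le ((hφm.sub_const _).pow_const 2) (C := (C + C) ^ 2) fun x => by
          rw [abs_pow]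
          exact pow_le_pow_left₀ (abs_nonneg _) ((abs_sub _ _).trans (add_le_add (hφb x) (hb _ _))) 2
      have h1 := integral_mono_ae hsub (integrable_const (c t ^ 2)) hnear
      simp only [integral_const, probReal_univ, one_smul] at h1
      have h2 : ∫ x, (φ x - avgOut f G z) ^ 2 ∂unifR =
          (∫ x, φ x ^ 2 ∂unifR) - avgOut f G z ^ 2 := by
        have e : ∀ x, (φ x - avgOut f G z) ^ 2 =
            φ x ^ 2 - (2 * avgOut f G z * φ x - avgOut f G z ^ 2) := fun x => by ring
        simp only [e]
        rw [integral_sub (g := fun x => 2 * avgOut f G z * φ x - avgOut f G z ^ 2)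
            (integrable_of_abs_le (hφm.pow_const 2) fun x => hsq (hφb x))
            (((integrable_of_abs_le hφm hφb).const_mul _).sub (integrable_const _)),
          integral_sub ((integrable_of_abs_le hφm hφb).const_mul _) (integrable_const _),
          integral_const_mul, hmean]
        simp
        ring
      linarith
    have hint : Integrable (fun z => ∫ x, avgOut f (insert t G) (Function.update z t x) ^ 2 ∂unifR)
        (iidU ι) :=
      integrable_of_abs_le
        ((((hm _).comp (measurable_update₂ t)).pow_const 2).stronglyMeasurable.integral_prod_right'.measurable)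
        fun z => abs_integral_le_of_bound fun x => hsq (hb _ _)
    have := integral_mono_ae hint ((hi2 G).add (integrable_const (c t ^ 2))) (ae_of_all _ hpt)
    simp only [Pi.add_apply] at this
    rw [integral_add (hi2 G) (integrable_const _)] at this
    simpa using this
  have grow : ∀ E : Finset ι, E ⊆ D \ F →
      ∫ z, avgOut f (F ∪ E) z ^ 2 ∂iidU ι ≤
        (∫ z, avgOut f F z ^ 2 ∂iidU ι) + ∑ t ∈ E, c t ^ 2 := by
    intro E
    induction E using Finset.induction_on with
    | empty => simp
    | insert a E ha ih =>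
      intro hE
      obtain ⟨haD, hE⟩ := Finset.insert_subset_iff.1 hE
      rw [Finset.mem_sdiff] at haD
      rw [Finset.union_insert, Finset.sum_insert ha]
      have := step (F ∪ E) a (by simp [ha, haD.2]) haD.1
      have := ih hE
      linarith
  have htop := grow (D \ F) (subset_refl _)
  rw [Finset.union_sdiff_of_subset hFD] at htop
  have hfull : ∀ z, avgOut f D z = f z := fun z => by
    have : ∀ u, f (merge D (z, u)) = f z := fun u => by
      refine sub_eq_zero.1 (abs_nonpos_iff.1 ((hL _ _).trans (le_of_eq ?_)))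
      exact Finset.sum_eq_zero fun t ht => by simp [merge, ht]
    simp [avgOut, this]
  simp only [hfull] at htop
  -- orthogonality
  have horth : ∫ z, f z * avgOut f F z ∂iidU ι = ∫ z, avgOut f F z ^ 2 ∂iidU ι := by
    have hfh : ∀ u, |f u * avgOut f F u| ≤ C * C := fun u => by
      rw [abs_mul]; exact mul_le_mul (hC u) (hb F u) (abs_nonneg _) hC0
    conv_lhs => rw [← map_merge F]
    rw [integral_map (f := fun u => f u * avgOut f F u) (measurable_merge F).aemeasurable
        (hf.mul (hm F)).aestronglyMeasurable,
      integral_prod (f := fun p : (ι → ℝ) × (ι → ℝ) => f (merge F p) * avgOut f F (merge F p))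
        (integrable_of_abs_le ((hf.mul (hm F)).comp (measurable_merge F)) fun _ => hfh _)]
    refine integral_congr_ae (ae_of_all _ fun z => ?_)
    have hh : ∀ u, avgOut f F (merge F (z, u)) = avgOut f F z := fun u => by
      refine sub_eq_zero.1 (abs_nonpos_iff.1 ((abs_avgOut_sub hf hC hL F _ _).trans (le_of_eq ?_)))
      exact Finset.sum_eq_zero fun t ht => by simp [merge, (Finset.mem_filter.1 ht).2]
    simp only [hh]
    rw [integral_mul_const]
    simp [avgOut, sq]
  have hif : Integrable (fun z => f z ^ 2) (iidU ι) :=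
    integrable_of_abs_le (hf.pow_const 2) fun z => hsq (hC z)
  have hix : Integrable (fun z => f z * avgOut f F z) (iidU ι) :=
    integrable_of_abs_le (hf.mul (hm F)) (C := C * C) fun u => by
      rw [abs_mul]; exact mul_le_mul (hC u) (hb F u) (abs_nonneg _) hC0
  have e : ∀ z, (f z - avgOut f F z) ^ 2 =
      f z ^ 2 - 2 * (f z * avgOut f F z) + avgOut f F z ^ 2 := fun z => by ring
  simp only [e]
  rw [integral_add (f := fun z => f z ^ 2 - 2 * (f z * avgOut f F z)) (hif.sub (hix.const_mul 2)) (hi2 F),
    integral_sub hif (hix.const_mul 2), integral_const_mul, horth]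
  linarith

/-- A variable that is an `L¹` limit of functions of `W` is a function of `W`. -/
lemma exists_eq_comp {Ω β : Type*} [MeasurableSpace Ω] [MeasurableSpace β] {P : Measure Ω}
    {X : Ω → ℝ} (hX : Measurable X) {W : Ω → β} (hW : Measurable W)
    (h : ∀ δ : ℝ, 0 < δ → ∃ g : β → ℝ, Measurable g ∧
      ∫⁻ ω, ENNReal.ofReal |X ω - g (W ω)| ∂P ≤ ENNReal.ofReal δ) :
    ∃ g : β → ℝ, Measurable g ∧ ∀ᵐ ω ∂P, X ω = g (W ω) := by
  choose g hg hgb using fun n : ℕ => h ((1 / 2 : ℝ) ^ n) (by positivity)
  refine ⟨fun b => limsup (fun n => g n b) atTop, Measurable.limsup hg, ?_⟩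
  have hm : ∀ n, Measurable (fun ω => ENNReal.ofReal |X ω - g n (W ω)|) := fun n =>
    ((hX.sub ((hg n).comp hW)).norm).ennreal_ofReal
  have hfin : ∫⁻ ω, ∑' n, ENNReal.ofReal |X ω - g n (W ω)| ∂P ≠ ⊤ := by
    rw [lintegral_tsum fun n => (hm n).aemeasurable]
    refine ne_top_of_le_ne_top ?_ (ENNReal.tsum_le_tsum hgb)
    rw [← ENNReal.ofReal_tsum_of_nonneg (fun n => by positivity) summable_geometric_two]
    exact ENNReal.ofReal_ne_top
  filter_upwards [ae_lt_top (Measurable.ennreal_tsum hm) hfin] with ω hω
  have h0 := ENNReal.tendsto_atTop_zero_of_tsum_ne_top hω.ne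
  have h1 : Tendsto (fun n => |X ω - g n (W ω)|) atTop (𝓝 0) := by
    have := (ENNReal.tendsto_toReal ENNReal.zero_ne_top).comp h0
    simpa [Function.comp_def, ENNReal.toReal_ofReal] using this
  have h2 : Tendsto (fun n => g n (W ω)) atTop (𝓝 (X ω)) :=
    tendsto_iff_norm_sub_tendsto_zero.2 (by simpa [Real.norm_eq_abs, abs_sub_comm] using h1)
  exact h2.limsup_eq.symm

end Vale.Agent.P161
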