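import Mathlib.Analysis.Complex.Trigonometric
import Mathlib.Combinatorics.SimpleGraph.Acyclic
import Mathlib.Data.Finset.Sym
import Mathlib.MeasureTheory.Constructions.UnitInterval
import Mathlib.Probability.ProductMeasure

/-!
# P161: definitions

The free zero-field Ising measure on a tree and factors of IID processes.
Spins `-1, 1` are encoded as `false, true` through `sgn`.
-/

open MeasureTheory


namespace Vale.Agent.P161

/-- The spin value of a Boolean: `true` is `+1` and `false` is `-1`. -/
def sgn (b : Bool) : ℝ := if b then 1 else -1

variable {V : Type*}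

open scoped Classical in
/-- The set of edges of `G` having both endpoints in the finite vertex set `D`. -/
noncomputable def edgesIn (G : SimpleGraph V) (D : Finset V) : Finset (Sym2 V) :=
  D.sym2.filter (fun e => e ∈ G.edgeSet)

/-- The factor `(1 + θ η_a η_b) / 2` of an edge `{a, b}`. -/
noncomputable def edgeFactor (θ : ℝ) (η : V → Bool) : Sym2 V → ℝ :=
  Sym2.lift ⟨fun a b => (1 + θ * sgn (η a) * sgn (η b)) / 2, fun a b => by ring⟩

/-- `μ` is the free Ising measure with parameter `θ`: it is a probability measure on spin
configurations, and on every finite connected set `D` of vertices it gives the configuration `η`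
the probability `1/2 * ∏_{edges {u,v} of D} (1 + θ η_u η_v) / 2`. -/
def IsFreeIsing (G : SimpleGraph V) (θ : ℝ) (μ : Measure (V → Bool)) : Prop :=
  IsProbabilityMeasure μ ∧
    ∀ D : Finset V, (G.induce (D : Set V)).Connected → ∀ η : V → Bool,
      μ {σ | ∀ v ∈ D, σ v = η v} =
        ENNReal.ofReal (1 / 2 * ∏ e ∈ edgesIn G D, edgeFactor θ η e)

/-- `ν` is a factor of IID: it is the law of a measurable image `Φ(U)` of independent uniform
`[0,1]` labels `U`, where `Φ (g U) = g (Φ U)` almost surely for each fixed automorphism `g` of
`G`, with `(g x) v = x (g⁻¹ v)`. -/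
def IsFactorOfIID (G : SimpleGraph V) (ν : Measure (V → Bool)) : Prop :=
  ∃ Φ : (V → unitInterval) → (V → Bool), Measurable Φ ∧
    (Measure.infinitePi fun _ : V => (volume : Measure unitInterval)).map Φ = ν ∧
    ∀ g : G ≃g G, ∀ᵐ U ∂(Measure.infinitePi fun _ : V => (volume : Measure unitInterval)),
      Φ (fun v => U (g.symm v)) = fun v => Φ U (g.symm v)

end Vale.Agent.P161
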