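import Mathlib.Combinatorics.SimpleGraph.Acyclic
import Mathlib.Combinatorics.SimpleGraph.Metric
import Mathlib.Analysis.SpecificLimits.Basic
import Mathlib.Data.Countable.Basic
import Mathlib.Data.Set.Countable

/-!
# P161: regular trees and the kernel `t ^ dist`
-/

open SimpleGraph Finset

namespace Vale.Agent.P161

variable {V : Type*} {G : SimpleGraph V}

lemma closer_unique (hT : G.IsTree) {u x y y' : V} (hy : G.Adj x y) (hy' : G.Adj x y')
    (h : G.dist u x = G.dist u y + 1) (h' : G.dist u x = G.dist u y' + 1) : y = y' := by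
  classical
  obtain ⟨p, hp, hpl⟩ := hT.connected.exists_path_of_dist u x
  have key : ∀ z, G.Adj x z → G.dist u x = G.dist u z + 1 → z = p.penultimate := by
    intro z hz hd
    refine hT.isAcyclic.eq_penultimate_of_adj_end hp hz ?_
    by_contra hmem
    obtain ⟨q, hq, hql⟩ := hT.connected.exists_path_of_dist u z
    have hx : x ∈ q.support :=
      hT.isAcyclic.mem_support_of_ne_mem_support_of_adj_of_isPath hq hp hz.symm hmem
    have := dist_le (q.takeUntil x hx)
    have := q.length_takeUntil_le_length hx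
    omega
  rw [key y hy h, key y' hy' h']

lemma exists_closer (hT : G.IsTree) {u x : V} (hne : x ≠ u) :
    ∃ y, G.Adj x y ∧ G.dist u x = G.dist u y + 1 := by
  obtain ⟨p, hpl⟩ := hT.connected.exists_walk_length_eq_dist u x
  have hnil : ¬ p.Nil := fun h => hne h.eq.symm
  refine ⟨p.penultimate, (p.adj_penultimate hnil).symm, ?_⟩
  rcases hT.dist_eq_dist_add_one_of_adj u (p.adj_penultimate hnil) with h | h
  · exfalso
    have h1 := dist_le p.dropLast
    have h2 := Walk.length_dropLast_add_one hnil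
    omega
  · exact h

/-- In a connected vertex set the neighbour towards any of its vertices stays in the set. -/
lemma closer_mem (hT : G.IsTree) {D : Finset V} (hD : (G.induce (D : Set V)).Connected) {u x y : V}
    (hu : u ∈ D) (hx : x ∈ D) (hy : G.Adj x y) (hd : G.dist u x = G.dist u y + 1) : y ∈ D := by
  classical
  obtain ⟨p, hp⟩ := (hD ⟨u, hu⟩ ⟨x, hx⟩).exists_isPath
  let f : G.induce (D : Set V) →g G := (Embedding.induce (D : Set V)).toHom
  have hinj : Function.Injective f := fun a b h => Subtype.ext h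
  have hq : (p.map f).IsPath := Walk.IsPath.map hinj hp
  obtain ⟨r, hr, hrl⟩ := hT.connected.exists_path_of_dist u x
  have hy' : y = r.penultimate := by
    obtain ⟨z, hz, hzd⟩ := exists_closer hT (u := u) (x := x) (by rintro rfl; simp at hd)
    have hpen : G.Adj x r.penultimate :=
      (r.adj_penultimate (fun h => by have := h.eq; subst this; simp at hd)).symm
    have hn : ¬ r.Nil := fun h => by have := h.eq; subst this; simp at hd
    rcases hT.dist_eq_dist_add_one_of_adj u hpen.symm with h | h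
    · exfalso
      have h1 := dist_le r.dropLast
      have h2 := Walk.length_dropLast_add_one hn
      omega
    · exact closer_unique hT hy hpen hd h
  have heq : p.map f = r := (hT.existsUnique_path u x).unique hq hr
  have : y ∈ (p.map f).support := by
    rw [heq, hy']; exact r.getVert_mem_support _
  rw [Walk.support_map, List.mem_map] at this
  obtain ⟨a, _, ha⟩ := this
  rw [← ha]
  exact a.2

/-- A set that is closed under moving towards one of its vertices is connected. -/
lemma connected_of_closer {D : Finset V} {u : V} (hu : u ∈ D)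
    (h : ∀ x ∈ D, x ≠ u → ∃ y ∈ D, G.Adj x y ∧ G.dist u x = G.dist u y + 1) :
    (G.induce (D : Set V)).Connected := by
  rw [connected_iff_exists_forall_reachable]
  refine ⟨⟨u, hu⟩, fun w => ?_⟩
  suffices ∀ n, ∀ x (hx : x ∈ D), G.dist u x = n →
      (G.induce (D : Set V)).Reachable ⟨u, hu⟩ ⟨x, hx⟩ from this _ w.1 w.2 rfl
  intro n
  induction n using Nat.strong_induction_on with
  | _ n ih =>
    intro x hx hn
    by_cases hxu : x = u
    · subst hxu; rfl
    · obtain ⟨y, hy, hadj, hd⟩ := h x hx hxu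
      refine (ih (G.dist u y) (by omega) y hy rfl).trans (Adj.reachable ?_)
      exact hadj.symm

/-- Removing a suitable leaf outside a connected subset keeps the set connected. -/
lemma exists_leaf (hT : G.IsTree) [DecidableEq V] {D D' : Finset V}
    (hD : (G.induce (D : Set V)).Connected) (hD' : (G.induce (D' : Set V)).Connected)
    (hsub : D ⊆ D') (hne : ¬ D' ⊆ D) :
    ∃ w ∈ D', w ∉ D ∧ (G.induce ((D'.erase w : Finset V) : Set V)).Connected ∧
      ∃ p ∈ D', p ≠ w ∧ G.Adj p w ∧ ∀ x ∈ D', G.Adj x w → x = p := by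
  obtain ⟨⟨u, hu⟩⟩ := hD.nonempty
  have hu : u ∈ D := hu
  have hne' : (D' \ D).Nonempty := by
    simpa [Finset.sdiff_nonempty] using hne
  obtain ⟨w, hw, hmax⟩ := exists_max_image (D' \ D) (fun x => G.dist u x) hne'
  rw [Finset.mem_sdiff] at hw
  have hwu : w ≠ u := fun h => hw.2 (h ▸ hu)
  have key : ∀ x ∈ D', ∀ y, G.Adj x y → G.dist u x = G.dist u y + 1 → y ≠ w := by
    intro x hx y hy hd hyw
    subst hyw
    by_cases hxD : x ∈ D
    · exact hw.2 (closer_mem hT hD hu hxD hy hd)
    · have := hmax x (Finset.mem_sdiff.2 ⟨hx, hxD⟩); omega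
  refine ⟨w, hw.1, hw.2, ?_, ?_⟩
  · refine connected_of_closer (u := u) (mem_erase.2 ⟨hwu.symm, hsub hu⟩) fun x hx hxu => ?_
    obtain ⟨y, hy, hd⟩ := exists_closer hT hxu
    have hx' := (mem_erase.1 hx).2
    exact ⟨y, mem_erase.2 ⟨key x hx' y hy hd, closer_mem hT hD' (hsub hu) hx' hy hd⟩, hy, hd⟩
  · obtain ⟨p, hp, hd⟩ := exists_closer hT hwu
    refine ⟨p, closer_mem hT hD' (hsub hu) hw.1 hp hd, hp.symm.ne, hp.symm, fun x hx hxw => ?_⟩
    rcases hT.dist_eq_dist_add_one_of_adj u hxw with h | h
    · exact absurd rfl (key x hx w hxw h)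
    · exact closer_unique hT hxw.symm hp h hd

lemma connected_singleton (u : V) : (G.induce (({u} : Finset V) : Set V)).Connected := by
  rw [connected_iff_exists_forall_reachable]
  refine ⟨⟨u, by simp⟩, fun w => ?_⟩
  obtain ⟨w, hw⟩ := w
  have : w = u := by simpa using hw
  subst this
  rfl

/-- Closed balls of a locally finite graph are finite. -/
lemma finite_dist_le (hT : G.IsTree) (hfin : ∀ v, (G.neighborSet v).Finite) (u : V) (n : ℕ) :
    {x | G.dist u x ≤ n}.Finite := by
  induction n with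
  | zero =>
    refine (Set.finite_singleton u).subset fun x hx => ?_
    simp only [Set.mem_ofPred_eq, Nat.le_zero] at hx
    exact (hT.connected.dist_eq_zero_iff.1 hx).symm
  | succ n ih =>
    refine (ih.union (Set.Finite.biUnion ih fun y _ => hfin y)).subset fun x hx => ?_
    simp only [Set.mem_ofPred_eq] at hx
    by_cases h : G.dist u x ≤ n
    · exact Or.inl h
    · obtain ⟨y, hy, hd⟩ := exists_closer hT (u := u) (x := x) (by rintro rfl; simp at h)
      exact Or.inr (Set.mem_biUnion (show G.dist u y ≤ n by omega) hy.symm)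

lemma countable_of_tree (hT : G.IsTree) (hfin : ∀ v, (G.neighborSet v).Finite) : Countable V := by
  obtain ⟨u⟩ := hT.connected.nonempty
  rw [← Set.countable_univ_iff]
  refine (Set.countable_iUnion fun n => (finite_dist_le hT hfin u n).countable).mono fun x _ => ?_
  exact Set.mem_iUnion.2 ⟨G.dist u x, le_refl (G.dist u x)⟩

/-- Every finite set lies in a finite connected set containing a given vertex. -/
lemma exists_connected_superset (hT : G.IsTree) (hfin : ∀ v, (G.neighborSet v).Finite)
    (S : Finset V) (u : V) :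
    ∃ D : Finset V, (G.induce (D : Set V)).Connected ∧ u ∈ D ∧ S ⊆ D := by
  refine ⟨(finite_dist_le hT hfin u (S.sup (G.dist u))).toFinset, ?_, by simp, fun x hx => ?_⟩
  · refine connected_of_closer (u := u) (by simp) fun x hx hxu => ?_
    obtain ⟨y, hy, hd⟩ := exists_closer hT hxu
    simp only [Set.Finite.mem_toFinset, Set.mem_ofPred_eq] at hx
    exact ⟨y, by simp only [Set.Finite.mem_toFinset, Set.mem_ofPred_eq]; omega, hy, hd⟩
  · simp only [Set.Finite.mem_toFinset, Set.mem_ofPred_eq]
    exact le_sup (f := G.dist u) hx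

/-- The sum over the neighbours of `x` of a radial function of the distance to `w`. -/
lemma sum_nbr_dist (hT : G.IsTree) {d : ℕ} (hd : ∀ v, (G.neighborSet v).ncard = d)
    (hfin : ∀ v, (G.neighborSet v).Finite) (f : ℕ → ℝ) (x w : V) :
    (x = w → ∑ y ∈ (hfin x).toFinset, f (G.dist w y) = d * f 1) ∧
    (x ≠ w → ∑ y ∈ (hfin x).toFinset, f (G.dist w y) =
      f (G.dist w x - 1) + ((d : ℝ) - 1) * f (G.dist w x + 1)) := by
  classical
  have hcard : (hfin x).toFinset.card = d := by
    rw [← Set.ncard_eq_toFinset_card _ (hfin x), hd]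
  refine ⟨?_, fun hne => ?_⟩
  · rintro rfl
    rw [Finset.sum_congr rfl fun y hy => by
      rw [dist_eq_one_iff_adj.2 ((hfin x).mem_toFinset.1 hy)], sum_const, hcard, nsmul_eq_mul]
  · obtain ⟨y, hy, hdy⟩ := exists_closer hT hne
    have hym : y ∈ (hfin x).toFinset := (hfin x).mem_toFinset.2 hy
    rw [← add_sum_erase _ _ hym, Finset.sum_congr rfl fun z hz => ?_, sum_const,
      card_erase_of_mem hym, hcard, nsmul_eq_mul, Nat.cast_sub, Nat.cast_one]
    · rw [show G.dist w x - 1 = G.dist w y by omega]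
    · have : 0 < (hfin x).toFinset.card := card_pos.2 ⟨y, hym⟩
      omega
    · obtain ⟨hzy, hz⟩ := mem_erase.1 hz
      have hz : G.Adj x z := (hfin x).mem_toFinset.1 hz
      rcases hT.dist_eq_dist_add_one_of_adj w hz with h | h
      · exact absurd (closer_unique hT hz hy h hdy) hzy
      · rw [h]

/-- The kernel `t ^ dist` maps `r ^ dist` to at most a constant multiple of itself. -/
lemma kernel_bound (hT : G.IsTree) {d : ℕ} (hd : ∀ v, (G.neighborSet v).ncard = d)
    (hfin : ∀ v, (G.neighborSet v).Finite) {t r : ℝ} (ht : 0 < t) (htr : t < r) (hr : r ≤ 1)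
    (h : ((d : ℝ) - 1) * t * r < 1) :
    ∃ C : ℝ, 0 < C ∧ ∀ (F : Finset V) (v u : V),
      ∑ w ∈ F, t ^ G.dist v w * r ^ G.dist w u ≤ C * r ^ G.dist v u := by
  classical
  have hr0 : 0 < r := ht.trans htr
  set den : ℝ := (1 - t / r) * (1 - ((d : ℝ) - 1) * t * r) with hden
  have hden0 : 0 < den := mul_pos (by rw [sub_pos, div_lt_one hr0]; exact htr) (by linarith)
  have ht1 : 0 < 1 - t ^ 2 := by nlinarith
  set A : ℝ := 1 + ((d : ℝ) - 1) * t ^ 2 with hA
  set C : ℝ := (1 - t ^ 2) / den with hC
  have hC0 : 0 < C := div_pos ht1 hden0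
  refine ⟨C, hC0, fun F v u => ?_⟩
  let N : V → Finset V := fun x => (hfin x).toFinset
  let φ : V → ℝ := fun x => r ^ G.dist x u
  let g : V → ℝ := fun x => (∑ w ∈ F, t ^ G.dist x w * φ w) - C * φ x
  have hφ0 : ∀ x, 0 < φ x := fun x => pow_pos hr0 _
  suffices g v ≤ 0 by simpa [g, φ] using this
  by_contra hgv
  push Not at hgv
  -- only finitely many vertices have positive value
  have hfinpos : {x | 0 < g x}.Finite := by
    have hlt : t / r < 1 := (div_lt_one hr0).2 htr
    set M := F.sup (fun w => G.dist w u)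
    obtain ⟨n, hn⟩ := exists_pow_lt_of_lt_one
      (show 0 < C * t ^ M / ((F.card : ℝ) + 1) by positivity) hlt
    refine (finite_dist_le hT hfin u n).subset fun x hx => ?_
    simp only [Set.mem_ofPred_eq] at hx ⊢
    by_contra hxn
    push Not at hxn
    have hsum : (∑ w ∈ F, t ^ G.dist x w * φ w) * t ^ M ≤ (F.card : ℝ) * t ^ G.dist x u := by
      rw [sum_mul]
      refine (sum_le_card_nsmul _ _ (t ^ G.dist x u) fun w hw => ?_).trans_eq (nsmul_eq_mul _ _)
      have h1 : G.dist x u ≤ G.dist x w + M :=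
        hT.connected.dist_triangle.trans (Nat.add_le_add_left (le_sup (f := fun w => G.dist w u) hw) _)
      calc t ^ G.dist x w * φ w * t ^ M ≤ t ^ G.dist x w * 1 * t ^ M := by
            have : φ w ≤ 1 := pow_le_one₀ hr0.le hr
            gcongr
        _ = t ^ (G.dist x w + M) := by rw [mul_one, pow_add]
        _ ≤ t ^ G.dist x u := pow_le_pow_of_le_one ht.le (by linarith) h1
    have hsplit : t ^ G.dist x u = (t / r) ^ G.dist x u * φ x := by
      simp only [φ]; rw [← mul_pow, div_mul_cancel₀ _ hr0.ne']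
    have hpow : (t / r) ^ G.dist x u ≤ (t / r) ^ n :=
      pow_le_pow_of_le_one (by positivity) hlt.le (by rw [dist_comm]; omega)
    have h2 : C * φ x < ∑ w ∈ F, t ^ G.dist x w * φ w := by simpa [g] using hx
    rw [lt_div_iff₀ (by positivity)] at hn
    have := mul_lt_mul_of_pos_right h2 (pow_pos ht M)
    have h4 : 0 < φ x := hφ0 x
    have h5 : (F.card : ℝ) * ((t / r) ^ G.dist x u * φ x) ≤ ((F.card : ℝ) + 1) * ((t / r) ^ n * φ x) := by
      gcongr
      linarith
    rw [hsplit] at hsum
    nlinarith [mul_lt_mul_of_pos_right hn h4]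
  obtain ⟨x, hx, hmax⟩ := Finset.exists_max_image hfinpos.toFinset (fun y => g y / φ y)
    ⟨v, hfinpos.mem_toFinset.2 hgv⟩
  rw [hfinpos.mem_toFinset] at hx
  set m := g x / φ x with hm
  have hm0 : 0 < m := div_pos hx (hφ0 x)
  have hgle : ∀ y, g y ≤ m * φ y := fun y => by
    by_cases hy : 0 < g y
    · have := hmax y (hfinpos.mem_toFinset.2 hy)
      rwa [div_le_iff₀ (hφ0 y)] at this
    · exact (not_lt.1 hy).trans (mul_pos hm0 (hφ0 y)).le
  -- `A φ - t ∑ φ ≥ den φ`
  have hsuper : den * φ x ≤ A * φ x - t * ∑ y ∈ N x, φ y := by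
    have hid : A * φ x - den * φ x = t * (((d : ℝ) - 1) * r + 1 / r) * φ x := by
      rw [hA, hden]; field_simp; ring
    have hle : ∑ y ∈ N x, φ y ≤ (((d : ℝ) - 1) * r + 1 / r) * φ x := by
      have hφ : ∀ y, φ y = r ^ G.dist u y := fun y => by simp only [φ]; rw [dist_comm]
      simp only [hφ]
      by_cases hxu : x = u
      · subst hxu
        simp only [N]
        rw [(sum_nbr_dist hT hd hfin (fun n => r ^ n) x x).1 rfl, dist_self, pow_zero, mul_one, pow_one]
        have : r ≤ 1 / r := by rw [le_div_iff₀ hr0]; nlinarith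
        linarith
      · simp only [N]
        rw [(sum_nbr_dist hT hd hfin (fun n => r ^ n) x u).2 hxu]
        obtain ⟨k, hk⟩ := Nat.exists_eq_add_of_lt (hT.connected.pos_dist_of_ne (Ne.symm hxu))
        rw [show G.dist u x = k + 1 by omega, Nat.add_sub_cancel]
        apply le_of_eq
        field_simp
        ring
    have := mul_le_mul_of_nonneg_left hle ht.le
    linarith
  -- the equation satisfied by `x ↦ ∑ w ∈ F, t ^ dist x w * φ w`
  have hres : A * (∑ w ∈ F, t ^ G.dist x w * φ w) -
      t * ∑ y ∈ N x, ∑ w ∈ F, t ^ G.dist y w * φ w ≤ (1 - t ^ 2) * φ x := by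
    have hone : ∀ w, A * t ^ G.dist x w - t * ∑ y ∈ N x, t ^ G.dist y w =
        if w = x then 1 - t ^ 2 else 0 := by
      intro w
      have hc : ∑ y ∈ N x, t ^ G.dist y w = ∑ y ∈ N x, (fun n => t ^ n) (G.dist w y) :=
        Finset.sum_congr rfl fun y _ => by rw [dist_comm]
      rw [hc, dist_comm (u := x)]
      simp only [N]
      by_cases hwx : w = x
      · subst hwx
        rw [(sum_nbr_dist hT hd hfin (fun n => t ^ n) w w).1 rfl, if_pos rfl, dist_self, hA]
        ring
      · rw [(sum_nbr_dist hT hd hfin (fun n => t ^ n) x w).2 (Ne.symm hwx), if_neg hwx, hA]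
        obtain ⟨k, hk⟩ := Nat.exists_eq_add_of_lt (hT.connected.pos_dist_of_ne hwx)
        rw [show G.dist w x = k + 1 by omega, Nat.add_sub_cancel]
        ring
    rw [mul_sum, sum_comm, mul_sum, ← sum_sub_distrib]
    calc ∑ w ∈ F, (A * (t ^ G.dist x w * φ w) - t * ∑ y ∈ N x, t ^ G.dist y w * φ w)
        = ∑ w ∈ F, if w = x then (1 - t ^ 2) * φ w else 0 := by
          refine Finset.sum_congr rfl fun w _ => ?_
          rw [← sum_mul, ← mul_assoc, ← mul_assoc, ← sub_mul, hone]
          split_ifs <;> simp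
      _ ≤ (1 - t ^ 2) * φ x := by
          rw [Finset.sum_ite_eq']
          split_ifs
          · exact le_refl _
          · exact (mul_pos ht1 (hφ0 x)).le
  have hAg : A * g x - t * ∑ y ∈ N x, g y ≤ 0 := by
    have h1 : ∑ y ∈ N x, g y =
        (∑ y ∈ N x, ∑ w ∈ F, t ^ G.dist y w * φ w) - C * ∑ y ∈ N x, φ y := by
      simp only [g, sum_sub_distrib, mul_sum]
    have h2 : g x = (∑ w ∈ F, t ^ G.dist x w * φ w) - C * φ x := rfl
    have h3 : C * den = 1 - t ^ 2 := by rw [hC]; field_simp
    have h4 := mul_le_mul_of_nonneg_left hsuper hC0.le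
    rw [← mul_assoc, h3] at h4
    rw [h1, h2]
    linarith
  have hgx : g x = m * φ x := by rw [hm, div_mul_cancel₀ _ (hφ0 x).ne']
  have h5 : ∑ y ∈ N x, g y ≤ m * ∑ y ∈ N x, φ y := by
    rw [mul_sum]; exact Finset.sum_le_sum fun y _ => hgle y
  have h6 := mul_le_mul_of_nonneg_left h5 ht.le
  have h7 := mul_le_mul_of_nonneg_left hsuper hm0.le
  have h8 := mul_pos hm0 (mul_pos hden0 (hφ0 x))
  rw [hgx] at hAg
  linarith

end Vale.Agent.P161
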