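import Vale.Agent.P161.Defs
import Vale.Agent.P161.Tree
import Mathlib.MeasureTheory.Integral.Bochner.Set
import Mathlib.MeasureTheory.Constructions.Projective
import Mathlib.Logic.Function.DependsOn

/-!
# P161: the free Ising measure (existence, uniqueness, correlation bound)
-/

open MeasureTheory SimpleGraph Finset

namespace Vale.Agent.P161

variable {V : Type*} {G : SimpleGraph V} {θ : ℝ}

lemma sgn_mul_self (b : Bool) : sgn b * sgn b = 1 := by cases b <;> simp [sgn]

lemma abs_sgn (b : Bool) : |sgn b| = 1 := by cases b <;> simp [sgn]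

lemma edgesIn_insert [DecidableEq V] {D : Finset V} {p w : V} (hw : w ∉ D) (hp : p ∈ D)
    (hadj : G.Adj p w) (hleaf : ∀ x ∈ D, G.Adj x w → x = p) :
    edgesIn G (insert w D) = insert s(p, w) (edgesIn G D) := by
  ext e
  induction e using Sym2.ind with
  | _ a b =>
    simp only [edgesIn, mem_filter, mem_sym2_iff, Sym2.mem_iff, forall_eq_or_imp, forall_eq,
      mem_insert, mem_edgeSet, Sym2.eq_iff]
    constructor
    · rintro ⟨⟨rfl | ha, rfl | hb⟩, hab⟩
      · exact absurd rfl hab.ne
      · exact Or.inl (Or.inr ⟨rfl, hleaf b hb hab.symm⟩)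
      · exact Or.inl (Or.inl ⟨hleaf a ha hab, rfl⟩)
      · exact Or.inr ⟨⟨ha, hb⟩, hab⟩
    · rintro ((⟨rfl, rfl⟩ | ⟨rfl, rfl⟩) | ⟨⟨ha, hb⟩, hab⟩)
      · exact ⟨⟨Or.inr hp, Or.inl rfl⟩, hadj⟩
      · exact ⟨⟨Or.inl rfl, Or.inr hp⟩, hadj.symm⟩
      · exact ⟨⟨Or.inr ha, Or.inr hb⟩, hab⟩

lemma edgeFactor_mk (θ : ℝ) (η : V → Bool) (a b : V) :
    edgeFactor θ η s(a, b) = (1 + θ * sgn (η a) * sgn (η b)) / 2 := rfl

lemma prod_edges_insert [DecidableEq V] {D : Finset V} {p w : V} (hw : w ∉ D) (hp : p ∈ D)
    (hadj : G.Adj p w) (hleaf : ∀ x ∈ D, G.Adj x w → x = p) (η : V → Bool) :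
    ∏ e ∈ edgesIn G (insert w D), edgeFactor θ η e =
      (1 + θ * sgn (η p) * sgn (η w)) / 2 * ∏ e ∈ edgesIn G D, edgeFactor θ η e := by
  rw [edgesIn_insert hw hp hadj hleaf, prod_insert, edgeFactor_mk]
  intro h
  simp only [edgesIn, mem_filter, mem_sym2_iff] at h
  exact hw (h.1 w (Sym2.mem_mk_right p w))

lemma prod_edges_congr {D : Finset V} {η η' : V → Bool} (h : ∀ x ∈ D, η x = η' x) :
    ∏ e ∈ edgesIn G D, edgeFactor θ η e = ∏ e ∈ edgesIn G D, edgeFactor θ η' e := by
  refine Finset.prod_congr rfl fun e he => ?_
  induction e using Sym2.ind with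
  | _ a b =>
    simp only [edgesIn, mem_filter, mem_sym2_iff] at he
    rw [edgeFactor_mk, edgeFactor_mk, h a (he.1 a (Sym2.mem_mk_left a b)),
      h b (he.1 b (Sym2.mem_mk_right a b))]

lemma edgeFactor_nonneg (hθ : |θ| ≤ 1) (η : V → Bool) (e : Sym2 V) : 0 ≤ edgeFactor θ η e := by
  induction e using Sym2.ind with
  | _ a b =>
    rw [edgeFactor_mk]
    obtain ⟨h1, h2⟩ := abs_le.1 hθ
    cases η a <;> cases η b <;> simp [sgn] <;> linarith

lemma prob_nonneg (hθ : |θ| ≤ 1) (D : Finset V) (η : V → Bool) :
    0 ≤ 1 / 2 * ∏ e ∈ edgesIn G D, edgeFactor θ η e :=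
  mul_nonneg (by norm_num) (prod_nonneg fun e _ => edgeFactor_nonneg hθ η e)

/-! ### Existence -/

section Existence

open scoped Classical in
/-- The neighbour of `v` towards `o` (or `v` itself). -/
noncomputable def par (G : SimpleGraph V) (o v : V) : V :=
  if h : ∃ y, G.Adj v y ∧ G.dist o v = G.dist o y + 1 then h.choose else v

/-- Spins obtained from the root bit and the agreement bits of the other vertices. -/
noncomputable def sigN (G : SimpleGraph V) (o : V) (b : V → Bool) : ℕ → V → Bool
  | 0, _ => b o
  | n + 1, v => if b v then sigN G o b n (par G o v) else !(sigN G o b n (par G o v))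

/-- The configuration built from the bits `b`. -/
noncomputable def sigConf (G : SimpleGraph V) (o : V) (b : V → Bool) (v : V) : Bool :=
  sigN G o b (G.dist o v) v

/-- The law of one bit with bias `c`. -/
noncomputable def bitLaw (c : ℝ) : Measure Bool :=
  ENNReal.ofReal ((1 + c) / 2) • Measure.dirac true +
    ENNReal.ofReal ((1 - c) / 2) • Measure.dirac false

lemma bitLaw_singleton (c : ℝ) (b : Bool) :
    bitLaw c {b} = ENNReal.ofReal ((1 + c * sgn b) / 2) := by
  cases b <;> simp [bitLaw, sgn, sub_eq_add_neg]

lemma isProbabilityMeasure_bitLaw {c : ℝ} (hc : |c| ≤ 1) : IsProbabilityMeasure (bitLaw c) := by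
  obtain ⟨h1, h2⟩ := abs_le.1 hc
  constructor
  simp only [bitLaw, Measure.add_apply, Measure.smul_apply, measure_univ, smul_eq_mul, mul_one]
  rw [← ENNReal.ofReal_add (by linarith) (by linarith),
    show (1 + c) / 2 + (1 - c) / 2 = 1 by ring, ENNReal.ofReal_one]

lemma par_spec (hT : G.IsTree) {o v : V} (h : v ≠ o) :
    G.Adj v (par G o v) ∧ G.dist o v = G.dist o (par G o v) + 1 := by
  rw [par, dif_pos (exists_closer hT h)]
  exact (exists_closer hT h).choose_spec

lemma sigConf_root (o : V) (b : V → Bool) : sigConf G o b o = b o := by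
  simp [sigConf, sigN]

lemma sigConf_step (hT : G.IsTree) {o v : V} (h : v ≠ o) (b : V → Bool) :
    sigConf G o b v = if b v then sigConf G o b (par G o v) else !(sigConf G o b (par G o v)) := by
  simp only [sigConf]
  rw [(par_spec hT h).2]
  rfl

lemma measurable_sigConf (o : V) : Measurable (sigConf G o) := by
  refine measurable_pi_lambda _ fun v => ?_
  have : ∀ n w, Measurable (fun b : V → Bool => sigN G o b n w) := by
    intro n
    induction n with
    | zero => exact fun w => measurable_pi_apply o
    | succ n ih =>
      intro w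
      exact Measurable.ite ((measurable_pi_apply (X := fun _ : V => Bool) w) (measurableSet_singleton true))
        (ih _) ((measurable_of_countable not).comp (ih _))
  exact this _ _

lemma exists_isFreeIsing (hT : G.IsTree) (hfin : ∀ v, (G.neighborSet v).Finite) (hθ : |θ| ≤ 1) :
    ∃ μ, IsFreeIsing G θ μ := by
  classical
  obtain ⟨o⟩ := hT.connected.nonempty
  let c : V → ℝ := fun v => if v = o then 0 else θ
  have hc : ∀ v, |c v| ≤ 1 := fun v => by simp only [c]; split_ifs <;> simp [hθ]
  haveI : ∀ v, IsProbabilityMeasure (bitLaw (c v)) := fun v => isProbabilityMeasure_bitLaw (hc v)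
  let μ := (Measure.infinitePi fun v => bitLaw (c v)).map (sigConf G o)
  refine ⟨μ, Measure.isProbabilityMeasure_map (measurable_sigConf o).aemeasurable, fun D₀ hD₀ η₀ => ?_⟩
  have hms : ∀ (D : Finset V) (η : V → Bool), MeasurableSet {σ : V → Bool | ∀ v ∈ D, σ v = η v} :=
    fun D η => by
      have : {σ : V → Bool | ∀ v ∈ D, σ v = η v} = Set.pi (D : Set V) fun v => {η v} := by
        ext; simp
      rw [this]
      exact MeasurableSet.pi D.countable_toSet fun _ _ => measurableSet_singleton _
  -- the formula on connected sets containing the root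
  have hroot : ∀ D : Finset V, (G.induce (D : Set V)).Connected → o ∈ D → ∀ η : V → Bool,
      μ {σ | ∀ v ∈ D, σ v = η v} =
        ENNReal.ofReal (1 / 2 * ∏ e ∈ edgesIn G D, edgeFactor θ η e) := by
    intro D hD hoD η
    let β : V → Bool := fun v => if v = o then η o else (η v == η (par G o v))
    have hev : sigConf G o ⁻¹' {σ | ∀ v ∈ D, σ v = η v} = Set.pi (D : Set V) fun v => {β v} := by
      ext b
      simp only [Set.mem_preimage, Set.mem_ofPred_eq, Set.mem_pi, mem_coe, Set.mem_singleton_iff]
      constructor
      · intro h v hv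
        by_cases hvo : v = o
        · subst hvo; simpa [β, sigConf_root] using h v hv
        · have h1 := h v hv
          rw [sigConf_step hT hvo,
            h _ (closer_mem hT hD hoD hv (par_spec hT hvo).1 (par_spec hT hvo).2)] at h1
          simp only [β, if_neg hvo]
          revert h1
          cases b v <;> cases η v <;> cases η (par G o v) <;> simp
      · intro h v hv
        suffices ∀ n, ∀ v ∈ D, G.dist o v = n → sigConf G o b v = η v from this _ v hv rfl
        intro n
        induction n using Nat.strong_induction_on with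
        | _ n ih =>
          intro v hv hn
          by_cases hvo : v = o
          · subst hvo; simpa [β, sigConf_root] using h v hv
          · obtain ⟨h1, h2⟩ := par_spec hT hvo
            rw [sigConf_step hT hvo, ih (G.dist o (par G o v)) (by omega) _
              (closer_mem hT hD hoD hv h1 h2) rfl, h v hv]
            simp only [β, if_neg hvo]
            cases η v <;> cases η (par G o v) <;> simp
    rw [Measure.map_apply (measurable_sigConf o) (hms D η), hev,
      Measure.infinitePi_pi _ (fun _ _ => measurableSet_singleton _)]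
    simp only [bitLaw_singleton]
    rw [← ENNReal.ofReal_prod_of_nonneg (fun v _ => by
      obtain ⟨h1, h2⟩ := abs_le.1 (hc v)
      cases β v <;> simp [sgn] <;> linarith)]
    congr 1
    -- induction removing leaves
    clear hev
    induction hn : D.card using Nat.strong_induction_on generalizing D with
    | _ n ih =>
      by_cases hone : D ⊆ {o}
      · have : D = {o} := subset_antisymm hone (singleton_subset_iff.2 hoD)
        subst this
        have he : edgesIn G {o} = ∅ := by
          ext e
          induction e using Sym2.ind with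
          | _ a b =>
            simp only [edgesIn, mem_filter, mem_sym2_iff, Sym2.mem_iff, forall_eq_or_imp, forall_eq,
              mem_singleton, mem_edgeSet, notMem_empty, iff_false, not_and]
            rintro ⟨rfl, rfl⟩ h
            exact h.ne rfl
        rw [prod_singleton, he, prod_empty]
        simp [c]
      · obtain ⟨w, hwD, hwo, hconn, p, hp, hpw, hadj, hleaf⟩ :=
          exists_leaf hT (connected_singleton o) hD (singleton_subset_iff.2 hoD) hone
        rw [mem_singleton] at hwo
        have hpar : par G o w = p :=
          hleaf _ (closer_mem hT hD hoD hwD (par_spec hT hwo).1 (par_spec hT hwo).2)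
            (par_spec hT hwo).1.symm
        have hcard : (D.erase w).card < n := hn ▸ Finset.card_erase_lt_of_mem hwD
        rw [← Finset.insert_erase hwD, prod_insert (notMem_erase w D),
          prod_edges_insert (notMem_erase w D) (mem_erase.2 ⟨hpw, hp⟩) hadj
            (fun x hx => hleaf x (mem_erase.1 hx).2),
          ih _ hcard (D.erase w) hconn (mem_erase.2 ⟨Ne.symm hwo, hoD⟩) rfl]
        simp only [c, β, if_neg hwo, hpar]
        cases η w <;> cases η p <;> simp [sgn] <;> ring
  -- general connected sets
  obtain ⟨D', hD', hoD', hsub⟩ := exists_connected_superset hT hfin D₀ o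
  by_cases hoD : o ∈ D₀
  · exact hroot D₀ hD₀ hoD η₀
  · -- add one vertex to `D₀` inside `D'`
      suffices ∀ k, ∀ D : Finset V, D'.card ≤ D.card + k → (G.induce (D : Set V)).Connected →
          D₀ ⊆ D → D ⊆ D' → ∀ η, μ {σ | ∀ v ∈ D, σ v = η v} =
            ENNReal.ofReal (1 / 2 * ∏ e ∈ edgesIn G D, edgeFactor θ η e) from
        this D'.card D₀ (by omega) hD₀ (subset_refl _) hsub η₀
      intro k
      induction k with
      | zero =>
        intro D hk hD _ hDD' η
        exact hroot D hD (by rw [eq_of_subset_of_card_le hDD' (by omega)]; exact hoD') η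
      | succ k ihk =>
        intro D hk hD hD0 hDD' η
        by_cases hfull : D' ⊆ D
        · exact hroot D hD (hfull hoD') η
        -- the farthest-from-`o` rule gives a neighbour of `D` inside `D'`
        obtain ⟨⟨u, hu⟩⟩ := hD.nonempty
        have hne : (D' \ D).Nonempty := by simpa [Finset.sdiff_nonempty] using hfull
        obtain ⟨w, hw, hmin⟩ := exists_min_image (D' \ D) (fun x => G.dist u x) hne
        rw [Finset.mem_sdiff] at hw
        have hwu : w ≠ u := fun h => hw.2 (h ▸ hu)
        obtain ⟨p, hpadj, hpd⟩ := exists_closer hT hwu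
        have hpD : p ∈ D := by
          by_contra hpD
          have := hmin p (Finset.mem_sdiff.2 ⟨closer_mem hT hD' (hDD' hu) hw.1 hpadj hpd, hpD⟩)
          omega
        have hleaf : ∀ x ∈ D, G.Adj x w → x = p := fun x hx hxw => by
          rcases hT.dist_eq_dist_add_one_of_adj u hxw with h | h
          · exact absurd (closer_mem hT hD hu hx hxw h) hw.2
          · exact closer_unique hT hxw.symm hpadj h hpd
        have hconn : (G.induce ((insert w D : Finset V) : Set V)).Connected := by
          refine connected_of_closer (u := u) (mem_insert_of_mem hu) fun x hx hxu => ?_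
          rcases mem_insert.1 hx with rfl | hx
          · exact ⟨p, mem_insert_of_mem hpD, hpadj, hpd⟩
          · obtain ⟨y, hy, hyd⟩ := exists_closer hT hxu
            exact ⟨y, mem_insert_of_mem (closer_mem hT hD hu hx hy hyd), hy, hyd⟩
        have hcard : D'.card ≤ (insert w D).card + k := by
          rw [card_insert_of_notMem hw.2]; omega
        have hstep := ihk (insert w D) hcard hconn (hD0.trans (subset_insert _ _))
          (insert_subset hw.1 hDD')
        have hsplit : {σ : V → Bool | ∀ v ∈ D, σ v = η v} =
            {σ | ∀ v ∈ insert w D, σ v = Function.update η w true v} ∪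
            {σ | ∀ v ∈ insert w D, σ v = Function.update η w false v} := by
          ext σ
          simp only [Set.mem_ofPred_eq, Set.mem_union, forall_mem_insert, Function.update_self]
          have hu' : ∀ b, (∀ v ∈ D, σ v = Function.update η w b v) ↔ ∀ v ∈ D, σ v = η v :=
            fun b => forall₂_congr fun v hv => by
              rw [Function.update_of_ne]; rintro rfl; exact hw.2 hv
          rw [hu', hu']
          cases σ w <;> simp
        rw [hsplit, measure_union ?_ (hms _ _), hstep, hstep,
          ← ENNReal.ofReal_add (prob_nonneg hθ _ _) (prob_nonneg hθ _ _)]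
        · congr 1
          rw [prod_edges_insert hw.2 hpD hpadj.symm hleaf, prod_edges_insert hw.2 hpD hpadj.symm hleaf]
          have hpw : p ≠ w := fun h => hw.2 (h ▸ hpD)
          have hcg : ∀ b, ∏ e ∈ edgesIn G D, edgeFactor θ (Function.update η w b) e =
              ∏ e ∈ edgesIn G D, edgeFactor θ η e := fun b => prod_edges_congr fun x hx =>
            Function.update_of_ne (fun h : x = w => hw.2 (h ▸ hx)) _ _
          rw [hcg, hcg, Function.update_self, Function.update_self, Function.update_of_ne hpw,
            Function.update_of_ne hpw]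
          simp [sgn]
          ring
        · rw [Set.disjoint_left]
          intro σ h1 h2
          have := (h1 w (mem_insert_self _ _)).symm.trans (h2 w (mem_insert_self _ _))
          simp at this

end Existence

/-! ### Finitely supported functions -/

variable {μ : Measure (V → Bool)}

open scoped Classical in
/-- Extend a configuration on `D` by `false`. -/
noncomputable def extConf (D : Finset V) (η : D → Bool) : V → Bool :=
  fun x => if h : x ∈ D then η ⟨x, h⟩ else false

lemma extConf_of_mem {D : Finset V} (η : D → Bool) (x : D) : extConf D η x = η x := by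
  simp [extConf, x.2]

lemma apply_eq_extConf {β : Type*} {D : Finset V} {f : (V → Bool) → β}
    (hf : DependsOn f (D : Set V)) (σ : V → Bool) : f σ = f (extConf D ((Finset.restrict (π := fun _ => Bool) D σ))) :=
  hf fun x hx => by simp [extConf, mem_coe.1 hx]

lemma measurable_of_dependsOn {D : Finset V} {f : (V → Bool) → ℝ}
    (hf : DependsOn f (D : Set V)) : Measurable f := by
  rw [funext (apply_eq_extConf hf)]
  exact (measurable_of_countable fun η : D → Bool => f (extConf D η)).comp
    (measurable_restrict D)

lemma integrable_of_dependsOn [IsFiniteMeasure μ] {D : Finset V} {f : (V → Bool) → ℝ}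
    (hf : DependsOn f (D : Set V)) : Integrable f μ := by
  classical
  refine Integrable.of_bound (measurable_of_dependsOn hf).aestronglyMeasurable
    (∑ η : D → Bool, |f (extConf D η)|) (ae_of_all _ fun σ => ?_)
  rw [Real.norm_eq_abs, apply_eq_extConf hf]
  exact single_le_sum (f := fun η : D → Bool => |f (extConf D η)|) (fun _ _ => abs_nonneg _)
    (mem_univ _)

lemma integral_eq_sum [IsFiniteMeasure μ] [DecidableEq V] {D : Finset V} {f : (V → Bool) → ℝ}
    (hf : DependsOn f (D : Set V)) :
    ∫ σ, f σ ∂μ =
      ∑ η : D → Bool, f (extConf D η) * μ.real {σ | ∀ v ∈ D, σ v = extConf D η v} := by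
  have e : (∫ σ, f σ ∂μ) =
      ∫ η, f (extConf D η) ∂(μ.map (Finset.restrict (π := fun _ => Bool) D)) := by
    rw [integral_map (measurable_restrict D).aemeasurable
      (measurable_of_countable _).aestronglyMeasurable]
    exact integral_congr_ae (ae_of_all _ (apply_eq_extConf hf))
  rw [e, integral_fintype Integrable.of_finite]
  refine Finset.sum_congr rfl fun η _ => ?_
  rw [smul_eq_mul, mul_comm]
  congr 1
  rw [map_measureReal_apply (measurable_restrict D) (measurableSet_singleton _)]
  congr 1
  ext σ
  simp only [Set.mem_preimage, Set.mem_singleton_iff, Set.mem_ofPred_eq]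
  constructor
  · rintro rfl v hv; simp [extConf, hv]
  · intro h; funext x; simpa [extConf, x.2] using h x x.2

/-! ### Uniqueness and invariance -/

lemma isFreeIsing_unique (hT : G.IsTree) (hfin : ∀ v, (G.neighborSet v).Finite)
    {μ' : Measure (V → Bool)} (h : IsFreeIsing G θ μ) (h' : IsFreeIsing G θ μ') : μ = μ' := by
  classical
  obtain ⟨hP, h⟩ := h
  obtain ⟨hP', h'⟩ := h'
  obtain ⟨o⟩ := hT.connected.nonempty
  refine IsProjectiveLimit.unique (P := fun I : Finset V => μ.map (Finset.restrict (π := fun _ => Bool) I))
    (fun I => rfl) (fun I => ?_)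
  obtain ⟨D, hD, -, hsub⟩ := exists_connected_superset hT hfin I o
  suffices μ'.map (Finset.restrict (π := fun _ => Bool) D) =
      μ.map (Finset.restrict (π := fun _ => Bool) D) by
    have := congrArg (fun m : Measure (D → Bool) => m.map (Finset.restrict₂ (π := fun _ => Bool) hsub)) this
    simp only [Measure.map_map (Finset.measurable_restrict₂ hsub) (measurable_restrict D)] at this
    exact this
  refine Measure.ext_of_singleton fun η => ?_
  rw [Measure.map_apply (measurable_restrict D) (measurableSet_singleton _),
    Measure.map_apply (measurable_restrict D) (measurableSet_singleton _)]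
  have : (Finset.restrict (π := fun _ => Bool) D) ⁻¹' {η} = {σ : V → Bool | ∀ v ∈ D, σ v = extConf D η v} := by
    ext σ
    simp only [Set.mem_preimage, Set.mem_singleton_iff, Set.mem_ofPred_eq]
    constructor
    · rintro rfl v hv; simp [extConf, hv]
    · intro h; funext x; simpa [extConf, x.2] using h x x.2
  rw [this, h D hD, h' D hD]

lemma isFreeIsing_invariant (hT : G.IsTree) (hfin : ∀ v, (G.neighborSet v).Finite)
    (h : IsFreeIsing G θ μ) (g : G ≃g G) : μ.map (fun σ v => σ (g.symm v)) = μ := by
  classical
  have hm : Measurable (fun (σ : V → Bool) v => σ (g.symm v)) :=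
    measurable_pi_lambda _ fun v => measurable_pi_apply _
  haveI := h.1
  refine isFreeIsing_unique hT hfin ⟨Measure.isProbabilityMeasure_map hm.aemeasurable,
    fun D hD η => ?_⟩ h
  have hms : MeasurableSet {σ : V → Bool | ∀ v ∈ D, σ v = η v} := by
    have : {σ : V → Bool | ∀ v ∈ D, σ v = η v} = Set.pi (D : Set V) fun v => {η v} := by ext; simp
    rw [this]
    exact MeasurableSet.pi D.countable_toSet fun _ _ => measurableSet_singleton _
  rw [Measure.map_apply hm hms]
  let f : V ↪ V := g.symm.toEquiv.toEmbedding
  have hD' : (G.induce ((D.map f : Finset V) : Set V)).Connected := by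
    let F : G.induce (D : Set V) →g G.induce ((D.map f : Finset V) : Set V) :=
      ⟨fun x => ⟨g.symm x.1, by simpa using ⟨x.1, x.2, rfl⟩⟩, fun hab => g.symm.map_rel_iff.2 hab⟩
    refine hD.map F fun y => ?_
    obtain ⟨y, hy⟩ := y
    obtain ⟨x, hx, rfl⟩ := Finset.mem_map.1 hy
    exact ⟨⟨x, hx⟩, rfl⟩
  have key := h.2 (D.map f) hD' (η ∘ g)
  have hset : (fun (σ : V → Bool) v => σ (g.symm v)) ⁻¹' {σ | ∀ v ∈ D, σ v = η v} =
      {σ | ∀ v ∈ D.map f, σ v = (η ∘ g) v} := by
    ext σ
    simp only [Set.mem_preimage, Set.mem_ofPred_eq, f, Finset.forall_mem_map, Equiv.coe_toEmbedding,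
      Function.comp_apply]
    exact forall₂_congr fun v _ => by simp
  rw [hset, key]
  congr 2
  refine Finset.prod_nbij' (fun e => e.map g) (fun e => e.map g.symm) ?_ ?_ ?_ ?_ ?_
  · intro e
    induction e using Sym2.ind with
    | _ a b =>
      simp only [edgesIn, mem_filter, mem_sym2_iff, Sym2.map_mk, Sym2.mem_iff, forall_eq_or_imp,
        forall_eq, mem_edgeSet, Finset.mem_map, f, Equiv.coe_toEmbedding, mem_coe]
      rintro ⟨⟨⟨x, hx, rfl⟩, ⟨y, hy, rfl⟩⟩, hab⟩
      simpa [hx, hy] using g.symm.map_rel_iff.1 hab
  · intro e
    induction e using Sym2.ind with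
    | _ a b =>
      simp only [edgesIn, mem_filter, mem_sym2_iff, Sym2.map_mk, Sym2.mem_iff, forall_eq_or_imp,
        forall_eq, mem_edgeSet, Finset.mem_map, f, Equiv.coe_toEmbedding, mem_coe]
      rintro ⟨⟨ha, hb⟩, hab⟩
      exact ⟨⟨⟨a, ha, rfl⟩, ⟨b, hb, rfl⟩⟩, g.symm.map_rel_iff.2 hab⟩
  · intro e _
    induction e using Sym2.ind with
    | _ a b => simp
  · intro e _
    induction e using Sym2.ind with
    | _ a b => simp
  · intro e _
    induction e using Sym2.ind with
    | _ a b => simp [edgeFactor_mk]

/-! ### The leaf identity and the correlation bound -/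

lemma leaf_integral [DecidableEq V] (hθ : |θ| ≤ 1) (h : IsFreeIsing G θ μ) {B : Finset V}
    (hB : (G.induce (B : Set V)).Connected) {p w : V} (hw : w ∉ B) (hp : p ∈ B)
    (hB' : (G.induce ((insert w B : Finset V) : Set V)).Connected)
    (hadj : G.Adj p w) (hleaf : ∀ x ∈ B, G.Adj x w → x = p)
    {f : (V → Bool) → ℝ} (hf : DependsOn f (B : Set V)) (g : Bool → ℝ) :
    ∫ σ, f σ * g (σ w) ∂μ =
      ∫ σ, f σ * ((g true + g false) / 2 + θ * sgn (σ p) * (g true - g false) / 2) ∂μ := by
  haveI := h.1
  let q : Bool → ℝ := fun s => (g true + g false) / 2 + θ * sgn s * (g true - g false) / 2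
  have hr : ∀ (D : Finset V), (G.induce (D : Set V)).Connected → ∀ η,
      μ.real {σ | ∀ v ∈ D, σ v = η v} = 1 / 2 * ∏ e ∈ edgesIn G D, edgeFactor θ η e :=
    fun D hD η => by
      rw [measureReal_def, h.2 D hD η, ENNReal.toReal_ofReal (prob_nonneg hθ D η)]
  have hq : DependsOn (fun σ => f σ * q (σ p)) (B : Set V) := fun σ σ' hh => by
    simp only [hf hh, hh p hp]
  have hdec : ∀ σ : V → Bool, f σ * g (σ w) = ∑ b : Bool, g b * (f σ * if σ w = b then 1 else 0) :=
    fun σ => by cases σ w <;> simp [mul_comm]
  have hi : ∀ b : Bool, DependsOn (fun σ : V → Bool => f σ * if σ w = b then (1 : ℝ) else 0)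
      ((insert w B : Finset V) : Set V) := fun b σ σ' hh => by
    simp only [hf fun x hx => hh x (by simp [mem_coe.1 hx]), hh w (by simp)]
  have hB0 : ∀ b : Bool, ∫ σ, f σ * (if σ w = b then (1 : ℝ) else 0) ∂μ =
      ∫ σ, f σ * ((1 + θ * sgn (σ p) * sgn b) / 2) ∂μ := by
    intro b
    have hq' : DependsOn (fun σ => f σ * ((1 + θ * sgn (σ p) * sgn b) / 2)) (B : Set V) :=
      fun σ σ' hh => by simp only [hf hh, hh p hp]
    rw [integral_eq_sum hq']
    rw [funext fun σ => congrArg (· * (if σ w = b then (1 : ℝ) else 0)) (apply_eq_extConf hf σ)]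
    have hind : ∀ σ : V → Bool, f (extConf B ((Finset.restrict (π := fun _ => Bool) B σ))) * (if σ w = b then (1 : ℝ) else 0) =
        ∑ η : B → Bool, f (extConf B η) *
          ({σ' : V → Bool | ∀ v ∈ insert w B, σ' v =
            Function.update (extConf B η) w b v}.indicator 1 σ) := by
      intro σ
      rw [Finset.sum_eq_single ((Finset.restrict (π := fun _ => Bool) B σ))]
      · congr 1
        by_cases hb : σ w = b
        · rw [if_pos hb, Set.indicator_of_mem]
          · rfl
          intro v hv
          rcases mem_insert.1 hv with rfl | hv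
          · simp [hb]
          · rw [Function.update_of_ne (fun h : v = w => hw (h ▸ hv))]; simp [extConf, hv]
        · rw [if_neg hb, Set.indicator_of_notMem]
          intro hm
          exact hb (by simpa using hm w (mem_insert_self _ _))
      · intro η _ hη
        rw [Set.indicator_of_notMem, mul_zero]
        intro hm
        refine hη (funext fun x => ?_)
        have := hm x (mem_insert_of_mem x.2)
        rw [Function.update_of_ne (fun h : (x : V) = w => hw (h ▸ x.2)), extConf_of_mem] at this
        exact this.symm
      · simp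
    simp only [hind]
    have hms : ∀ η : V → Bool, MeasurableSet {σ' : V → Bool | ∀ v ∈ insert w B, σ' v = η v} :=
      fun η => by
        have : {σ' : V → Bool | ∀ v ∈ insert w B, σ' v = η v} =
            Set.pi ((insert w B : Finset V) : Set V) fun v => {η v} := by ext; simp
        rw [this]
        exact MeasurableSet.pi (Finset.countable_toSet _) fun _ _ => measurableSet_singleton _
    rw [integral_finsetSum _ fun η _ => ((integrable_const 1).indicator (hms _)).const_mul _]
    refine Finset.sum_congr rfl fun η _ => ?_
    rw [integral_const_mul, integral_indicator_one (hms _), hr _ hB', hr _ hB,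
      prod_edges_insert hw hp hadj hleaf, Function.update_self,
      Function.update_of_ne (fun h : p = w => hw (h ▸ hp)),
      prod_edges_congr (η' := extConf B η) fun x hx => Function.update_of_ne (fun h : x = w => hw (h ▸ hx)) _ _]
    ring
  simp only [hdec]
  rw [integral_finsetSum _ fun b _ => (integrable_of_dependsOn (hi b)).const_mul _]
  simp only [integral_const_mul, hB0, Fintype.sum_bool]
  rw [← integral_const_mul, ← integral_const_mul, ← integral_add]
  · refine integral_congr_ae (ae_of_all _ fun σ => ?_)
    cases hs : σ p <;> simp [sgn, hs] <;> ring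
  all_goals refine Integrable.const_mul (integrable_of_dependsOn (D := B) fun σ σ' hh => ?_) _
  all_goals simp only [hf hh, hh p hp]

/-- The product of site weights. -/
noncomputable def siteW (B : Finset V) (a : V → Bool → ℝ) (σ : V → Bool) : ℝ :=
  ∏ x ∈ B, a x (σ x)

lemma dependsOn_siteW (B : Finset V) (a : V → Bool → ℝ) : DependsOn (siteW B a) (B : Set V) :=
  fun _ _ h => Finset.prod_congr rfl fun x hx => by rw [h x hx]

lemma siteW_pos {B : Finset V} {a : V → Bool → ℝ} (ha : ∀ x s, 0 < a x s) (σ : V → Bool) :
    0 < siteW B a σ := prod_pos fun _ _ => ha _ _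

open scoped Classical in
/-- Weighted mass of the configurations with `σ u = b`. -/
noncomputable def condD (μ : Measure (V → Bool)) (B : Finset V) (a : V → Bool → ℝ) (u : V)
    (b : Bool) : ℝ :=
  ∫ σ, (if σ u = b then 1 else 0) * siteW B a σ ∂μ

open scoped Classical in
/-- Weighted first moment of `σ v` on the configurations with `σ u = b`. -/
noncomputable def condN (μ : Measure (V → Bool)) (B : Finset V) (a : V → Bool → ℝ) (u v : V)
    (b : Bool) : ℝ :=
  ∫ σ, (if σ u = b then sgn (σ v) else 0) * siteW B a σ ∂μ

lemma condD_nonneg {B : Finset V} {a : V → Bool → ℝ} (ha : ∀ x s, 0 < a x s) (u : V) (b : Bool) :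
    0 ≤ condD μ B a u b :=
  integral_nonneg fun σ => mul_nonneg (by split_ifs <;> norm_num) (siteW_pos ha σ).le

lemma correlation_bound [DecidableEq V] (hT : G.IsTree) (hθ0 : 0 ≤ θ) (hθ1 : θ < 1)
    (h : IsFreeIsing G θ μ) (B : Finset V) (hB : (G.induce (B : Set V)).Connected) :
    ∀ (a : V → Bool → ℝ), (∀ x s, 0 < a x s) → ∀ u ∈ B, ∀ v ∈ B,
      |condN μ B a u v true * condD μ B a u false - condN μ B a u v false * condD μ B a u true| ≤
        2 * θ ^ G.dist v u * (condD μ B a u true * condD μ B a u false) := by
  haveI := h.1
  have hθ : |θ| ≤ 1 := abs_le.2 ⟨by linarith, hθ1.le⟩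
  induction hn : B.card using Nat.strong_induction_on generalizing B with
  | _ n ih =>
    intro a ha u hu v hv
    by_cases huv : v = u
    · subst huv
      have hN : ∀ b, condN μ B a v v b = sgn b * condD μ B a v b := fun b => by
        rw [condN, condD, ← integral_const_mul]
        refine integral_congr_ae (ae_of_all _ fun σ => ?_)
        by_cases hb : σ v = b <;> simp [hb]
      rw [hN, hN, SimpleGraph.dist_self, pow_zero, mul_one]
      have h1 := condD_nonneg (μ := μ) (B := B) ha v true
      have h2 := condD_nonneg (μ := μ) (B := B) ha v false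
      rw [abs_le]; simp [sgn]; constructor <;> nlinarith [mul_nonneg h1 h2]
    have hne : ¬ B ⊆ {u} := fun hs => huv (mem_singleton.1 (hs hv))
    obtain ⟨w, hwB, hwu, hconn, p, hp, hpw, hadj, hleaf⟩ :=
      exists_leaf hT (connected_singleton u) hB (singleton_subset_iff.2 hu) hne
    rw [mem_singleton] at hwu
    obtain ⟨B', hB'def, hwB', hins⟩ : ∃ B' : Finset V, B' = B.erase w ∧ w ∉ B' ∧ insert w B' = B :=
      ⟨B.erase w, rfl, notMem_erase w B, Finset.insert_erase hwB⟩
    have hpB' : p ∈ B' := hB'def ▸ mem_erase.2 ⟨hpw, hp⟩
    have huB' : u ∈ B' := hB'def ▸ mem_erase.2 ⟨Ne.symm hwu, hu⟩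
    have hconn' : (G.induce (B' : Set V)).Connected := hB'def ▸ hconn
    have hcard : B'.card < n := hn ▸ hB'def ▸ Finset.card_erase_lt_of_mem hwB
    have hins' : (G.induce ((insert w B' : Finset V) : Set V)).Connected := hins.symm ▸ hB
    have hleaf' : ∀ x ∈ B', G.Adj x w → x = p := fun x hx =>
      hleaf x (hins ▸ mem_insert_of_mem hx)
    -- integrate out the leaf `w`
    let G' : Bool → ℝ := fun s => (a w true + a w false) / 2 + θ * sgn s * (a w true - a w false) / 2
    have hG' : ∀ s, 0 < G' s := by
      intro s
      have h1 := ha w true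
      have h2 := ha w false
      cases s <;> simp [G', sgn] <;>
        nlinarith [mul_pos h1 (show (0 : ℝ) < 1 - θ by linarith),
          mul_pos h2 (show (0 : ℝ) < 1 - θ by linarith)]
    let a' : V → Bool → ℝ := fun x s => if x = p then a x s * G' s else a x s
    have ha' : ∀ x s, 0 < a' x s := fun x s => by
      simp only [a']; split_ifs <;> [exact mul_pos (ha x s) (hG' s); exact ha x s]
    have hsplit : ∀ σ, siteW B a σ = siteW B' a σ * a w (σ w) := fun σ => by
      rw [siteW, ← hins, prod_insert hwB', mul_comm]; rfl
    have hmerge : ∀ σ, siteW B' a σ * G' (σ p) = siteW B' a' σ := fun σ => by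
      simp only [siteW]
      rw [← Finset.mul_prod_erase B' _ hpB', ← Finset.mul_prod_erase B' (fun x => a' x (σ x)) hpB']
      simp only [a', if_pos]
      rw [Finset.prod_congr rfl fun x hx => ?_]
      · ring
      · rw [if_neg (mem_erase.1 hx).1]
    have hD : ∀ b, condD μ B a u b = condD μ B' a' u b := fun b => by
      simp only [condD, hsplit, ← mul_assoc]
      rw [leaf_integral hθ h hconn' hwB' hpB' hins' hadj hleaf'
        (f := fun σ => (if σ u = b then 1 else 0) * siteW B' a σ) ?_ (a w)]
      · refine integral_congr_ae (ae_of_all _ fun σ => ?_)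
        simp only [← hmerge, G']; ring
      · intro σ σ' hh
        simp only [hh u huB', dependsOn_siteW B' a hh]
    by_cases hwv : w = v
    · -- the removed vertex is `v`
      subst hwv
      have hd : G.dist w u = G.dist p u + 1 := by
        obtain ⟨y, hy, hyd⟩ := exists_closer hT (u := u) (x := w) hwu
        have : y = p := hleaf y (closer_mem hT hB hu hwB hy hyd) hy.symm
        subst this
        rwa [dist_comm (u := w), dist_comm (u := y)]
      let H : Bool → ℝ := fun s =>
        (a w true - a w false) / 2 + θ * sgn s * (a w true + a w false) / 2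
      let al : ℝ := (H true / G' true + H false / G' false) / 2
      let be : ℝ := (H true / G' true - H false / G' false) / 2
      have hH : ∀ s, H s = (al + be * sgn s) * G' s := fun s => by
        have := (hG' s).ne'
        cases s <;> simp [al, be, sgn] <;> field_simp <;> ring
      have hbe : |be| ≤ θ := by
        have hab := mul_pos (ha w true) (ha w false)
        have hnum : H true * G' false - H false * G' true = 2 * θ * (a w true * a w false) := by
          simp [H, G', sgn]; ring
        have hden : a w true * a w false ≤ G' true * G' false := by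
          simp [G', sgn]
          nlinarith [sq_nonneg (a w true - a w false), hθ0, hθ1,
            mul_nonneg (mul_nonneg (show (0 : ℝ) ≤ 1 - θ by linarith) (show (0 : ℝ) ≤ 1 + θ by linarith))
              (sq_nonneg (a w true - a w false))]
        have hval : be = θ * (a w true * a w false) / (G' true * G' false) := by
          simp only [be]
          rw [div_sub_div _ _ (hG' true).ne' (hG' false).ne', div_div, mul_comm (G' true) (H false)]
          rw [show H true * G' false - H false * G' true = 2 * θ * (a w true * a w false) from hnum]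
          have := (hG' true).ne'
          have := (hG' false).ne'
          field_simp
        rw [hval, abs_of_nonneg (by have := hG' true; have := hG' false; positivity),
          div_le_iff₀ (mul_pos (hG' true) (hG' false))]
        exact mul_le_mul_of_nonneg_left hden hθ0
      have hN : ∀ b, condN μ B a u w b =
          al * condD μ B' a' u b + be * condN μ B' a' u p b := fun b => by
        have e1 : ∀ σ : V → Bool, (if σ u = b then sgn (σ w) else 0) * siteW B a σ =
            ((if σ u = b then 1 else 0) * siteW B' a σ) * (sgn (σ w) * a w (σ w)) := fun σ => by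
          rw [hsplit]; split_ifs <;> ring
        simp only [condN, condD, e1]
        rw [leaf_integral hθ h hconn' hwB' hpB' hins' hadj hleaf'
          (f := fun σ => (if σ u = b then 1 else 0) * siteW B' a σ) ?_ (fun s => sgn s * a w s),
          ← integral_const_mul, ← integral_const_mul, ← integral_add]
        · refine integral_congr_ae (ae_of_all _ fun σ => ?_)
          simp only [← hmerge]
          have := hH (σ p)
          simp only [H] at this
          by_cases hb : σ u = b
          · rw [if_pos hb, if_pos hb]
            cases hs : σ p <;> simp [sgn, hs] at this ⊢ <;>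
              linear_combination (siteW B' a σ) * this
          · rw [if_neg hb, if_neg hb]; ring
        · refine Integrable.const_mul (integrable_of_dependsOn (D := B') fun σ σ' hh => ?_) _
          simp only [hh u huB', dependsOn_siteW B' a' hh]
        · refine Integrable.const_mul (integrable_of_dependsOn (D := B') fun σ σ' hh => ?_) _
          simp only [hh u huB', hh p hpB', dependsOn_siteW B' a' hh]
        · intro σ σ' hh
          simp only [hh u huB', dependsOn_siteW B' a hh]
      have := ih _ hcard B' hconn' rfl a' ha' u huB' p hpB'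
      rw [hD, hD, hN, hN, hd, pow_succ]
      calc _ = |be| * |condN μ B' a' u p true * condD μ B' a' u false -
            condN μ B' a' u p false * condD μ B' a' u true| := by rw [← abs_mul]; congr 1; ring
        _ ≤ θ * (2 * θ ^ G.dist p u * (condD μ B' a' u true * condD μ B' a' u false)) :=
          mul_le_mul hbe this (abs_nonneg _) hθ0
        _ = _ := by ring
    · have hvB' : v ∈ B' := hB'def ▸ mem_erase.2 ⟨Ne.symm hwv, hv⟩
      have hN : ∀ b, condN μ B a u v b = condN μ B' a' u v b := fun b => by
        simp only [condN, hsplit, ← mul_assoc]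
        rw [leaf_integral hθ h hconn' hwB' hpB' hins' hadj hleaf'
          (f := fun σ => (if σ u = b then sgn (σ v) else 0) * siteW B' a σ) ?_ (a w)]
        · refine integral_congr_ae (ae_of_all _ fun σ => ?_)
          simp only [← hmerge, G']; ring
        · intro σ σ' hh
          simp only [hh u huB', hh v hvB', dependsOn_siteW B' a hh]
      rw [hD, hD, hN, hN]
      exact ih _ hcard B' hconn' rfl a' ha' u huB' v hvB'

end Vale.Agent.P161
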