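import Vale.Agent.P161.Sampler
import Mathlib.MeasureTheory.Function.L1Space.Integrable
import Mathlib.MeasureTheory.Function.LpSpace.Complete
import Mathlib.MeasureTheory.Measure.HasOuterApproxClosed
import Mathlib.Topology.ContinuousMap.Bounded.Basic

/-!
# P161: the infinite volume innovations
-/

open MeasureTheory Filter Finset
open scoped Topology BoundedContinuousFunction

namespace Vale.Agent.P161

variable {V : Type*}

lemma abs_le_delta_add (x : ℝ) {δ : ℝ} (hδ : 0 < δ) : |x| ≤ δ + x ^ 2 / δ := by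
  rw [← sub_nonneg, show δ + x ^ 2 / δ - |x| = (δ ^ 2 + x ^ 2 - |x| * δ) / δ by field_simp]
  refine div_nonneg ?_ hδ.le
  nlinarith [sq_nonneg (|x| - δ), sq_abs x, abs_nonneg x]

lemma integral_abs_le_delta_add {α : Type*} [MeasurableSpace α] {m : Measure α}
    [IsProbabilityMeasure m] {f : α → ℝ} (hf : Measurable f) {C : ℝ} (hC : ∀ a, |f a| ≤ C)
    {δ : ℝ} (hδ : 0 < δ) : ∫ a, |f a| ∂m ≤ δ + (∫ a, f a ^ 2 ∂m) / δ := by
  have h2 : Integrable (fun a => f a ^ 2) m :=
    integrable_of_abs_le (hf.pow_const 2) (C := C ^ 2) fun a => by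
      rw [abs_pow]; exact pow_le_pow_left₀ (abs_nonneg _) (hC a) 2
  have := integral_mono (f := fun a => |f a|) (g := fun a => δ + f a ^ 2 / δ) (μ := m)
    (integrable_of_abs_le hf hC).abs ((integrable_const δ).add (h2.div_const δ))
    fun a => abs_le_delta_add _ hδ
  rw [integral_add (integrable_const δ) (h2.div_const δ), integral_div] at this
  simpa using this

/-- A bounded sequence that is Cauchy in mean has a limit in mean. -/
lemma exists_L1_limit {α : Type*} [MeasurableSpace α] {m : Measure α} [IsFiniteMeasure m]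
    {f : ℕ → α → ℝ} (hf : ∀ n, Measurable (f n)) (hb : ∀ n a, |f n a| ≤ 1)
    (hc : ∀ η : ℝ, 0 < η → ∃ N, ∀ n k, N ≤ n → n ≤ k → ∫ a, |f k a - f n a| ∂m ≤ η) :
    ∃ g : α → ℝ, Measurable g ∧ (∀ a, |g a| ≤ 1) ∧
      Tendsto (fun n => ∫ a, |f n a - g a| ∂m) atTop (𝓝 0) := by
  have hi : ∀ n, Integrable (f n) m := fun n => integrable_of_abs_le (hf n) (hb n)
  let F : ℕ → (α →₁[m] ℝ) := fun n => (hi n).toL1 (f n)
  have hdist : ∀ n k, dist (F n) (F k) = ∫ a, |f n a - f k a| ∂m := fun n k => by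
    rw [dist_eq_norm, ← Integrable.toL1_sub, L1.norm_eq_integral_norm]
    refine integral_congr_ae ?_
    filter_upwards [((hi n).sub (hi k)).coeFn_toL1] with a ha
    rw [ha]; simp [Real.norm_eq_abs]
  have hcs : CauchySeq F := by
    rw [Metric.cauchySeq_iff']
    intro η hη
    obtain ⟨N, hN⟩ := hc (η / 2) (by linarith)
    refine ⟨N, fun n hn => ?_⟩
    rw [hdist]
    linarith [hN N n le_rfl hn]
  obtain ⟨G, hG⟩ := cauchySeq_tendsto_of_complete hcs
  have hsm := Lp.stronglyMeasurable G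
  refine ⟨fun a => clY (G a), continuous_clY.measurable.comp hsm.measurable, fun a => abs_clY _, ?_⟩
  have h0 := (tendsto_iff_dist_tendsto_zero.1 hG)
  refine squeeze_zero (fun n => integral_nonneg fun a => abs_nonneg _) (fun n => ?_) h0
  rw [dist_eq_norm, L1.norm_eq_integral_norm]
  refine integral_mono_ae ((hi n).sub (integrable_of_abs_le
    (continuous_clY.measurable.comp hsm.measurable) fun a => abs_clY _)).abs
    (L1.integrable_coeFn _).norm ?_
  filter_upwards [Lp.coeFn_sub (F n) G, (hi n).coeFn_toL1] with a ha hb'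
  rw [ha, Pi.sub_apply, hb', Real.norm_eq_abs]
  have := abs_clY_sub (f n a) (G a)
  rwa [clY_of_abs_le (hb n a)] at this

/-- From convergence in mean, an almost surely convergent subsequence. -/
lemma exists_ae_subseq {α : Type*} [MeasurableSpace α] {m : Measure α}
    {g : ℕ → α → ℝ} (hg : ∀ n, Measurable (g n)) (hg0 : ∀ n a, 0 ≤ g n a)
    (hi : ∀ n, Integrable (g n) m) (h : Tendsto (fun n => ∫ a, g n a ∂m) atTop (𝓝 0)) :
    ∃ φ : ℕ → ℕ, (∀ j, j ≤ φ j) ∧ ∀ᵐ a ∂m, Tendsto (fun j => g (φ j) a) atTop (𝓝 0) := by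
  have : ∀ j : ℕ, ∃ n, j ≤ n ∧ ∫ a, g n a ∂m ≤ (1 / 2 : ℝ) ^ j := fun j => by
    obtain ⟨n, hn, hjn⟩ :=
      ((h.eventually (eventually_le_nhds (show (0 : ℝ) < (1 / 2) ^ j by positivity))).and
        (eventually_ge_atTop j)).exists
    exact ⟨n, hjn, hn⟩
  choose φ hφ hφb using this
  refine ⟨φ, hφ, ?_⟩
  have hm : ∀ j, Measurable (fun a => ENNReal.ofReal (g (φ j) a)) := fun j => (hg _).ennreal_ofReal
  have hfin : ∫⁻ a, ∑' j, ENNReal.ofReal (g (φ j) a) ∂m ≠ ⊤ := by
    rw [lintegral_tsum fun j => (hm j).aemeasurable]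
    refine ne_top_of_le_ne_top ?_ (ENNReal.tsum_le_tsum (g := fun j => ENNReal.ofReal ((1 / 2) ^ j))
      fun j => ?_)
    · rw [← ENNReal.ofReal_tsum_of_nonneg (fun n => by positivity) summable_geometric_two]
      exact ENNReal.ofReal_ne_top
    · rw [← ofReal_integral_eq_lintegral_ofReal (hi _) (ae_of_all _ (hg0 _))]
      exact ENNReal.ofReal_le_ofReal (hφb j)
  filter_upwards [ae_lt_top (Measurable.ennreal_tsum hm) hfin] with a ha
  have h0 := (ENNReal.tendsto_toReal ENNReal.zero_ne_top).comp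
    (ENNReal.tendsto_atTop_zero_of_tsum_ne_top ha.ne)
  simpa [Function.comp_def, ENNReal.toReal_ofReal (hg0 _ _)] using h0

variable (P : Setup V)

/-- The whole probability space: labels, spins and observation noise. -/
noncomputable def joint : Measure ((V → ℝ) × ((V → Bool) × (V × ℕ → ℝ))) :=
  (iidU V).prod (base P)

/-- The observations on the whole space. -/
noncomputable def yobs (ω : (V → ℝ) × ((V → Bool) × (V × ℕ → ℝ))) : V × ℕ → ℝ :=
  obs P ω.2.1 ω.2.2

/-- The posterior mean on the whole space. -/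
noncomputable def mfin (A : Finset V) (s : V × ℕ) (ω : (V → ℝ) × ((V → Bool) × (V × ℕ → ℝ))) : ℝ :=
  mval P A ω.1 (yobs P ω) s

/-- An exhausting sequence of finite vertex sets. -/
def Exhausts (B : ℕ → Finset V) : Prop := ∀ F : Finset V, ∃ N, ∀ n, N ≤ n → F ⊆ B n

variable {P} {G : SimpleGraph V} {θ : ℝ}

lemma isProb_joint (hP : P.Good G θ) : IsProbabilityMeasure (joint P) := by
  haveI := isProb_base hP
  unfold joint; infer_instance

lemma measurable_yobs : Measurable (yobs P) := measurable_obs.comp measurable_snd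

lemma measurable_mfin (hP : P.Good G θ) (A : Finset V) (s : V × ℕ) : Measurable (mfin P A s) :=
  measurable_mval_comp hP A s (g := fun ω : (V → ℝ) × ((V → Bool) × (V × ℕ → ℝ)) => ω.1)
    (h := yobs P) measurable_fst measurable_yobs

lemma abs_mfin (hP : P.Good G θ) (A : Finset V) (s : V × ℕ)
    (ω : (V → ℝ) × ((V → Bool) × (V × ℕ → ℝ))) : |mfin P A s ω| ≤ 1 := abs_mval hP A _ _ s

/-- Posterior means on nested slot sets form a martingale. -/
lemma post_pythagoras (hP : P.Good G θ) {S S' : Finset (V × ℕ)} (h : S ⊆ S') (v : V) :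
    ∫ p, (post P.μ P.ε S' v (obs P p.1 p.2) - post P.μ P.ε S v (obs P p.1 p.2)) ^ 2 ∂base P =
      (∫ p, post P.μ P.ε S' v (obs P p.1 p.2) ^ 2 ∂base P) -
        ∫ p, post P.μ P.ε S v (obs P p.1 p.2) ^ 2 ∂base P := by
  haveI := hP.prob
  haveI := isProb_base hP
  let a : (V × ℕ → ℝ) → ℝ := post P.μ P.ε S v
  let b : (V × ℕ → ℝ) → ℝ := post P.μ P.ε S' v
  have ha : Measurable a := measurable_post S v
  have hb : Measurable b := measurable_post S' v
  have hab : ∀ y, |a y| ≤ 1 := fun y => abs_post hP.eps_abs S v y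
  have hbb : ∀ y, |b y| ≤ 1 := fun y => abs_post hP.eps_abs S' v y
  have h1 := posterior_identity hP S v ha (fun y y' hh => post_congr v fun t ht => hh t ht) hab
  have h2 := posterior_identity hP S' v ha (fun y y' hh => post_congr v fun t ht => hh t (h ht)) hab
  have key : ∫ p, b (obs P p.1 p.2) * a (obs P p.1 p.2) ∂base P =
      ∫ p, a (obs P p.1 p.2) ^ 2 ∂base P := by
    rw [← h2, h1]
    exact integral_congr_ae (ae_of_all _ fun p => (sq _).symm)
  have hi : ∀ {f : (V × ℕ → ℝ) → ℝ}, Measurable f → (∀ y, |f y| ≤ 1) →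
      Integrable (fun p : (V → Bool) × (V × ℕ → ℝ) => f (obs P p.1 p.2)) (base P) :=
    fun {f} hf hf1 => integrable_of_abs_le (hf.comp measurable_obs) fun p => hf1 _
  have i1 := hi (f := fun y => b y ^ 2) (hb.pow_const 2) fun y => by
    rw [abs_pow]; exact pow_le_one₀ (abs_nonneg _) (hbb y)
  have i2 := hi (f := fun y => a y ^ 2) (ha.pow_const 2) fun y => by
    rw [abs_pow]; exact pow_le_one₀ (abs_nonneg _) (hab y)
  have i3 := hi (f := fun y => b y * a y) (hb.mul ha) fun y => by
    rw [abs_mul]; exact mul_le_one₀ (hbb y) (abs_nonneg _) (hab y)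
  have e : ∀ p : (V → Bool) × (V × ℕ → ℝ), (b (obs P p.1 p.2) - a (obs P p.1 p.2)) ^ 2 =
      b (obs P p.1 p.2) ^ 2 - 2 * (b (obs P p.1 p.2) * a (obs P p.1 p.2)) + a (obs P p.1 p.2) ^ 2 :=
    fun p => by ring
  show ∫ p, (b (obs P p.1 p.2) - a (obs P p.1 p.2)) ^ 2 ∂base P = _
  simp only [e]
  rw [integral_add (f := fun p : (V → Bool) × (V × ℕ → ℝ) =>
      b (obs P p.1 p.2) ^ 2 - 2 * (b (obs P p.1 p.2) * a (obs P p.1 p.2)))
      (i1.sub (i3.const_mul 2)) i2,
    integral_sub i1 (i3.const_mul 2), integral_const_mul, key]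
  show (∫ p, b (obs P p.1 p.2) ^ 2 ∂base P) - _ + _ = (∫ p, b (obs P p.1 p.2) ^ 2 ∂base P) - _
  simp only [a]
  ring

/-- The martingale property on the whole space. -/
lemma mfin_pythagoras (hP : P.Good G θ) {A A' : Finset V} (h : A ⊆ A') (s : V × ℕ) :
    ∫ ω, (mfin P A' s ω - mfin P A s ω) ^ 2 ∂joint P =
      (∫ ω, mfin P A' s ω ^ 2 ∂joint P) - ∫ ω, mfin P A s ω ^ 2 ∂joint P := by
  haveI := hP.prob
  haveI := isProb_base hP
  haveI := isProb_joint hP
  have hsq : ∀ B, Integrable (fun ω => mfin P B s ω ^ 2) (joint P) := fun B =>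
    integrable_of_abs_le ((measurable_mfin hP B s).pow_const 2) fun ω => by
      rw [abs_pow]; exact pow_le_one₀ (abs_nonneg _) (abs_mfin hP B s ω)
  have hd : Integrable (fun ω => (mfin P A' s ω - mfin P A s ω) ^ 2) (joint P) :=
    integrable_of_abs_le (((measurable_mfin hP A' s).sub (measurable_mfin hP A s)).pow_const 2)
      (C := (1 + 1) ^ 2) fun ω => by
        rw [abs_pow]
        exact pow_le_pow_left₀ (abs_nonneg _)
          ((abs_sub _ _).trans (add_le_add (abs_mfin hP A' s ω) (abs_mfin hP A s ω))) 2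
  rw [joint, integral_prod _ hd, integral_prod _ (hsq A'), integral_prod _ (hsq A),
    ← integral_sub (hsq A').integral_prod_left (hsq A).integral_prod_left]
  refine integral_congr_ae (ae_of_all _ fun L => ?_)
  simp only [mfin, mval, yobs]
  exact post_pythagoras hP (past_mono h L s) s.1

lemma mfin_sq_mono (hP : P.Good G θ) {A A' : Finset V} (h : A ⊆ A') (s : V × ℕ) :
    ∫ ω, mfin P A s ω ^ 2 ∂joint P ≤ ∫ ω, mfin P A' s ω ^ 2 ∂joint P := by
  have := mfin_pythagoras hP h s
  have : 0 ≤ ∫ ω, (mfin P A' s ω - mfin P A s ω) ^ 2 ∂joint P :=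
    integral_nonneg fun ω => sq_nonneg _
  linarith

lemma mfin_sq_le_one (hP : P.Good G θ) (A : Finset V) (s : V × ℕ) :
    ∫ ω, mfin P A s ω ^ 2 ∂joint P ≤ 1 := by
  haveI := isProb_joint hP
  refine le_trans (le_abs_self _) (abs_integral_le_of_bound fun ω => ?_)
  rw [abs_pow]; exact pow_le_one₀ (abs_nonneg _) (abs_mfin hP A s ω)

/-- The finite vertex sets given by the enumeration. -/
noncomputable def exSet (hP : P.Good G θ) (n : ℕ) : Finset V :=
  ((Set.finite_lt_nat n).preimage hP.inj.injOn).toFinset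

lemma exSet_exhausts (hP : P.Good G θ) : Exhausts (exSet hP) := fun F =>
  ⟨F.sup P.e + 1, fun n hn x hx => by
    have := le_sup (f := P.e) hx
    simp [exSet]; omega⟩

lemma exSet_mono (hP : P.Good G θ) {n m : ℕ} (h : n ≤ m) : exSet hP n ⊆ exSet hP m := fun x hx => by
  simp [exSet] at hx ⊢; omega

/-- The infinite volume posterior mean. -/
lemma exists_mlim (hP : P.Good G θ) (s : V × ℕ) :
    ∃ g : (V → ℝ) × ((V → Bool) × (V × ℕ → ℝ)) → ℝ, Measurable g ∧ (∀ ω, |g ω| ≤ 1) ∧
      ∀ B : ℕ → Finset V, Exhausts B →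
        Tendsto (fun n => ∫ ω, |mfin P (B n) s ω - g ω| ∂joint P) atTop (𝓝 0) := by
  haveI := isProb_joint hP
  set a : Finset V → ℝ := fun A => ∫ ω, mfin P A s ω ^ 2 ∂joint P
  set top : ℝ := ⨆ n, a (exSet hP n)
  have hbdd : BddAbove (Set.range fun n => a (exSet hP n)) :=
    ⟨1, by rintro _ ⟨n, rfl⟩; exact mfin_sq_le_one hP _ s⟩
  have hle : ∀ A, a A ≤ top := fun A => by
    obtain ⟨N, hN⟩ := exSet_exhausts hP A
    exact (mfin_sq_mono hP (hN N le_rfl) s).trans (le_ciSup hbdd N)
  have hdiff : ∀ {A A' : Finset V}, A ⊆ A' → ∀ {δ : ℝ}, 0 < δ →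
      ∫ ω, |mfin P A' s ω - mfin P A s ω| ∂joint P ≤ δ + (top - a A) / δ := fun {A A'} h {δ} hδ => by
    refine (integral_abs_le_delta_add (f := fun ω => mfin P A' s ω - mfin P A s ω)
      ((measurable_mfin hP A' s).sub (measurable_mfin hP A s))
      (C := 1 + 1) (fun ω => (abs_sub _ _).trans
        (add_le_add (abs_mfin hP A' s ω) (abs_mfin hP A s ω))) hδ).trans ?_
    rw [mfin_pythagoras hP h s]
    exact add_le_add le_rfl (div_le_div_of_nonneg_right (by linarith [hle A']) hδ.le)
  have hsmall : ∀ η : ℝ, 0 < η → ∃ j, (top - a (exSet hP j)) / (η / 2) ≤ η / 2 := fun η hη => by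
    obtain ⟨j, hj⟩ := exists_lt_of_lt_ciSup (show top - η / 2 * (η / 2) < top by nlinarith)
    exact ⟨j, by rw [div_le_iff₀ (by linarith)]; linarith⟩
  obtain ⟨g, hg, hgb, hlim⟩ := exists_L1_limit (m := joint P) (f := fun n => mfin P (exSet hP n) s)
    (fun n => measurable_mfin hP _ s) (fun n => abs_mfin hP _ s) fun η hη => by
      obtain ⟨j, hj⟩ := hsmall η hη
      refine ⟨j, fun n k hn hk => (hdiff (exSet_mono hP hk) (half_pos hη)).trans ?_⟩
      have := mfin_sq_mono hP (exSet_mono hP hn) s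
      have : (top - a (exSet hP n)) / (η / 2) ≤ (top - a (exSet hP j)) / (η / 2) :=
        div_le_div_of_nonneg_right (by linarith) (by linarith)
      linarith
  refine ⟨g, hg, hgb, fun B hB => ?_⟩
  rw [Metric.tendsto_atTop]
  intro η hη
  obtain ⟨j, hj⟩ := hsmall (η / 2) (by linarith)
  obtain ⟨N, hN⟩ := hB (exSet hP j)
  obtain ⟨M, hM⟩ := Metric.tendsto_atTop.1 hlim (η / 4) (by linarith)
  refine ⟨N, fun n hn => ?_⟩
  obtain ⟨K, hK⟩ := exSet_exhausts hP (B n)
  have hk := hK (max K M) (le_max_left _ _)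
  have h1 := hdiff hk (show 0 < η / 2 / 2 by linarith)
  have h2 := hM (max K M) (le_max_right _ _)
  have h3 := mfin_sq_mono hP (hN n hn) s
  have h4 : (top - a (B n)) / (η / 2 / 2) ≤ (top - a (exSet hP j)) / (η / 2 / 2) :=
    div_le_div_of_nonneg_right (by linarith) (by linarith)
  rw [Real.dist_eq, sub_zero, abs_of_nonneg (integral_nonneg fun ω => abs_nonneg _)] at h2 ⊢
  have hi : ∀ A, Integrable (fun ω => |mfin P A s ω - g ω|) (joint P) := fun A =>
    (Integrable.sub (integrable_of_abs_le (measurable_mfin hP A s) (abs_mfin hP A s))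
      (integrable_of_abs_le hg hgb)).abs
  have hi2 : Integrable (fun ω => |mfin P (exSet hP (max K M)) s ω - mfin P (B n) s ω|) (joint P) :=
    (Integrable.sub (integrable_of_abs_le (measurable_mfin hP _ s) (abs_mfin hP _ s))
      (integrable_of_abs_le (measurable_mfin hP _ s) (abs_mfin hP _ s))).abs
  have h5 := integral_mono (hi (B n)) (hi2.add (hi (exSet hP (max K M)))) fun ω => by
    have h6 := abs_sub_le (mfin P (B n) s ω) (mfin P (exSet hP (max K M)) s ω) (g ω)
    rwa [abs_sub_comm (mfin P (B n) s ω) (mfin P (exSet hP (max K M)) s ω)] at h6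
  simp only [Pi.add_apply] at h5
  rw [integral_add hi2 (hi _)] at h5
  linarith

/-- The infinite volume posterior mean. -/
noncomputable def mlim (hP : P.Good G θ) (s : V × ℕ) :
    (V → ℝ) × ((V → Bool) × (V × ℕ → ℝ)) → ℝ := (exists_mlim hP s).choose

lemma measurable_mlim (hP : P.Good G θ) (s : V × ℕ) : Measurable (mlim hP s) :=
  (exists_mlim hP s).choose_spec.1

lemma abs_mlim (hP : P.Good G θ) (s : V × ℕ) (ω : (V → ℝ) × ((V → Bool) × (V × ℕ → ℝ))) :
    |mlim hP s ω| ≤ 1 :=
  (exists_mlim hP s).choose_spec.2.1 ω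

lemma tendsto_mlim (hP : P.Good G θ) (s : V × ℕ) {B : ℕ → Finset V} (hB : Exhausts B) :
    Tendsto (fun n => ∫ ω, |mfin P (B n) s ω - mlim hP s ω| ∂joint P) atTop (𝓝 0) :=
  (exists_mlim hP s).choose_spec.2.2 B hB

/-- The finite volume innovations on the whole space. -/
noncomputable def zfin (P : Setup V) (A : Finset V)
    (ω : (V → ℝ) × ((V → Bool) × (V × ℕ → ℝ))) : V × ℕ → ℝ :=
  innov P A ω.1 (yobs P ω)

/-- The innovations. -/
noncomputable def zlim (hP : P.Good G θ) (ω : (V → ℝ) × ((V → Bool) × (V × ℕ → ℝ))) :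
    V × ℕ → ℝ :=
  fun s => chF (P.ε * mlim hP s ω) (yobs P ω s)

lemma measurable_zfin (hP : P.Good G θ) (A : Finset V) : Measurable (zfin P A) :=
  measurable_innov_pi hP A (g := fun ω : (V → ℝ) × ((V → Bool) × (V × ℕ → ℝ)) => ω.1)
    (h := yobs P) measurable_fst measurable_yobs

lemma measurable_zlim (hP : P.Good G θ) : Measurable (zlim hP) :=
  measurable_pi_lambda _ fun s => Measurable.comp (g := fun p : ℝ × ℝ => chF p.1 p.2)
    (f := fun ω => (P.ε * mlim hP s ω, yobs P ω s)) continuous_chF.measurable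
    ((measurable_const.mul (measurable_mlim hP s)).prodMk
      ((measurable_pi_apply s).comp measurable_yobs))

lemma abs_zfin_sub (hP : P.Good G θ) (A : Finset V) (s : V × ℕ)
    (ω : (V → ℝ) × ((V → Bool) × (V × ℕ → ℝ))) :
    |zfin P A ω s - zlim hP ω s| ≤ |mfin P A s ω - mlim hP s ω| := by
  refine (abs_chF_sub_bias _ _ _).trans ?_
  rw [← mul_sub, abs_mul, abs_of_pos hP.eps_pos]
  simp only [mfin]
  nlinarith [abs_nonneg (mval P A ω.1 (yobs P ω) s - mlim hP s ω), hP.eps_le, hP.eps_pos]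

lemma abs_zlim_le (hP : P.Good G θ) (ω : (V → ℝ) × ((V → Bool) × (V × ℕ → ℝ))) (s : V × ℕ) :
    |zlim hP ω s| ≤ 1 := by
  obtain ⟨h1, h2⟩ := chF_mem (le_trans (hP.abs_bias (abs_mlim hP s ω)) (by norm_num)) (yobs P ω s)
  exact abs_le.2 ⟨by unfold zlim; linarith, by unfold zlim; linarith⟩

lemma abs_zfin_le (hP : P.Good G θ) (A : Finset V) (ω : (V → ℝ) × ((V → Bool) × (V × ℕ → ℝ)))
    (s : V × ℕ) : |zfin P A ω s| ≤ 1 := by
  obtain ⟨h1, h2⟩ := chF_mem (le_trans (hP.abs_mval_bias A ω.1 (yobs P ω) s) (by norm_num))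
    (yobs P ω s)
  exact abs_le.2 ⟨by unfold zfin innov; linarith, by unfold zfin innov; linarith⟩

lemma tendsto_sum_zfin (hP : P.Good G θ) (D : Finset (V × ℕ)) (c : V × ℕ → ℝ) (hc : ∀ t, 0 ≤ c t) :
    Tendsto (fun n => ∫ ω, ∑ t ∈ D, c t * |zfin P (exSet hP n) ω t - zlim hP ω t| ∂joint P)
      atTop (𝓝 0) := by
  haveI := isProb_joint hP
  have hiz : ∀ n t, Integrable (fun ω => c t * |zfin P (exSet hP n) ω t - zlim hP ω t|) (joint P) :=
    fun n t => ((Integrable.sub
      (integrable_of_abs_le ((measurable_pi_apply t).comp (measurable_zfin hP _))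
        fun ω => abs_zfin_le hP _ ω t)
      (integrable_of_abs_le ((measurable_pi_apply t).comp (measurable_zlim hP))
        fun ω => abs_zlim_le hP ω t)).abs).const_mul _
  have him : ∀ n t, Integrable (fun ω => c t * |mfin P (exSet hP n) t ω - mlim hP t ω|) (joint P) :=
    fun n t => ((Integrable.sub (integrable_of_abs_le (measurable_mfin hP _ t) (abs_mfin hP _ t))
      (integrable_of_abs_le (measurable_mlim hP t) (abs_mlim hP t))).abs).const_mul _
  refine squeeze_zero
    (fun n => integral_nonneg fun ω => sum_nonneg fun t _ => mul_nonneg (hc t) (abs_nonneg _))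
    (fun n => ?_) (g := fun n => ∑ t ∈ D, c t * ∫ ω, |mfin P (exSet hP n) t ω - mlim hP t ω| ∂joint P) ?_
  · rw [integral_finsetSum _ fun t _ => hiz n t]
    refine sum_le_sum fun t _ => ?_
    rw [← integral_const_mul]
    exact integral_mono (hiz n t) (him n t) fun ω =>
      mul_le_mul_of_nonneg_left (abs_zfin_sub hP _ t ω) (hc t)
  · have := tendsto_finsetSum D fun t _ =>
      (tendsto_mlim hP t (exSet_exhausts hP)).const_mul (c t)
    simpa using this

/-- Merge labels and innovations into one field indexed by `V × ℕ`. -/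
def mix (p : (V → ℝ) × (V × ℕ → ℝ)) : V × ℕ → ℝ :=
  fun t => match t.2 with
    | 0 => p.1 t.1
    | k + 1 => p.2 (t.1, k)

lemma measurable_mix : Measurable (mix (V := V)) := by
  refine measurable_pi_lambda _ fun t => ?_
  obtain ⟨v, k⟩ := t
  cases k with
  | zero => exact (measurable_pi_apply v).comp measurable_fst
  | succ k => exact (measurable_pi_apply (v, k)).comp measurable_snd

lemma map_mix : ((iidU V).prod (iidU (V × ℕ))).map mix = iidU (V × ℕ) := by
  classical
  refine Measure.eq_infinitePi _ fun s q hq => ?_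
  rw [Measure.map_apply measurable_mix (MeasurableSet.pi s.countable_toSet fun i _ => hq i)]
  let i0 : V → V × ℕ := fun v => (v, 0)
  let i1 : V × ℕ → V × ℕ := fun t => (t.1, t.2 + 1)
  have h0 : Function.Injective i0 := fun a b h => congrArg Prod.fst h
  have h1 : Function.Injective i1 := fun a b h => by
    simp only [i1, Prod.mk.injEq, Nat.succ_injective.eq_iff, add_left_inj] at h
    exact Prod.ext h.1 h.2
  let s0 := s.preimage i0 h0.injOn
  let s1 := s.preimage i1 h1.injOn
  have : mix ⁻¹' Set.pi (s : Set (V × ℕ)) q =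
      Set.pi (s0 : Set V) (fun v => q (i0 v)) ×ˢ Set.pi (s1 : Set (V × ℕ)) (fun t => q (i1 t)) := by
    ext p
    simp only [Set.mem_preimage, Set.mem_pi, Finset.mem_coe, Set.mem_prod, s0, s1, Finset.mem_preimage]
    constructor
    · exact fun h => ⟨fun v hv => h (i0 v) hv, fun t ht => h (i1 t) ht⟩
    · rintro ⟨ha, hb⟩ ⟨v, k⟩ ht
      cases k with
      | zero => exact ha v ht
      | succ k => exact hb (v, k) ht
  rw [this, Measure.prod_prod, iidU, iidU, Measure.infinitePi_pi _ (fun i _ => hq _),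
    Measure.infinitePi_pi _ (fun i _ => hq _),
    ← Finset.prod_filter_mul_prod_filter_not s (fun t => t.2 = 0) (fun t => unifR (q t))]
  congr 1
  · rw [← Finset.prod_image (g := i0) (f := fun t => unifR (q t)) h0.injOn]
    refine Finset.prod_congr ?_ fun _ _ => rfl
    ext ⟨v, k⟩
    simp only [Finset.mem_image, s0, Finset.mem_preimage, Finset.mem_filter, i0, Prod.mk.injEq]
    constructor
    · rintro ⟨a, ha, rfl, rfl⟩; exact ⟨ha, rfl⟩
    · rintro ⟨ha, rfl⟩; exact ⟨v, ha, rfl, rfl⟩
  · rw [← Finset.prod_image (g := i1) (f := fun t => unifR (q t)) h1.injOn]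
    refine Finset.prod_congr ?_ fun _ _ => rfl
    ext ⟨v, k⟩
    simp only [Finset.mem_image, s1, Finset.mem_preimage, Finset.mem_filter, i1, Prod.mk.injEq]
    constructor
    · rintro ⟨a, ha, rfl, rfl⟩; exact ⟨ha, Nat.succ_ne_zero _⟩
    · rintro ⟨ha, hk⟩
      obtain ⟨j, rfl⟩ := Nat.exists_eq_succ_of_ne_zero hk
      exact ⟨(v, j), ha, rfl, rfl⟩

/-- The IID field carried by the whole space. -/
noncomputable def wfield (hP : P.Good G θ) (ω : (V → ℝ) × ((V → Bool) × (V × ℕ → ℝ))) :
    V × ℕ → ℝ :=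
  mix (ω.1, zlim hP ω)

lemma measurable_wfield (hP : P.Good G θ) : Measurable (wfield hP) :=
  measurable_mix.comp (measurable_fst.prodMk (measurable_zlim hP))

lemma map_wfield (hP : P.Good G θ) : (joint P).map (wfield hP) = iidU (V × ℕ) := by
  classical
  haveI := hP.prob
  haveI := isProb_base hP
  haveI := isProb_joint hP
  haveI : IsProbabilityMeasure ((joint P).map (wfield hP)) :=
    Measure.isProbabilityMeasure_map (measurable_wfield hP).aemeasurable
  refine IsProjectiveLimit.unique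
    (P := fun I : Finset (V × ℕ) => (iidU (V × ℕ)).map (Finset.restrict (π := fun _ => ℝ) I))
    (fun D => ?_) (fun I => rfl)
  let rD : (V × ℕ → ℝ) → (D → ℝ) := Finset.restrict (π := fun _ => ℝ) D
  have hr : Measurable rD := measurable_restrict D
  show ((joint P).map (wfield hP)).map rD = (iidU (V × ℕ)).map rD
  refine ext_of_forall_integral_eq_of_IsFiniteMeasure fun φ => ?_
  rw [integral_map hr.aemeasurable φ.continuous.measurable.aestronglyMeasurable,
    integral_map (f := fun y => φ (rD y)) (measurable_wfield hP).aemeasurable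
      (φ.continuous.measurable.comp hr).aestronglyMeasurable,
    integral_map hr.aemeasurable φ.continuous.measurable.aestronglyMeasurable]
  set D1 : Finset (V × ℕ) := D.image fun t => (t.1, t.2 - 1) with hD1
  have hφb : ∀ y, |φ y| ≤ ‖φ‖ := fun y => φ.norm_coe_le_norm y
  have hfinval : ∀ n, D1.image Prod.fst ⊆ exSet hP n →
      ∫ ω, φ (rD (mix (ω.1, zfin P (exSet hP n) ω))) ∂joint P = ∫ z, φ (rD z) ∂iidU (V × ℕ) := by
    intro n hn
    have hm : Measurable (fun ω : (V → ℝ) × ((V → Bool) × (V × ℕ → ℝ)) =>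
        φ (rD (mix (ω.1, zfin P (exSet hP n) ω)))) :=
      φ.continuous.measurable.comp (hr.comp (measurable_mix.comp
        (measurable_fst.prodMk (measurable_zfin hP _))))
    rw [joint, integral_prod _ (integrable_of_abs_le hm fun _ => hφb _)]
    conv_rhs => rw [← map_mix (V := V)]
    rw [integral_map (f := fun y => φ (rD y)) measurable_mix.aemeasurable
        (φ.continuous.measurable.comp hr).aestronglyMeasurable,
      integral_prod (f := fun p : (V → ℝ) × (V × ℕ → ℝ) => φ (rD (mix p)))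
        (integrable_of_abs_le (φ.continuous.measurable.comp (hr.comp measurable_mix)) fun _ => hφb _)]
    refine integral_congr_ae (ae_of_all _ fun L => ?_)
    refine integral_innov hP (exSet hP n) L D1 (fun t ht => hn (mem_image_of_mem _ ht))
      (F := fun z => φ (rD (mix (L, z))))
      (φ.continuous.measurable.comp (hr.comp (measurable_mix.comp
        (measurable_const.prodMk measurable_id)))) fun z z' h => ?_
    refine congrArg φ (funext fun t => ?_)
    obtain ⟨⟨v, k⟩, ht⟩ := t
    cases k with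
    | zero => rfl
    | succ k => exact h (v, k) (by
        rw [mem_coe, hD1, mem_image]; exact ⟨(v, k + 1), ht, rfl⟩)
  obtain ⟨ψ, hψ, hae⟩ := exists_ae_subseq (m := joint P)
    (g := fun n ω => ∑ t ∈ D1, (1 : ℝ) * |zfin P (exSet hP n) ω t - zlim hP ω t|)
    (fun n => Finset.measurable_sum _ fun t _ => measurable_const.mul
      (((measurable_pi_apply t).comp (measurable_zfin hP _)).sub
        ((measurable_pi_apply t).comp (measurable_zlim hP))).norm)
    (fun n ω => sum_nonneg fun t _ => mul_nonneg zero_le_one (abs_nonneg _))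
    (fun n => integrable_finsetSum _ fun t _ => ((Integrable.sub
      (integrable_of_abs_le ((measurable_pi_apply t).comp (measurable_zfin hP _))
        fun ω => abs_zfin_le hP _ ω t)
      (integrable_of_abs_le ((measurable_pi_apply t).comp (measurable_zlim hP))
        fun ω => abs_zlim_le hP ω t)).abs).const_mul 1)
    (tendsto_sum_zfin hP D1 (fun _ => 1) fun _ => zero_le_one)
  have hlim : Tendsto (fun j => ∫ ω, φ (rD (mix (ω.1, zfin P (exSet hP (ψ j)) ω))) ∂joint P) atTop
      (𝓝 (∫ ω, φ (rD (wfield hP ω)) ∂joint P)) := by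
    refine tendsto_integral_of_dominated_convergence (fun _ => ‖φ‖) (fun j => ?_)
      (integrable_const _) (fun j => ae_of_all _ fun ω => φ.norm_coe_le_norm _) ?_
    · exact (φ.continuous.measurable.comp (hr.comp (measurable_mix.comp
        (measurable_fst.prodMk (measurable_zfin hP _))))).aestronglyMeasurable
    · filter_upwards [hae] with ω hω
      refine (φ.continuous.tendsto _).comp (tendsto_pi_nhds.2 fun t => ?_)
      obtain ⟨⟨v, k⟩, ht⟩ := t
      cases k with
      | zero => exact tendsto_const_nhds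
      | succ k =>
        refine tendsto_iff_norm_sub_tendsto_zero.2
          (squeeze_zero (fun _ => norm_nonneg _) (fun j => ?_) hω)
        have hmem : (v, k) ∈ D1 := by rw [hD1, mem_image]; exact ⟨(v, k + 1), ht, rfl⟩
        have := single_le_sum
          (f := fun t => (1 : ℝ) * |zfin P (exSet hP (ψ j)) ω t - zlim hP ω t|)
          (fun t _ => mul_nonneg zero_le_one (abs_nonneg _)) hmem
        simpa [rD, wfield, mix] using this
  refine tendsto_nhds_unique hlim (tendsto_const_nhds.congr' ?_)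
  obtain ⟨N, hN⟩ := exSet_exhausts hP (D1.image Prod.fst)
  filter_upwards [eventually_ge_atTop N] with j hj
  exact (hfinval _ (hN _ (hj.trans (hψ j)))).symm

end Vale.Agent.P161
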