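import Vale.Agent.P161.Free
import Vale.Agent.P161.Smoothing
import Mathlib.Data.Prod.Lex
import Mathlib.Algebra.BigOperators.Group.Finset.Sigma

/-!
# P161: posterior means of a spin given finitely many observations
-/

open MeasureTheory SimpleGraph Finset

namespace Vale.Agent.P161

variable {V : Type*}

/-- Likelihood of the observations `y` at the slots in `S`. -/
noncomputable def lik (ε : ℝ) (S : Finset (V × ℕ)) (σ : V → Bool) (y : V × ℕ → ℝ) : ℝ :=
  ∏ t ∈ S, (1 + ε * sgn (σ t.1) * clY (y t))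

/-- Posterior mean of `σ v` given the observations at the slots in `S`. -/
noncomputable def post (μ : Measure (V → Bool)) (ε : ℝ) (S : Finset (V × ℕ)) (v : V)
    (y : V × ℕ → ℝ) : ℝ :=
  (∫ σ, sgn (σ v) * lik ε S σ y ∂μ) / ∫ σ, lik ε S σ y ∂μ

variable {μ : Measure (V → Bool)} {ε : ℝ}

lemma abs_lik_factor (hε : |ε| ≤ 1 / 2) (b : Bool) (y : ℝ) :
    1 / 2 ≤ 1 + ε * sgn b * clY y ∧ 1 + ε * sgn b * clY y ≤ 3 / 2 := by
  have : |ε * sgn b * clY y| ≤ 1 / 2 := by
    rw [abs_mul, abs_mul, abs_sgn, mul_one]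
    nlinarith [abs_clY y, abs_nonneg ε, abs_nonneg (clY y)]
  obtain ⟨h1, h2⟩ := abs_le.1 this
  constructor <;> linarith

lemma lik_bounds (hε : |ε| ≤ 1 / 2) (S : Finset (V × ℕ)) (σ : V → Bool) (y : V × ℕ → ℝ) :
    (1 / 2 : ℝ) ^ S.card ≤ lik ε S σ y ∧ lik ε S σ y ≤ (3 / 2 : ℝ) ^ S.card := by
  rw [← prod_const, ← prod_const]
  refine ⟨prod_le_prod (fun _ _ => by norm_num) fun t _ => (abs_lik_factor hε _ _).1,
    prod_le_prod (fun t _ => le_trans (by norm_num) (abs_lik_factor hε _ _).1)
      fun t _ => (abs_lik_factor hε _ _).2⟩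

lemma lik_pos (hε : |ε| ≤ 1 / 2) (S : Finset (V × ℕ)) (σ : V → Bool) (y : V × ℕ → ℝ) :
    0 < lik ε S σ y :=
  lt_of_lt_of_le (by positivity) (lik_bounds hε S σ y).1

lemma abs_lik_le (hε : |ε| ≤ 1 / 2) (S : Finset (V × ℕ)) (σ : V → Bool) (y : V × ℕ → ℝ) :
    |lik ε S σ y| ≤ (3 / 2 : ℝ) ^ S.card := by
  rw [abs_of_pos (lik_pos hε S σ y)]; exact (lik_bounds hε S σ y).2

lemma measurable_sgn_eval (v : V) : Measurable (fun σ : V → Bool => sgn (σ v)) :=
  (measurable_of_countable sgn).comp (measurable_pi_apply v)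

lemma measurable_lik (S : Finset (V × ℕ)) :
    Measurable (fun p : (V → Bool) × (V × ℕ → ℝ) => lik ε S p.1 p.2) := by
  refine Finset.measurable_prod _ fun t _ => ?_
  exact measurable_const.add ((measurable_const.mul ((measurable_sgn_eval t.1).comp measurable_fst)).mul
    (continuous_clY.measurable.comp ((measurable_pi_apply t).comp measurable_snd)))

lemma measurable_lik_left (S : Finset (V × ℕ)) (y : V × ℕ → ℝ) :
    Measurable (fun σ : V → Bool => lik ε S σ y) :=
  (measurable_lik S).comp (measurable_id.prodMk measurable_const)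

variable [IsProbabilityMeasure μ]

lemma integrable_lik (hε : |ε| ≤ 1 / 2) (S : Finset (V × ℕ)) (y : V × ℕ → ℝ) :
    Integrable (fun σ => lik ε S σ y) μ :=
  integrable_of_abs_le (measurable_lik_left S y) fun _ => abs_lik_le hε S _ y

lemma abs_sgn_mul_lik (hε : |ε| ≤ 1 / 2) (S : Finset (V × ℕ)) (v : V) (σ : V → Bool)
    (y : V × ℕ → ℝ) : |sgn (σ v) * lik ε S σ y| ≤ (3 / 2 : ℝ) ^ S.card := by
  rw [abs_mul, abs_sgn, one_mul]; exact abs_lik_le hε S σ y

lemma integrable_sgn_lik (hε : |ε| ≤ 1 / 2) (S : Finset (V × ℕ)) (v : V) (y : V × ℕ → ℝ) :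
    Integrable (fun σ => sgn (σ v) * lik ε S σ y) μ :=
  integrable_of_abs_le ((measurable_sgn_eval v).mul (measurable_lik_left S y))
    fun σ => abs_sgn_mul_lik hε S v σ y

lemma integral_lik_pos (hε : |ε| ≤ 1 / 2) (S : Finset (V × ℕ)) (y : V × ℕ → ℝ) :
    0 < ∫ σ, lik ε S σ y ∂μ := by
  have := integral_mono (integrable_const ((1 / 2 : ℝ) ^ S.card)) (integrable_lik (μ := μ) hε S y)
    fun σ => (lik_bounds hε S σ y).1
  simp only [integral_const, probReal_univ, one_smul] at this
  exact lt_of_lt_of_le (by positivity) this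

lemma abs_post (hε : |ε| ≤ 1 / 2) (S : Finset (V × ℕ)) (v : V) (y : V × ℕ → ℝ) :
    |post μ ε S v y| ≤ 1 := by
  rw [post, abs_div, abs_of_pos (integral_lik_pos hε S y), div_le_one (integral_lik_pos hε S y)]
  refine (abs_integral_le_integral_abs).trans (le_of_eq (integral_congr_ae (ae_of_all _ fun σ => ?_)))
  simp only [abs_mul, abs_sgn, one_mul, abs_of_pos (lik_pos hε S σ y)]

lemma post_congr {S : Finset (V × ℕ)} (v : V) {y y' : V × ℕ → ℝ} (h : ∀ t ∈ S, y t = y' t) :
    post μ ε S v y = post μ ε S v y' := by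
  have : ∀ σ, lik ε S σ y = lik ε S σ y' := fun σ =>
    Finset.prod_congr rfl fun t ht => by rw [h t ht]
  simp only [post, this]

lemma measurable_post (S : Finset (V × ℕ)) (v : V) : Measurable (post μ ε S v) := by
  have hl : StronglyMeasurable (fun p : (V × ℕ → ℝ) × (V → Bool) => lik ε S p.2 p.1) :=
    ((measurable_lik S).comp (measurable_snd.prodMk measurable_fst)).stronglyMeasurable
  have hs : StronglyMeasurable
      (fun p : (V × ℕ → ℝ) × (V → Bool) => sgn (p.2 v) * lik ε S p.2 p.1) :=
    (((measurable_sgn_eval v).comp measurable_snd).mul hl.measurable).stronglyMeasurable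
  exact (hs.integral_prod_right' (ν := μ)).measurable.div (hl.integral_prod_right' (ν := μ)).measurable

/-! ### Lipschitz bound -/

lemma post_update_bound [DecidableEq V] {G : SimpleGraph V} {θ : ℝ} (hT : G.IsTree)
    (hfin : ∀ v, (G.neighborSet v).Finite) (hθ0 : 0 ≤ θ) (hθ1 : θ < 1) (hμ : IsFreeIsing G θ μ)
    (hε0 : 0 ≤ ε) (hε : ε ≤ 1 / 2) {S : Finset (V × ℕ)} (v : V) (y : V × ℕ → ℝ) {t : V × ℕ}
    (ht : t ∈ S) (b : ℝ) :
    |post μ ε S v (Function.update y t b) - post μ ε S v y| ≤
      4 * ε * θ ^ G.dist v t.1 * |b - y t| := by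
  have hεa : |ε| ≤ 1 / 2 := by rwa [abs_of_nonneg hε0]
  obtain ⟨B, hB, hvB, hsub⟩ := exists_connected_superset hT hfin (S.image Prod.fst) v
  have htB : t.1 ∈ B := hsub (mem_image_of_mem _ ht)
  let a : V → Bool → ℝ := fun x s =>
    ∏ q ∈ (S.erase t).filter (fun q => q.1 = x), (1 + ε * sgn s * clY (y q))
  have ha : ∀ x s, 0 < a x s := fun x s =>
    prod_pos fun q _ => lt_of_lt_of_le (by norm_num) (abs_lik_factor hεa s (y q)).1
  have hW : ∀ (z : V × ℕ → ℝ), (∀ q ∈ S.erase t, z q = y q) → ∀ σ,
      lik ε S σ z = (1 + ε * sgn (σ t.1) * clY (z t)) * siteW B a σ := by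
    intro z hz σ
    rw [lik, ← Finset.mul_prod_erase S _ ht]
    congr 1
    rw [siteW, ← Finset.prod_fiberwise_of_maps_to (g := Prod.fst) (t := B)
      (fun q hq => hsub (mem_image_of_mem _ (mem_erase.1 hq).2))]
    refine Finset.prod_congr rfl fun x _ => Finset.prod_congr rfl fun q hq => ?_
    obtain ⟨hq', rfl⟩ := mem_filter.1 hq
    rw [hz q hq']
  let N := condN μ B a t.1 v
  let D := condD μ B a t.1
  have hd : ∀ b : Bool, DependsOn
      (fun σ : V → Bool => (if σ t.1 = b then (1 : ℝ) else 0) * siteW B a σ) (B : Set V) :=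
    fun b σ σ' hh => by simp only [hh t.1 htB, dependsOn_siteW B a hh]
  have hn : ∀ b : Bool, DependsOn
      (fun σ : V → Bool => (if σ t.1 = b then sgn (σ v) else 0) * siteW B a σ) (B : Set V) :=
    fun b σ σ' hh => by simp only [hh t.1 htB, hh v hvB, dependsOn_siteW B a hh]
  have hval : ∀ (z : V × ℕ → ℝ), (∀ q ∈ S.erase t, z q = y q) → post μ ε S v z =
      ((1 + ε * clY (z t)) * N true + (1 - ε * clY (z t)) * N false) /
      ((1 + ε * clY (z t)) * D true + (1 - ε * clY (z t)) * D false) := by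
    intro z hz
    simp only [post, hW z hz, N, D, condN, condD]
    congr 1
    · rw [← integral_const_mul, ← integral_const_mul,
        ← integral_add ((integrable_of_dependsOn (hn true)).const_mul _)
          ((integrable_of_dependsOn (hn false)).const_mul _)]
      refine integral_congr_ae (ae_of_all _ fun σ => ?_)
      cases hs : σ t.1 <;> simp only [sgn, hs, if_true, if_false, Bool.false_eq_true, reduceCtorEq] <;> ring
    · rw [← integral_const_mul, ← integral_const_mul,
        ← integral_add ((integrable_of_dependsOn (hd true)).const_mul _)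
          ((integrable_of_dependsOn (hd false)).const_mul _)]
      refine integral_congr_ae (ae_of_all _ fun σ => ?_)
      cases hs : σ t.1 <;> simp only [sgn, hs, if_true, if_false, Bool.false_eq_true, reduceCtorEq] <;> ring
  rw [hval (Function.update y t b) fun q hq => Function.update_of_ne (mem_erase.1 hq).1 _ _,
    hval y fun _ _ => rfl, Function.update_self]
  set c := clY b
  set c' := clY (y t)
  have hT0 : 0 ≤ D true := condD_nonneg ha _ _
  have hF0 : 0 ≤ D false := condD_nonneg ha _ _
  have hsum : 0 < D true + D false := by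
    simp only [D, condD]
    rw [← integral_add (integrable_of_dependsOn (hd true)) (integrable_of_dependsOn (hd false))]
    have e : (fun σ : V → Bool => (if σ t.1 = true then (1 : ℝ) else 0) * siteW B a σ +
        (if σ t.1 = false then (1 : ℝ) else 0) * siteW B a σ) =
        fun σ => lik ε (S.erase t) σ y := funext fun σ => by
      have e1 : siteW B a σ = lik ε (S.erase t) σ y := by
        rw [siteW, lik, ← Finset.prod_fiberwise_of_maps_to (g := Prod.fst) (t := B)
          (fun q hq => hsub (mem_image_of_mem _ (mem_erase.1 hq).2))]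
        refine Finset.prod_congr rfl fun x _ => Finset.prod_congr rfl fun q hq => ?_
        obtain ⟨_, rfl⟩ := mem_filter.1 hq
        rfl
      cases hs : σ t.1 <;> simp [e1]
    rw [e]
    exact integral_lik_pos hεa _ _
  have hkey : |N true * D false - N false * D true| ≤ 2 * θ ^ G.dist v t.1 * (D true * D false) :=
    correlation_bound hT hθ0 hθ1 hμ B hB a ha t.1 htB v hvB
  have hc : ∀ s : ℝ, 1 / 2 ≤ 1 + ε * clY s ∧ 1 / 2 ≤ 1 - ε * clY s := fun s => by
    obtain ⟨h1, h2⟩ := abs_le.1 (abs_clY s)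
    constructor <;> nlinarith
  have hden : ∀ s : ℝ, (1 / 2) * (D true + D false) ≤
      (1 + ε * clY s) * D true + (1 - ε * clY s) * D false := fun s => by
    have := mul_le_mul_of_nonneg_right (hc s).1 hT0
    have := mul_le_mul_of_nonneg_right (hc s).2 hF0
    linarith
  have h1 := hden b
  have h2 := hden (y t)
  set P := (1 + ε * c) * D true + (1 - ε * c) * D false
  set P' := (1 + ε * c') * D true + (1 - ε * c') * D false
  have hP : 0 < P := by linarith
  have hP' : 0 < P' := by linarith
  rw [div_sub_div _ _ hP.ne' hP'.ne',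
    show ((1 + ε * c) * N true + (1 - ε * c) * N false) * P' -
      P * ((1 + ε * c') * N true + (1 - ε * c') * N false) =
      2 * ε * (c - c') * (N true * D false - N false * D true) by simp only [P, P']; ring,
    abs_div, abs_of_pos (mul_pos hP hP'), div_le_iff₀ (mul_pos hP hP')]
  have hPP : D true * D false ≤ P * P' := by
    have h12 := mul_le_mul h1 h2 (by linarith) hP.le
    nlinarith [sq_nonneg (D true - D false)]
  have hcc : |c - c'| ≤ |b - y t| := abs_clY_sub b (y t)
  have hθp : 0 ≤ θ ^ G.dist v t.1 := pow_nonneg hθ0 _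
  rw [abs_mul, abs_mul, abs_of_nonneg (show 0 ≤ 2 * ε by linarith)]
  calc 2 * ε * |c - c'| * |N true * D false - N false * D true|
      ≤ 2 * ε * |b - y t| * (2 * θ ^ G.dist v t.1 * (P * P')) := by
        gcongr
        exact hkey.trans (mul_le_mul_of_nonneg_left hPP (by linarith))
    _ = _ := by ring

lemma post_sub_bound [DecidableEq V] {G : SimpleGraph V} {θ : ℝ} (hT : G.IsTree)
    (hfin : ∀ v, (G.neighborSet v).Finite) (hθ0 : 0 ≤ θ) (hθ1 : θ < 1) (hμ : IsFreeIsing G θ μ)
    (hε0 : 0 ≤ ε) (hε : ε ≤ 1 / 2) (S : Finset (V × ℕ)) (v : V) (y y' : V × ℕ → ℝ) :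
    |post μ ε S v y - post μ ε S v y'| ≤
      4 * ε * ∑ t ∈ S, θ ^ G.dist v t.1 * |y t - y' t| := by
  suffices h : ∀ T : Finset (V × ℕ), T ⊆ S →
      |post μ ε S v (fun q => if q ∈ T then y q else y' q) - post μ ε S v y'| ≤
        4 * ε * ∑ t ∈ T, θ ^ G.dist v t.1 * |y t - y' t| by
    have := h S (subset_refl _)
    rwa [post_congr v (y := fun q => if q ∈ S then y q else y' q) (y' := y)
      (fun q hq => by simp [hq])] at this
  intro T
  induction T using Finset.induction_on with
  | empty => simp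
  | insert t T htT ih =>
    intro hT'
    obtain ⟨htS, hT'⟩ := insert_subset_iff.1 hT'
    have e : (fun q => if q ∈ insert t T then y q else y' q) =
        Function.update (fun q => if q ∈ T then y q else y' q) t (y t) := by
      funext q
      by_cases hq : q = t
      · subst hq; simp
      · simp [hq]
    have h1 := post_update_bound (μ := μ) hT hfin hθ0 hθ1 hμ hε0 hε v
      (fun q => if q ∈ T then y q else y' q) htS (y t)
    rw [← e] at h1
    simp only [if_neg htT] at h1
    have h2 := abs_sub_le (post μ ε S v (fun q => if q ∈ insert t T then y q else y' q))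
      (post μ ε S v (fun q => if q ∈ T then y q else y' q)) (post μ ε S v y')
    have h3 := ih hT'
    rw [sum_insert htT]
    linarith

end Vale.Agent.P161
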