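import Vale.Agent.P161.Limit

/-!
# P161: the spins are functions of the innovations
-/

open MeasureTheory Filter Finset SimpleGraph
open scoped Topology

namespace Vale.Agent.P161

variable {V : Type*} {P : Setup V} {G : SimpleGraph V} {θ : ℝ}

attribute [local irreducible] mval innov samp zlim chF chQ post

/-- A uniform tail bound for a bounded family of finite sums. -/
lemma exists_tail [DecidableEq V] (w : V → ℝ) (hw : ∀ u, 0 ≤ w u) {C : ℝ}
    (h : ∀ U : Finset V, ∑ u ∈ U, w u ≤ C) (v : V) {η : ℝ} (hη : 0 < η) :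
    ∃ B : Finset V, v ∈ B ∧ ∀ U : Finset V, Disjoint U B → ∑ u ∈ U, w u ≤ η := by
  set top : ℝ := ⨆ U : Finset V, ∑ u ∈ U, w u
  have hbdd : BddAbove (Set.range fun U : Finset V => ∑ u ∈ U, w u) :=
    ⟨C, by rintro _ ⟨U, rfl⟩; exact h U⟩
  obtain ⟨B, hB⟩ := exists_lt_of_lt_ciSup (show top - η < top by linarith)
  refine ⟨insert v B, mem_insert_self _ _, fun U hU => ?_⟩
  have h1 : ∑ u ∈ U ∪ B, w u ≤ top := le_ciSup hbdd _
  rw [sum_union (hU.mono_right (subset_insert _ _))] at h1
  linarith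

lemma yobs_le_one (hP : P.Good G θ) (ω : (V → ℝ) × ((V → Bool) × (V × ℕ → ℝ))) (t : V × ℕ) :
    |yobs P ω t| ≤ 1 := abs_obs hP _ _ t

/-- Each observation is a function of the innovations. -/
lemma exists_yobs_eq (hP : P.Good G θ) {r C C2 : ℝ} (hr0 : 0 ≤ r)
    (hC : 16 * P.ε ^ 2 * C ≤ 1)
    (hK : ∀ (F : Finset V) (v u : V),
      ∑ w ∈ F, θ ^ G.dist v w * r ^ G.dist w u ≤ C * r ^ G.dist v u)
    (hsq : ∀ (v : V) (U : Finset V), ∑ u ∈ U, (r ^ G.dist v u) ^ 2 ≤ C2) (s : V × ℕ) :
    ∃ g : (V × ℕ → ℝ) → ℝ, Measurable g ∧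
      ∀ᵐ ω ∂joint P, yobs P ω s = g (wfield hP ω) := by
  classical
  haveI := hP.prob
  haveI := isProb_base hP
  haveI := isProb_joint hP
  refine exists_eq_comp (P := joint P) ((measurable_pi_apply s).comp measurable_yobs)
    (measurable_wfield hP) fun δ hδ => ?_
  obtain ⟨v, k⟩ := s
  set K : ℝ := ((k : ℝ) + 1) * (8 * 2 ^ k) ^ 2 with hKdef
  have hK0 : 0 < K := by positivity
  set δ' : ℝ := δ / 4 with hδ'
  have hδ'0 : 0 < δ' := by positivity
  obtain ⟨B, hvB, hB⟩ := exists_tail (fun u => (r ^ G.dist v u) ^ 2) (fun u => sq_nonneg _)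
    (hsq v) v (show 0 < δ' ^ 2 / K by positivity)
  set F : Finset (V × ℕ) := dom B (v, k) with hFdef
  have hc : ∀ q, 0 ≤ coef G r (v, k) q := fun q => by unfold coef; positivity
  obtain ⟨N, hN⟩ := exSet_exhausts hP B
  obtain ⟨n, hn, hnN⟩ := (((tendsto_sum_zfin hP F (coef G r (v, k)) hc).eventually
    (eventually_le_nhds hδ'0)).and (eventually_ge_atTop N)).exists
  set A : Finset V := exSet hP n with hAdef
  have hBA : B ⊆ A := hN n hnN
  have hFA : F ⊆ dom A (v, k) :=
    insert_subset_insert _ (product_subset_product hBA (subset_refl _))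
  set M : ℕ := A.card * (k + 1) + 1 with hMdef
  let f : (V → ℝ) → (V × ℕ → ℝ) → ℝ := fun L z => samp P A L M z (v, k)
  have hf : Measurable (fun p : (V → ℝ) × (V × ℕ → ℝ) => f p.1 p.2) := measurable_samp hP A M (v, k)
  have hfL : ∀ L, Measurable (f L) := fun L =>
    Measurable.comp (g := fun p : (V → ℝ) × (V × ℕ → ℝ) => f p.1 p.2) (f := fun z => (L, z)) hf
      measurable_prodMk_left
  have hfb : ∀ L z, |f L z| ≤ 1 := fun L z => abs_samp hP A L M z _
  have hlip : ∀ L z z', |f L z - f L z'| ≤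
      ∑ q ∈ dom A (v, k), coef G r (v, k) q * |z q - z' q| := fun L z z' =>
    samp_lipschitz hP hr0 hC hK A L z z' M (v, k)
  let H : (V → ℝ) → (V × ℕ → ℝ) → ℝ := fun L z => avgOut (f L) F z
  have hHm : Measurable (fun p : (V → ℝ) × (V × ℕ → ℝ) => H p.1 p.2) := by
    have hm : StronglyMeasurable (fun q : ((V → ℝ) × (V × ℕ → ℝ)) × (V × ℕ → ℝ) =>
        f q.1.1 (merge F (q.1.2, q.2))) :=
      (Measurable.comp (g := fun p : (V → ℝ) × (V × ℕ → ℝ) => f p.1 p.2)
        (f := fun q : ((V → ℝ) × (V × ℕ → ℝ)) × (V × ℕ → ℝ) => (q.1.1, merge F (q.1.2, q.2))) hf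
        ((measurable_fst.comp measurable_fst).prodMk ((measurable_merge F).comp
          ((measurable_snd.comp measurable_fst).prodMk measurable_snd)))).stronglyMeasurable
    exact (hm.integral_prod_right' (ν := iidU (V × ℕ))).measurable
  have hHb : ∀ L z, |H L z| ≤ 1 := fun L z => abs_avgOut_le (hfb L) F z
  let un : (V × ℕ → ℝ) → (V → ℝ) × (V × ℕ → ℝ) :=
    fun w => (fun x => w (x, 0), fun t => w (t.1, t.2 + 1))
  have hun : Measurable un := (measurable_pi_lambda _ fun x => measurable_pi_apply (x, 0)).prodMk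
    (measurable_pi_lambda _ fun t => measurable_pi_apply (t.1, t.2 + 1))
  refine ⟨fun w => H (un w).1 (un w).2, Measurable.comp
    (g := fun p : (V → ℝ) × (V × ℕ → ℝ) => H p.1 p.2) (f := un) hHm hun, ?_⟩
  have hunw : ∀ ω, H (un (wfield hP ω)).1 (un (wfield hP ω)).2 = H ω.1 (zlim hP ω) := fun ω => rfl
  simp only [hunw]
  -- the sampler recovers the observation
  have hexact : ∀ ω, f ω.1 (zfin P A ω) = yobs P ω (v, k) := fun ω => by
    refine samp_innov hP A ω.1 (yobs_le_one hP ω) M (v, k) ?_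
    have := Finset.card_filter_le (A ×ˢ Finset.range (k + 1))
      (fun t => slotKey P.e ω.1 t < slotKey P.e ω.1 (v, k))
    rw [card_product, card_range] at this
    simp only [past, hMdef]
    omega
  let T1 : (V → ℝ) × ((V → Bool) × (V × ℕ → ℝ)) → ℝ :=
    fun ω => |f ω.1 (zfin P A ω) - H ω.1 (zfin P A ω)|
  let T2 : (V → ℝ) × ((V → Bool) × (V × ℕ → ℝ)) → ℝ :=
    fun ω => ∑ q ∈ F, coef G r (v, k) q * |zfin P A ω q - zlim hP ω q|
  have hpt : ∀ ω, |yobs P ω (v, k) - H ω.1 (zlim hP ω)| ≤ T1 ω + T2 ω := fun ω => by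
    rw [← hexact]
    refine (abs_sub_le _ (H ω.1 (zfin P A ω)) _).trans (add_le_add le_rfl ?_)
    refine (abs_avgOut_sub (hfL ω.1) (hfb ω.1) (hlip ω.1) F _ _).trans ?_
    refine sum_le_sum_of_subset_of_nonneg (fun t ht => (mem_filter.1 ht).2) fun t _ _ => ?_
    exact mul_nonneg (hc t) (abs_nonneg _)
  have hT1m : Measurable T1 := by
    have hfm : Measurable fun ω : (V → ℝ) × ((V → Bool) × (V × ℕ → ℝ)) => f ω.1 (zfin P A ω) :=
      Measurable.comp (g := fun p : (V → ℝ) × (V × ℕ → ℝ) => f p.1 p.2)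
        (f := fun ω : (V → ℝ) × ((V → Bool) × (V × ℕ → ℝ)) => (ω.1, zfin P A ω)) hf (measurable_fst.prodMk (measurable_zfin hP A))
    have hgm : Measurable fun ω : (V → ℝ) × ((V → Bool) × (V × ℕ → ℝ)) => H ω.1 (zfin P A ω) :=
      Measurable.comp (g := fun p : (V → ℝ) × (V × ℕ → ℝ) => H p.1 p.2)
        (f := fun ω : (V → ℝ) × ((V → Bool) × (V × ℕ → ℝ)) => (ω.1, zfin P A ω)) hHm (measurable_fst.prodMk (measurable_zfin hP A))
    exact (hfm.sub hgm).norm
  have hT2m : Measurable T2 := Finset.measurable_sum _ fun q _ => measurable_const.mul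
    (((measurable_pi_apply q).comp (measurable_zfin hP A)).sub
      ((measurable_pi_apply q).comp (measurable_zlim hP))).norm
  have hT1b : ∀ ω, |T1 ω| ≤ 2 := fun ω => by
    simp only [T1, abs_abs]
    exact (abs_sub _ _).trans (by linarith [hfb ω.1 (zfin P A ω), hHb ω.1 (zfin P A ω)])
  have hT2b : ∀ ω, |T2 ω| ≤ ∑ q ∈ F, coef G r (v, k) q * (1 + 1) := fun ω => by
    rw [abs_of_nonneg (sum_nonneg fun q _ => mul_nonneg (hc q) (abs_nonneg _))]
    exact sum_le_sum fun q _ => mul_le_mul_of_nonneg_left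
      ((abs_sub _ _).trans (add_le_add (abs_zfin_le hP A ω q) (abs_zlim_le hP ω q))) (hc q)
  have hiT1 : Integrable T1 (joint P) := integrable_of_abs_le hT1m hT1b
  have hiT2 : Integrable T2 (joint P) := integrable_of_abs_le hT2m hT2b
  have hT1int : ∫ ω, T1 ω ∂joint P ≤ 2 * δ' := by
    rw [joint, integral_prod _ hiT1]
    refine le_trans (le_abs_self _) (abs_integral_le_of_bound fun L => ?_)
    rw [abs_of_nonneg (integral_nonneg fun p => abs_nonneg _)]
    have hdm : Measurable (fun z => f L z - avgOut (f L) F z) :=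
      (hfL L).sub (measurable_avgOut (hfL L) F)
    have h1 := integral_innov hP A L (dom A (v, k)) (fun t ht => by
        rcases mem_insert.1 ht with rfl | ht
        · exact hBA hvB
        · exact (mem_product.1 ht).1)
      (F := fun z => |f L z - avgOut (f L) F z|) hdm.norm fun z z' h => by
        have e1 : f L z = f L z' := sub_eq_zero.1 (abs_nonpos_iff.1 ((hlip L z z').trans
          (le_of_eq (sum_eq_zero fun q hq => by simp [h q hq]))))
        have e2 : avgOut (f L) F z = avgOut (f L) F z' := sub_eq_zero.1 (abs_nonpos_iff.1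
          ((abs_avgOut_sub (hfL L) (hfb L) (hlip L) F z z').trans
            (le_of_eq (sum_eq_zero fun q hq => by simp [h q (mem_filter.1 hq).1]))))
        simp only [e1, e2]
    show ∫ p, |f L (innov P A L (obs P p.1 p.2)) - avgOut (f L) F (innov P A L (obs P p.1 p.2))|
      ∂base P ≤ _
    rw [h1]
    refine (integral_abs_le_delta_add hdm (C := 1 + 1) (fun z => (abs_sub _ _).trans
      (add_le_add (hfb L z) (abs_avgOut_le (hfb L) F z))) hδ'0).trans ?_
    have h2 := smoothing_bound (hfL L) (hfb L) hFA hc (hlip L)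
    have h3 : ∑ q ∈ dom A (v, k) \ F, coef G r (v, k) q ^ 2 ≤ δ' ^ 2 := by
      calc ∑ q ∈ dom A (v, k) \ F, coef G r (v, k) q ^ 2
          ≤ ∑ q ∈ (A \ B) ×ˢ Finset.range (k + 1), coef G r (v, k) q ^ 2 := by
            refine sum_le_sum_of_subset_of_nonneg (fun q hq => ?_) fun q _ _ => sq_nonneg _
            simp only [hFdef, dom, Finset.mem_sdiff, mem_insert, mem_product, not_or] at hq ⊢
            rcases hq.1 with h | h
            · exact absurd h hq.2.1
            · exact ⟨⟨h.1, fun h' => hq.2.2 ⟨h', h.2⟩⟩, h.2⟩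
        _ = K * ∑ u ∈ A \ B, (r ^ G.dist v u) ^ 2 := by
            rw [sum_product, mul_sum]
            refine sum_congr rfl fun u _ => ?_
            simp only [coef]
            rw [sum_const, card_range, nsmul_eq_mul, hKdef]
            push_cast
            ring
        _ ≤ K * (δ' ^ 2 / K) := mul_le_mul_of_nonneg_left (hB _ sdiff_disjoint) hK0.le
        _ = δ' ^ 2 := by field_simp
    have h4 : (∫ z, (f L z - avgOut (f L) F z) ^ 2 ∂iidU (V × ℕ)) / δ' ≤ δ' := by
      rw [div_le_iff₀ hδ'0, ← sq]; exact h2.trans h3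
    linarith
  have hmain : ∫ ω, |yobs P ω (v, k) - H ω.1 (zlim hP ω)| ∂joint P ≤ δ := by
    refine (integral_mono ?_ (hiT1.add hiT2) hpt).trans ?_
    · refine (integrable_of_abs_le (((measurable_pi_apply (v, k)).comp measurable_yobs).sub
        (Measurable.comp (g := fun p : (V → ℝ) × (V × ℕ → ℝ) => H p.1 p.2)
          (f := fun ω : (V → ℝ) × ((V → Bool) × (V × ℕ → ℝ)) => (ω.1, zlim hP ω)) hHm (measurable_fst.prodMk (measurable_zlim hP))))
        (C := 1 + 1) fun ω => (abs_sub _ _).trans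
          (add_le_add (yobs_le_one hP ω _) (hHb _ _))).abs
    · simp only [Pi.add_apply]
      rw [integral_add hiT1 hiT2]
      have : ∫ ω, T2 ω ∂joint P ≤ δ' := hn
      rw [hδ'] at this hT1int
      linarith
  rw [← ofReal_integral_eq_lintegral_ofReal]
  · exact ENNReal.ofReal_le_ofReal hmain
  · exact (integrable_of_abs_le (((measurable_pi_apply (v, k)).comp measurable_yobs).sub
      (Measurable.comp (g := fun p : (V → ℝ) × (V × ℕ → ℝ) => H p.1 p.2)
        (f := fun ω : (V → ℝ) × ((V → Bool) × (V × ℕ → ℝ)) => (ω.1, zlim hP ω)) hHm (measurable_fst.prodMk (measurable_zlim hP))))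
      (C := 1 + 1) fun ω => (abs_sub _ _).trans
        (add_le_add (yobs_le_one hP ω _) (hHb _ _))).abs
  · exact ae_of_all _ fun ω => abs_nonneg _

/-- Second moment of the centred sum of observations at one vertex. -/
lemma obs_sum_sq (hP : P.Good G θ) (v : V) (σ : V → Bool) (N : ℕ) :
    ∫ u, (∑ i ∈ Finset.range N, (obs P σ u (v, i) - P.ε * sgn (σ v) / 3)) ^ 2 ∂iidU (V × ℕ) ≤
      4 * N := by
  classical
  set a : ℝ := P.ε * sgn (σ v) with ha
  let X : ℕ → (V × ℕ → ℝ) → ℝ := fun i u => obs P σ u (v, i) - a / 3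
  have hXm : ∀ i, Measurable (X i) := fun i =>
    ((measurable_pi_apply (v, i)).comp (measurable_obs.comp measurable_prodMk_left)).sub_const _
  have hXb : ∀ i u, |X i u| ≤ 2 := fun i u => by
    refine (abs_sub _ _).trans ?_
    have := abs_obs hP σ u (v, i)
    have h2 : |a / 3| ≤ 1 := by
      rw [abs_div]
      have h3 : |a| ≤ 1 / 2 := hP.abs_bias (le_of_eq (abs_sgn _))
      norm_num
      linarith
    linarith
  have hXXm : ∀ i j, Measurable (fun u => X i u * X j u) := fun i j => (hXm i).mul (hXm j)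
  have hXXb : ∀ i j u, |X i u * X j u| ≤ 4 := fun i j u => by
    rw [abs_mul]
    calc |X i u| * |X j u| ≤ 2 * 2 :=
          mul_le_mul (hXb i u) (hXb j u) (abs_nonneg _) (by norm_num)
      _ = 4 := by norm_num
  have hzero : ∀ i j, i ≠ j → ∫ u, X i u * X j u ∂iidU (V × ℕ) = 0 := fun i j hij => by
    rw [integral_update (v, i) (hXXm i j) (hXXb i j)]
    have : ∀ u, ∫ x, X i (Function.update u (v, i) x) * X j (Function.update u (v, i) x) ∂unifR = 0 :=
      fun u => by
      have e1 : ∀ x, X i (Function.update u (v, i) x) = chQ a x - a / 3 := fun x => by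
        simp only [X, obs, Function.update_self, ha]
      have e2 : ∀ x, X j (Function.update u (v, i) x) = X j u := fun x => by
        simp only [X, obs]
        rw [Function.update_of_ne (by simp [Ne.symm hij])]
      simp only [e1, e2]
      have hint : Integrable (fun x => chQ a x) unifR := integrable_of_abs_le
        (Measurable.comp (g := fun p : ℝ × ℝ => chQ p.1 p.2) (f := fun x => (a, x))
          continuous_chQ.measurable measurable_prodMk_left)
        fun x => abs_chQ (hP.abs_obs_bias _) x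
      rw [integral_mul_const, integral_sub hint (integrable_const _),
        integral_chQ_id (hP.abs_obs_bias _)]
      simp [ha]
    simp [this]
  have e : ∀ u, (∑ i ∈ Finset.range N, (obs P σ u (v, i) - a / 3)) ^ 2 =
      ∑ i ∈ Finset.range N, ∑ j ∈ Finset.range N, X i u * X j u := fun u => by
    rw [sq, sum_mul_sum]
  simp only [e]
  rw [integral_finsetSum _ fun i _ => integrable_finsetSum _ fun j _ =>
    integrable_of_abs_le (hXXm i j) (hXXb i j)]
  refine (sum_le_card_nsmul _ _ (4 : ℝ) fun i hi => ?_).trans (le_of_eq (by simp [mul_comm]))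
  rw [integral_finsetSum _ fun j _ => integrable_of_abs_le (hXXm i j) (hXXb i j),
    Finset.sum_eq_single i (fun j _ hji => hzero i j (Ne.symm hji)) (fun h => absurd hi h)]
  exact le_trans (le_abs_self _) (abs_integral_le_of_bound (hXXb i i))

/-- Each spin is a function of the innovations. -/
lemma exists_spin_eq (hP : P.Good G θ) {r C C2 : ℝ} (hr0 : 0 ≤ r)
    (hC : 16 * P.ε ^ 2 * C ≤ 1)
    (hK : ∀ (F : Finset V) (v u : V),
      ∑ w ∈ F, θ ^ G.dist v w * r ^ G.dist w u ≤ C * r ^ G.dist v u)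
    (hsq : ∀ (v : V) (U : Finset V), ∑ u ∈ U, (r ^ G.dist v u) ^ 2 ≤ C2) (v : V) :
    ∃ h : (V × ℕ → ℝ) → Bool, Measurable h ∧
      ∀ᵐ ω ∂joint P, ω.2.1 v = h (wfield hP ω) := by
  classical
  haveI := hP.prob
  haveI := isProb_base hP
  haveI := isProb_joint hP
  choose gk hgk hgke using fun k : ℕ => exists_yobs_eq hP hr0 hC hK hsq (v, k)
  have hspin : Measurable fun ω : (V → ℝ) × ((V → Bool) × (V × ℕ → ℝ)) => sgn (ω.2.1 v) :=
    (measurable_sgn_eval v).comp (measurable_fst.comp measurable_snd)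
  obtain ⟨g, hg, hge⟩ := exists_eq_comp (P := joint P) hspin (measurable_wfield hP) fun δ hδ => by
    set a : ℝ := P.ε with ha
    have ha0 : 0 < a := hP.eps_pos
    obtain ⟨N, hN⟩ := exists_nat_gt (144 / (a ^ 2 * δ ^ 2))
    have hNr : (0 : ℝ) < N := lt_trans (by positivity) hN
    refine ⟨fun w => 3 / (a * N) * ∑ i ∈ Finset.range N, gk i w,
      measurable_const.mul (Finset.measurable_sum _ fun i _ => hgk i), ?_⟩
    let D : (V → ℝ) × ((V → Bool) × (V × ℕ → ℝ)) → ℝ := fun ω =>
      ∑ i ∈ Finset.range N, (yobs P ω (v, i) - a * sgn (ω.2.1 v) / 3)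
    have hDm : Measurable D := Finset.measurable_sum _ fun i _ =>
      ((measurable_pi_apply (v, i)).comp measurable_yobs).sub
        ((measurable_const.mul hspin).div_const 3)
    have hDb : ∀ ω, |D ω| ≤ N * 2 := fun ω => by
      refine (abs_sum_le_sum_abs _ _).trans ((sum_le_card_nsmul _ _ (2 : ℝ) fun i _ => ?_).trans
        (le_of_eq (by simp)))
      refine (abs_sub _ _).trans ?_
      have := yobs_le_one hP ω (v, i)
      have h3 : |a * sgn (ω.2.1 v)| ≤ 1 / 2 := hP.abs_bias (le_of_eq (abs_sgn _))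
      have h4 : |a * sgn (ω.2.1 v) / 3| ≤ 1 := by
        rw [abs_div, abs_of_pos (show (0 : ℝ) < 3 by norm_num)]; linarith
      linarith
    have hD2 : ∫ ω, D ω ^ 2 ∂joint P ≤ 4 * N := by
      have hi2 : Integrable (fun ω => D ω ^ 2) (joint P) :=
        integrable_of_abs_le (hDm.pow_const 2) (C := (N * 2 : ℝ) ^ 2) fun ω => by
          rw [abs_pow]; exact pow_le_pow_left₀ (abs_nonneg _) (hDb ω) 2
      rw [joint, integral_prod _ hi2]
      refine le_trans (le_abs_self _) (abs_integral_le_of_bound fun L => ?_)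
      rw [abs_of_nonneg (integral_nonneg fun p => sq_nonneg _)]
      have hb2 : ∀ p : (V → Bool) × (V × ℕ → ℝ), |D (L, p) ^ 2| ≤ (N * 2 : ℝ) ^ 2 := fun p => by
        rw [abs_pow]; exact pow_le_pow_left₀ (abs_nonneg _) (hDb _) 2
      have hm2 : Measurable fun p : (V → Bool) × (V × ℕ → ℝ) => D (L, p) ^ 2 :=
        (hDm.comp measurable_prodMk_left).pow_const 2
      rw [base, integral_prod (f := fun p : (V → Bool) × (V × ℕ → ℝ) => D (L, p) ^ 2)
        (integrable_of_abs_le hm2 hb2)]
      refine le_trans (le_abs_self _) (abs_integral_le_of_bound fun σ => ?_)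
      rw [abs_of_nonneg (integral_nonneg fun u => sq_nonneg _)]
      exact obs_sum_sq hP v σ N
    have hiD : Integrable (fun ω => |D ω|) (joint P) := (integrable_of_abs_le hDm hDb).abs
    have hae : ∀ᵐ ω ∂joint P, |sgn (ω.2.1 v) - 3 / (a * N) * ∑ i ∈ Finset.range N,
        gk i (wfield hP ω)| = 3 / (a * N) * |D ω| := by
      filter_upwards [ae_all_iff.2 hgke] with ω hω
      have e : ∑ i ∈ Finset.range N, gk i (wfield hP ω) =
          D ω + N * (a * sgn (ω.2.1 v) / 3) := by
        simp only [← hω, D, sum_sub_distrib, sum_const, card_range, nsmul_eq_mul]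
        ring
      rw [e, show sgn (ω.2.1 v) - 3 / (a * N) * (D ω + N * (a * sgn (ω.2.1 v) / 3)) =
        -(3 / (a * N) * D ω) by field_simp; ring, abs_neg, abs_mul,
        abs_of_pos (show (0 : ℝ) < 3 / (a * N) by positivity)]
    rw [lintegral_congr_ae (g := fun ω => ENNReal.ofReal (3 / (a * N) * |D ω|))
        (hae.mono fun ω h => by simp only [h]),
      ← ofReal_integral_eq_lintegral_ofReal (hiD.const_mul _)
        (ae_of_all _ fun ω => mul_nonneg (by positivity) (abs_nonneg _))]
    refine ENNReal.ofReal_le_ofReal ?_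
    rw [integral_const_mul]
    have h1 := integral_abs_le_delta_add (m := joint P) hDm hDb
      (show 0 < δ * (a * N) / 6 by positivity)
    have h3 : (∫ ω, D ω ^ 2 ∂joint P) / (δ * (a * N) / 6) ≤ δ * (a * N) / 6 := by
      rw [div_le_iff₀ (by positivity)]
      rw [div_lt_iff₀ (by positivity)] at hN
      nlinarith [mul_lt_mul_of_pos_left hN hNr]
    calc 3 / (a * N) * ∫ ω, |D ω| ∂joint P
        ≤ 3 / (a * N) * (δ * (a * N) / 6 + δ * (a * N) / 6) :=
          mul_le_mul_of_nonneg_left (h1.trans (by linarith)) (by positivity)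
      _ = δ := by field_simp; ring
  refine ⟨fun w => decide (0 < g w), (measurable_to_bool ?_), ?_⟩
  · simp only [Set.preimage, Set.mem_singleton_iff, decide_eq_true_eq]
    exact measurableSet_lt measurable_const hg
  · filter_upwards [hge] with ω hω
    simp only [← hω]
    cases ω.2.1 v <;> simp [sgn]

end Vale.Agent.P161
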