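import Vale.Agent.P161.Posterior
import Mathlib.MeasureTheory.Measure.GiryMonad
import Mathlib.MeasureTheory.Integral.Pi

/-!
# P161: the exact sampler on a finite vertex set

Slots are pairs `(v, k)`: the `k`th observation at the vertex `v`. Given labels `L`, slots are
ordered by `(k, L v, e v)`.
-/

open MeasureTheory SimpleGraph Finset

namespace Vale.Agent.P161

variable {V : Type*}

/-- The rank of a slot. -/
noncomputable def slotKey (e : V → ℕ) (L : V → ℝ) (s : V × ℕ) : ℕ ×ₗ (ℝ ×ₗ ℕ) :=
  toLex (s.2, toLex (L s.1, e s.1))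

lemma slotKey_injective {e : V → ℕ} (he : Function.Injective e) (L : V → ℝ) :
    Function.Injective (slotKey e L) := fun s t h => by
  simp only [slotKey, toLex_inj, Prod.mk.injEq] at h
  exact Prod.ext (he h.2.2) h.1

lemma slotKey_lt_iff (e : V → ℕ) (L : V → ℝ) (t s : V × ℕ) :
    slotKey e L t < slotKey e L s ↔
      t.2 < s.2 ∨ t.2 = s.2 ∧ (L t.1 < L s.1 ∨ L t.1 = L s.1 ∧ e t.1 < e s.1) := by
  simp [slotKey, Prod.Lex.lt_iff]

/-- The earlier slots at vertices of `A`. -/
noncomputable def past (e : V → ℕ) (A : Finset V) (L : V → ℝ) (s : V × ℕ) : Finset (V × ℕ) :=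
  (A ×ˢ range (s.2 + 1)).filter fun t => slotKey e L t < slotKey e L s

lemma mem_past {e : V → ℕ} {A : Finset V} {L : V → ℝ} {s t : V × ℕ} :
    t ∈ past e A L s ↔ t.1 ∈ A ∧ slotKey e L t < slotKey e L s := by
  simp only [past, mem_filter, mem_product, Finset.mem_range]
  constructor
  · exact fun h => ⟨h.1.1, h.2⟩
  · intro h
    refine ⟨⟨h.1, ?_⟩, h.2⟩
    rcases (slotKey_lt_iff e L t s).1 h.2 with h' | ⟨h', -⟩ <;> omega

lemma self_notMem_past {e : V → ℕ} {A : Finset V} {L : V → ℝ} {s : V × ℕ} :
    s ∉ past e A L s := fun h => lt_irrefl _ (mem_past.1 h).2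

lemma past_mono {e : V → ℕ} {A A' : Finset V} (h : A ⊆ A') (L : V → ℝ) (s : V × ℕ) :
    past e A L s ⊆ past e A' L s := fun _ ht =>
  mem_past.2 ⟨h (mem_past.1 ht).1, (mem_past.1 ht).2⟩

lemma past_trans {e : V → ℕ} {A : Finset V} {L : V → ℝ} {s t : V × ℕ} (ht : t ∈ past e A L s) :
    past e A L t ⊆ past e A L s := fun _ hq =>
  mem_past.2 ⟨(mem_past.1 hq).1, (mem_past.1 hq).2.trans (mem_past.1 ht).2⟩

lemma past_card_lt {e : V → ℕ} {A : Finset V} {L : V → ℝ} {s t : V × ℕ} (ht : t ∈ past e A L s) :
    (past e A L t).card < (past e A L s).card :=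
  card_lt_card ((ssubset_iff_of_subset (past_trans ht)).2 ⟨t, ht, self_notMem_past⟩)

/-- The data of a construction: the measure, the channel strength and an enumeration. -/
structure Setup (V : Type*) where
  /-- the spin measure -/
  μ : Measure (V → Bool)
  /-- the channel strength -/
  ε : ℝ
  /-- an enumeration of the vertices -/
  e : V → ℕ

variable (P : Setup V)

/-- The observations. -/
noncomputable def obs (σ : V → Bool) (u : V × ℕ → ℝ) (t : V × ℕ) : ℝ :=
  chQ (P.ε * sgn (σ t.1)) (u t)

/-- The posterior mean of the spin at a slot given the earlier observations in `A`. -/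
noncomputable def mval (A : Finset V) (L : V → ℝ) (y : V × ℕ → ℝ) (s : V × ℕ) : ℝ :=
  post P.μ P.ε (past P.e A L s) s.1 y

/-- The innovation at a slot as a function of the observations. -/
noncomputable def innov (A : Finset V) (L : V → ℝ) (y : V × ℕ → ℝ) (s : V × ℕ) : ℝ :=
  chF (P.ε * mval P A L y s) (y s)

/-- The sampler, iterated `n` times. -/
noncomputable def samp (A : Finset V) (L : V → ℝ) : ℕ → (V × ℕ → ℝ) → V × ℕ → ℝ
  | 0, _, _ => 0
  | n + 1, z, s => chQ (P.ε * mval P A L (samp A L n z) s) (z s)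

/-- The standing hypotheses on a `Setup`. -/
structure Setup.Good (G : SimpleGraph V) (θ : ℝ) : Prop where
  free : IsFreeIsing G θ P.μ
  tree : G.IsTree
  fin : ∀ v, (G.neighborSet v).Finite
  inj : Function.Injective P.e
  eps_pos : 0 < P.ε
  eps_le : P.ε ≤ 1 / 2
  theta0 : 0 ≤ θ
  theta1 : θ < 1

variable {P} {G : SimpleGraph V} {θ : ℝ}

lemma Setup.Good.prob (hP : P.Good G θ) : IsProbabilityMeasure P.μ := hP.free.1

lemma Setup.Good.eps_abs (hP : P.Good G θ) : |P.ε| ≤ 1 / 2 := by
  rw [abs_of_pos hP.eps_pos]; exact hP.eps_le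

lemma Setup.Good.abs_bias (hP : P.Good G θ) {x : ℝ} (hx : |x| ≤ 1) : |P.ε * x| ≤ 1 / 2 := by
  rw [abs_mul]
  nlinarith [hP.eps_abs, abs_nonneg x, abs_nonneg P.ε]

lemma Setup.Good.abs_obs_bias (hP : P.Good G θ) (b : Bool) : |P.ε * sgn b| < 1 :=
  lt_of_le_of_lt (hP.abs_bias (le_of_eq (abs_sgn b))) (by norm_num)

lemma abs_mval (hP : P.Good G θ) (A : Finset V) (L : V → ℝ) (y : V × ℕ → ℝ) (s : V × ℕ) :
    |mval P A L y s| ≤ 1 :=
  haveI := hP.prob
  abs_post hP.eps_abs _ _ y

lemma Setup.Good.abs_mval_bias (hP : P.Good G θ) (A : Finset V) (L : V → ℝ) (y : V × ℕ → ℝ)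
    (s : V × ℕ) : |P.ε * mval P A L y s| ≤ 1 / 2 := hP.abs_bias (abs_mval hP A L y s)

lemma abs_obs (hP : P.Good G θ) (σ : V → Bool) (u : V × ℕ → ℝ) (t : V × ℕ) : |obs P σ u t| ≤ 1 :=
  abs_chQ (hP.abs_obs_bias _) _

lemma abs_samp (hP : P.Good G θ) (A : Finset V) (L : V → ℝ) (n : ℕ) (z : V × ℕ → ℝ) (s : V × ℕ) :
    |samp P A L n z s| ≤ 1 := by
  cases n with
  | zero => simp [samp]
  | succ n => exact abs_chQ (lt_of_le_of_lt (hP.abs_mval_bias A L _ s) (by norm_num)) _

/-- The sampler inverts the innovations. -/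
lemma samp_innov (hP : P.Good G θ) (A : Finset V) (L : V → ℝ) {y : V × ℕ → ℝ}
    (hy : ∀ t, |y t| ≤ 1) :
    ∀ n s, (past P.e A L s).card < n → samp P A L n (innov P A L y) s = y s := by
  haveI := hP.prob
  intro n
  induction n with
  | zero => intro s h; simp at h
  | succ n ih =>
    intro s hs
    have hm : mval P A L (samp P A L n (innov P A L y)) s = mval P A L y s :=
      post_congr s.1 fun t ht => ih t (by have := past_card_lt ht; omega)
    show chQ (P.ε * mval P A L (samp P A L n (innov P A L y)) s) (innov P A L y s) = y s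
    rw [hm, innov, chQ_chF (lt_of_le_of_lt (hP.abs_mval_bias A L y s) (by norm_num)) (hy s)]

/-- The coordinates on which the sampler at `s` depends. -/
noncomputable def dom [DecidableEq V] (A : Finset V) (s : V × ℕ) : Finset (V × ℕ) :=
  insert s (A ×ˢ range (s.2 + 1))

/-- The Lipschitz coefficient of the sampler at `s` in the coordinate `q`. -/
noncomputable def coef (G : SimpleGraph V) (r : ℝ) (s q : V × ℕ) : ℝ :=
  8 * 2 ^ s.2 * r ^ G.dist s.1 q.1

lemma samp_lipschitz [DecidableEq V] (hP : P.Good G θ) {r C : ℝ} (hr0 : 0 ≤ r)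
    (hC : 16 * P.ε ^ 2 * C ≤ 1)
    (hK : ∀ (F : Finset V) (v u : V),
      ∑ w ∈ F, θ ^ G.dist v w * r ^ G.dist w u ≤ C * r ^ G.dist v u)
    (A : Finset V) (L : V → ℝ) (z z' : V × ℕ → ℝ) :
    ∀ n s, |samp P A L n z s - samp P A L n z' s| ≤
      ∑ q ∈ dom A s, coef G r s q * |z q - z' q| := by
  haveI := hP.prob
  have hc0 : ∀ s q : V × ℕ, 0 ≤ coef G r s q := fun s q => by
    unfold coef; positivity
  intro n
  induction n with
  | zero =>
    intro s
    simp only [samp, sub_self, abs_zero]
    exact sum_nonneg fun q _ => mul_nonneg (hc0 s q) (abs_nonneg _)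
  | succ n ih =>
    intro s
    show |chQ (P.ε * mval P A L (samp P A L n z) s) (z s) -
      chQ (P.ε * mval P A L (samp P A L n z') s) (z' s)| ≤ _
    have hε := hP.eps_pos
    refine (abs_chQ_sub (hP.abs_mval_bias A L _ s) (hP.abs_mval_bias A L _ s) _ _).trans ?_
    rw [← mul_sub, abs_mul, abs_of_pos hε]
    have hb := post_sub_bound (μ := P.μ) hP.tree hP.fin hP.theta0 hP.theta1 hP.free hε.le hP.eps_le
      (past P.e A L s) s.1 (samp P A L n z) (samp P A L n z')
    have hθp : ∀ w, 0 ≤ θ ^ G.dist s.1 w := fun w => pow_nonneg hP.theta0 _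
    set B : Finset (V × ℕ) := A ×ˢ range (s.2 + 1) with hBdef
    set Δ : V × ℕ → ℝ := fun q => |z q - z' q| with hΔ
    have h1 : ∑ t ∈ past P.e A L s, θ ^ G.dist s.1 t.1 *
          |samp P A L n z t - samp P A L n z' t| ≤
        ∑ q ∈ B, (8 * 2 ^ (s.2 + 1) * C * r ^ G.dist s.1 q.1) * Δ q := by
      calc ∑ t ∈ past P.e A L s, θ ^ G.dist s.1 t.1 * |samp P A L n z t - samp P A L n z' t|
          ≤ ∑ t ∈ past P.e A L s, θ ^ G.dist s.1 t.1 * ∑ q ∈ B, coef G r t q * Δ q := by
            refine sum_le_sum fun t ht => mul_le_mul_of_nonneg_left ((ih t).trans ?_) (hθp _)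
            refine sum_le_sum_of_subset_of_nonneg ?_ fun q _ _ => mul_nonneg (hc0 t q) (abs_nonneg _)
            obtain ⟨htA, htlt⟩ := mem_past.1 ht
            have hk : t.2 ≤ s.2 := by
              rcases (slotKey_lt_iff P.e L t s).1 htlt with h' | ⟨h', -⟩ <;> omega
            refine insert_subset (mem_product.2 ⟨htA, Finset.mem_range.2 (by omega)⟩) ?_
            exact product_subset_product (subset_refl _) (range_subset_range.2 (by omega))
        _ ≤ ∑ t ∈ B, θ ^ G.dist s.1 t.1 * ∑ q ∈ B, coef G r t q * Δ q := by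
            refine sum_le_sum_of_subset_of_nonneg (filter_subset _ _) fun t _ _ => ?_
            exact mul_nonneg (hθp _) (sum_nonneg fun q _ => mul_nonneg (hc0 t q) (abs_nonneg _))
        _ = ∑ q ∈ B, (∑ t ∈ B, θ ^ G.dist s.1 t.1 * coef G r t q) * Δ q := by
            simp only [mul_sum, sum_mul]
            rw [sum_comm]
            exact sum_congr rfl fun q _ => sum_congr rfl fun t _ => by ring
        _ ≤ _ := by
            refine sum_le_sum fun q _ => mul_le_mul_of_nonneg_right ?_ (abs_nonneg _)
            rw [hBdef, sum_product]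
            simp only [coef]
            have hgeo : ∀ m : ℕ, ∑ j ∈ range m, (2 : ℝ) ^ j ≤ 2 ^ m := fun m => by
              induction m with
              | zero => simp
              | succ m hm => rw [sum_range_succ, pow_succ]; linarith
            calc ∑ w ∈ A, ∑ j ∈ range (s.2 + 1),
                  θ ^ G.dist s.1 w * (8 * 2 ^ j * r ^ G.dist w q.1)
                = (8 * ∑ j ∈ range (s.2 + 1), (2 : ℝ) ^ j) *
                    ∑ w ∈ A, θ ^ G.dist s.1 w * r ^ G.dist w q.1 := by
                  rw [mul_sum]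
                  refine sum_congr rfl fun w _ => ?_
                  rw [mul_sum, sum_mul]
                  exact sum_congr rfl fun j _ => by ring
              _ ≤ (8 * 2 ^ (s.2 + 1)) * (C * r ^ G.dist s.1 q.1) := by
                  refine mul_le_mul (mul_le_mul_of_nonneg_left (hgeo _) (by norm_num)) (hK A _ _)
                    (sum_nonneg fun w _ => mul_nonneg (hθp _) (pow_nonneg hr0 _)) (by positivity)
              _ = _ := by ring
    have hBsub : B ⊆ dom A s := subset_insert _ _
    have hp : ∀ q, 0 ≤ coef G r s q * Δ q := fun q => mul_nonneg (hc0 s q) (abs_nonneg _)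
    have h2 : 4 * Δ s ≤ (1 / 2) * ∑ q ∈ dom A s, coef G r s q * Δ q := by
      have := single_le_sum (f := fun q => coef G r s q * Δ q) (fun q _ => hp q)
        (mem_insert_self s B)
      have e : coef G r s s = 8 * 2 ^ s.2 := by simp [coef]
      have h2k : (1 : ℝ) ≤ 2 ^ s.2 := one_le_pow₀ (by norm_num)
      have h3 := mul_le_mul_of_nonneg_right h2k (abs_nonneg (z s - z' s))
      simp only [e] at this
      simp only [hΔ] at this ⊢
      simp only [dom]
      linarith
    have h3 : P.ε * (4 * P.ε * ∑ q ∈ B, (8 * 2 ^ (s.2 + 1) * C * r ^ G.dist s.1 q.1) * Δ q) ≤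
        (1 / 2) * ∑ q ∈ dom A s, coef G r s q * Δ q := by
      refine le_trans ?_ (mul_le_mul_of_nonneg_left (sum_le_sum_of_subset_of_nonneg hBsub
        fun q _ _ => hp q) (by norm_num))
      rw [mul_sum, mul_sum, mul_sum]
      refine sum_le_sum fun q _ => ?_
      have : 0 ≤ 4 * 2 ^ s.2 * r ^ G.dist s.1 q.1 * Δ q := by positivity
      have := mul_le_mul_of_nonneg_right hC this
      simp only [coef, pow_succ]
      linarith
    have h4 : P.ε * |post P.μ P.ε (past P.e A L s) s.1 (samp P A L n z) -
        post P.μ P.ε (past P.e A L s) s.1 (samp P A L n z')| ≤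
        P.ε * (4 * P.ε * ∑ q ∈ B, (8 * 2 ^ (s.2 + 1) * C * r ^ G.dist s.1 q.1) * Δ q) :=
      mul_le_mul_of_nonneg_left (hb.trans (mul_le_mul_of_nonneg_left h1 (by linarith))) hε.le
    simp only [mval]
    simp only [hΔ] at h2 h3 h4 ⊢
    linarith

/-! ### Joint measurability -/

lemma measurableSet_key_lt (e : V → ℕ) (t s : V × ℕ) :
    MeasurableSet {L : V → ℝ | slotKey e L t < slotKey e L s} := by
  simp only [slotKey_lt_iff]
  have h1 := measurableSet_lt (measurable_pi_apply (X := fun _ : V => ℝ) t.1)
    (measurable_pi_apply (X := fun _ : V => ℝ) s.1)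
  have h2 := measurableSet_eq_fun (measurable_pi_apply (X := fun _ : V => ℝ) t.1)
    (measurable_pi_apply (X := fun _ : V => ℝ) s.1)
  by_cases ha : t.2 < s.2
  · simp [ha]
  · by_cases hb : t.2 = s.2
    · by_cases hc : e t.1 < e s.1
      · simp only [lt_irrefl, hb, hc, false_or, true_and, and_true]
        exact h1.union h2
      · simp only [lt_irrefl, hb, hc, false_or, true_and, and_false, or_false]
        exact h1
    · simp [ha, hb]

lemma measurable_mval (hP : P.Good G θ) (A : Finset V) (s : V × ℕ) :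
    Measurable (fun p : (V → ℝ) × (V × ℕ → ℝ) => mval P A p.1 p.2 s) := by
  haveI := hP.prob
  have hl : Measurable (fun p : ((V → ℝ) × (V × ℕ → ℝ)) × (V → Bool) =>
      lik P.ε (past P.e A p.1.1 s) p.2 p.1.2) := by
    simp only [lik, past, prod_filter]
    refine Finset.measurable_prod _ fun t _ => Measurable.ite ?_ ?_ measurable_const
    · exact (measurableSet_key_lt P.e t s).preimage (measurable_fst.comp measurable_fst)
    · exact measurable_const.add ((measurable_const.mul ((measurable_sgn_eval t.1).comp measurable_snd)).mul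
        (continuous_clY.measurable.comp ((measurable_pi_apply t).comp (measurable_snd.comp measurable_fst))))
  have hs : StronglyMeasurable (fun p : ((V → ℝ) × (V × ℕ → ℝ)) × (V → Bool) =>
      sgn (p.2 s.1) * lik P.ε (past P.e A p.1.1 s) p.2 p.1.2) :=
    (((measurable_sgn_eval s.1).comp measurable_snd).mul hl).stronglyMeasurable
  exact (hs.integral_prod_right' (ν := P.μ)).measurable.div
    (hl.stronglyMeasurable.integral_prod_right' (ν := P.μ)).measurable

lemma measurable_mval_comp (hP : P.Good G θ) (A : Finset V) (s : V × ℕ) {α : Type*}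
    [MeasurableSpace α] {g : α → V → ℝ} {h : α → V × ℕ → ℝ} (hg : Measurable g) (hh : Measurable h) :
    Measurable (fun a => mval P A (g a) (h a) s) :=
  Measurable.comp (g := fun p : (V → ℝ) × (V × ℕ → ℝ) => mval P A p.1 p.2 s)
    (f := fun a => (g a, h a)) (measurable_mval hP A s) (hg.prodMk hh)

lemma measurable_innov (hP : P.Good G θ) (A : Finset V) (s : V × ℕ) :
    Measurable (fun p : (V → ℝ) × (V × ℕ → ℝ) => innov P A p.1 p.2 s) :=
  continuous_chF.measurable.comp ((measurable_const.mul (measurable_mval hP A s)).prodMk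
    ((measurable_pi_apply s).comp measurable_snd))

attribute [local irreducible] mval innov obs samp chF chQ xi post

lemma measurable_samp (hP : P.Good G θ) (A : Finset V) :
    ∀ n s, Measurable (fun p : (V → ℝ) × (V × ℕ → ℝ) => samp P A p.1 n p.2 s) := by
  intro n
  induction n with
  | zero =>
    intro s
    simp only [samp, Pi.zero_apply]
    exact measurable_const
  | succ n ih =>
    intro s
    have h : Measurable (fun p : (V → ℝ) × (V × ℕ → ℝ) => mval P A p.1 (samp P A p.1 n p.2) s) :=
      measurable_mval_comp hP A s (h := fun p => samp P A p.1 n p.2) measurable_fst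
        (measurable_pi_lambda _ ih)
    simp only [samp]
    exact continuous_chQ.measurable.comp ((measurable_const.mul h).prodMk
      ((measurable_pi_apply s).comp measurable_snd))

lemma measurable_innov_pi (hP : P.Good G θ) (A : Finset V) {α : Type*} [MeasurableSpace α]
    {g : α → V → ℝ} {h : α → V × ℕ → ℝ} (hg : Measurable g) (hh : Measurable h) :
    Measurable (fun a => innov P A (g a) (h a)) :=
  measurable_pi_lambda _ fun s =>
    Measurable.comp (g := fun p : (V → ℝ) × (V × ℕ → ℝ) => innov P A p.1 p.2 s)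
      (f := fun a => (g a, h a)) (measurable_innov hP A s) (hg.prodMk hh)

/-! ### The law of the innovations -/

lemma measurable_obs : Measurable (fun p : (V → Bool) × (V × ℕ → ℝ) => obs P p.1 p.2) :=
  measurable_pi_lambda _ fun t => by
    simp only [obs]
    exact continuous_chQ.measurable.comp
      ((measurable_const.mul ((measurable_sgn_eval t.1).comp measurable_fst)).prodMk
        ((measurable_pi_apply t).comp measurable_snd))

/-- Replace the observations in `S` by uniform variables with likelihood weights. -/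
lemma integral_obs_eq (hP : P.Good G θ) (S : Finset (V × ℕ)) {g : (V × ℕ → ℝ) → ℝ}
    (hg : Measurable g) (hdep : DependsOn g (S : Set (V × ℕ))) {C : ℝ} (hC : ∀ y, |g y| ≤ C)
    (σ : V → Bool) :
    ∫ u, g (obs P σ u) ∂iidU (V × ℕ) =
      ∫ u, g (fun t => xi (u t)) * lik P.ε S σ (fun t => xi (u t)) ∂iidU (V × ℕ) := by
  classical
  have hC0 : 0 ≤ C := (abs_nonneg _).trans (hC fun _ => 0)
  have key : ∀ T : Finset (V × ℕ), T ⊆ S → ∫ u, g (obs P σ u) ∂iidU (V × ℕ) =
      ∫ u, g (fun t => if t ∈ T then xi (u t) else obs P σ u t) *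
        lik P.ε T σ (fun t => xi (u t)) ∂iidU (V × ℕ) := by
    intro T
    induction T using Finset.induction_on with
    | empty => simp [lik]
    | insert q T hqT ih =>
      intro hT'
      rw [ih (insert_subset_iff.1 hT').2]
      have hm : ∀ T : Finset (V × ℕ), Measurable (fun u : V × ℕ → ℝ =>
          g (fun t => if t ∈ T then xi (u t) else obs P σ u t) *
            lik P.ε T σ (fun t => xi (u t))) := fun T => by
        refine (hg.comp (measurable_pi_lambda _ fun t => ?_)).mul ((measurable_lik T).comp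
          (measurable_const.prodMk (measurable_pi_lambda _ fun t =>
            continuous_xi.measurable.comp (measurable_pi_apply t))))
        split_ifs
        · exact continuous_xi.measurable.comp (measurable_pi_apply t)
        · exact (measurable_pi_apply t).comp (measurable_obs.comp (measurable_const.prodMk measurable_id))
      have hbd : ∀ (T : Finset (V × ℕ)) (u : V × ℕ → ℝ),
          |g (fun t => if t ∈ T then xi (u t) else obs P σ u t) *
            lik P.ε T σ (fun t => xi (u t))| ≤ C * (3 / 2) ^ T.card := fun T u => by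
        rw [abs_mul]; exact mul_le_mul (hC _) (abs_lik_le hP.eps_abs _ _ _) (abs_nonneg _) hC0
      rw [integral_update q (hm T) (hbd T), integral_update q (hm _) (hbd (insert q T))]
      refine integral_congr_ae (ae_of_all _ fun u => ?_)
      let w : ℝ → ℝ := fun c => g (Function.update (fun t => if t ∈ T then xi (u t) else obs P σ u t) q c)
      let l : ℝ := lik P.ε T σ (fun t => xi (u t))
      have hlik : ∀ x, lik P.ε T σ (fun t => xi (Function.update u q x t)) = l := fun x =>
        Finset.prod_congr rfl fun t ht => by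
          simp only [Function.update_of_ne (show t ≠ q from fun h => hqT (h ▸ ht))]
      have e1 : ∀ x, g (fun t => if t ∈ T then xi (Function.update u q x t)
          else obs P σ (Function.update u q x) t) = w (chQ (P.ε * sgn (σ q.1)) x) := fun x => by
        refine congrArg g (funext fun t => ?_)
        by_cases h : t = q
        · subst h; simp [hqT, obs]
        · simp [h, obs]
      have e2 : ∀ x, g (fun t => if t ∈ insert q T then xi (Function.update u q x t)
          else obs P σ (Function.update u q x) t) = w (xi x) := fun x => by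
        refine congrArg g (funext fun t => ?_)
        by_cases h : t = q
        · subst h; simp
        · simp [h, obs]
      have e3 : ∀ x, lik P.ε (insert q T) σ (fun t => xi (Function.update u q x t)) =
          (1 + P.ε * sgn (σ q.1) * xi x) * l := fun x => by
        rw [lik, prod_insert hqT, ← lik, hlik]
        simp [clY_of_abs_le (abs_xi x)]
      simp only [hlik, e1, e2, e3]
      rw [integral_mul_const, integral_chQ (hP.abs_obs_bias _) w, ← integral_mul_const]
      refine integral_congr_ae (ae_of_all _ fun x => ?_)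
      ring
  rw [key S (subset_refl _)]
  refine integral_congr_ae (ae_of_all _ fun u => ?_)
  simp only
  rw [hdep (y := fun t => xi (u t)) fun t ht => by simp [mem_coe.1 ht]]

/-- Expectation over spins and observation noise. -/
noncomputable def base (P : Setup V) : Measure ((V → Bool) × (V × ℕ → ℝ)) :=
  P.μ.prod (iidU (V × ℕ))

lemma isProb_base (hP : P.Good G θ) : IsProbabilityMeasure (base P) := by
  haveI := hP.prob
  unfold base; infer_instance

/-- The defining property of the posterior mean. -/
lemma posterior_identity (hP : P.Good G θ) (S : Finset (V × ℕ)) (v : V) {f : (V × ℕ → ℝ) → ℝ}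
    (hf : Measurable f) (hdep : DependsOn f (S : Set (V × ℕ))) {C : ℝ} (hC : ∀ y, |f y| ≤ C) :
    ∫ p, sgn (p.1 v) * f (obs P p.1 p.2) ∂base P =
      ∫ p, post P.μ P.ε S v (obs P p.1 p.2) * f (obs P p.1 p.2) ∂base P := by
  haveI := hP.prob
  have hC0 : 0 ≤ C := (abs_nonneg _).trans (hC fun _ => 0)
  have hε := hP.eps_abs
  let Y : (V × ℕ → ℝ) → V × ℕ → ℝ := fun u t => xi (u t)
  have hY : Measurable Y :=
    measurable_pi_lambda _ fun t => continuous_xi.measurable.comp (measurable_pi_apply t)
  have hobs : Measurable (fun p : (V → Bool) × (V × ℕ → ℝ) => obs P p.1 p.2) := measurable_obs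
  let pf : (V × ℕ → ℝ) → ℝ := fun y => post P.μ P.ε S v y * f y
  have hpf : Measurable pf := (measurable_post S v).mul hf
  have hpfb : ∀ y, |pf y| ≤ 1 * C := fun y => by
    rw [abs_mul]; exact mul_le_mul (abs_post hε S v y) (hC y) (abs_nonneg _) zero_le_one
  have hpdep : DependsOn pf (S : Set (V × ℕ)) := fun y y' h => by
    simp only [pf, hdep h, post_congr v fun t ht => h t ht]
  have hl : Measurable (fun p : (V → Bool) × (V × ℕ → ℝ) => lik P.ε S p.1 (Y p.2)) :=
    (measurable_lik S).comp (measurable_fst.prodMk (hY.comp measurable_snd))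
  have i1 : Integrable (fun p : (V → Bool) × (V × ℕ → ℝ) =>
      sgn (p.1 v) * (f (Y p.2) * lik P.ε S p.1 (Y p.2))) (base P) := by
    haveI := isProb_base hP
    refine integrable_of_abs_le (((measurable_sgn_eval v).comp measurable_fst).mul
      ((hf.comp (hY.comp measurable_snd)).mul hl)) (C := C * (3 / 2) ^ S.card) fun p => ?_
    simp only [Pi.mul_apply, Function.comp_apply, abs_mul, abs_sgn, one_mul]
    exact mul_le_mul (hC _) (abs_lik_le hε _ _ _) (abs_nonneg _) hC0
  have i2 : Integrable (fun p : (V → Bool) × (V × ℕ → ℝ) =>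
      pf (Y p.2) * lik P.ε S p.1 (Y p.2)) (base P) := by
    haveI := isProb_base hP
    refine integrable_of_abs_le ((hpf.comp (hY.comp measurable_snd)).mul hl)
      (C := 1 * C * (3 / 2) ^ S.card) fun p => ?_
    simp only [Pi.mul_apply, Function.comp_apply, abs_mul]
    exact mul_le_mul (hpfb _) (abs_lik_le hε _ _ _) (abs_nonneg _) (by linarith)
  calc ∫ p, sgn (p.1 v) * f (obs P p.1 p.2) ∂base P
      = ∫ σ, ∫ u, sgn (σ v) * (f (Y u) * lik P.ε S σ (Y u)) ∂iidU (V × ℕ) ∂P.μ := by
        haveI := isProb_base hP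
        rw [base, integral_prod (f := fun p : (V → Bool) × (V × ℕ → ℝ) =>
          sgn (p.1 v) * f (obs P p.1 p.2)) (integrable_of_abs_le
          (((measurable_sgn_eval v).comp measurable_fst).mul (hf.comp hobs)) (C := C) fun p => by
            simpa [abs_mul, abs_sgn] using hC _)]
        refine integral_congr_ae (ae_of_all _ fun σ => ?_)
        simp only
        rw [integral_const_mul, integral_const_mul, integral_obs_eq hP S hf hdep hC σ]
    _ = ∫ u, f (Y u) * ∫ σ, sgn (σ v) * lik P.ε S σ (Y u) ∂P.μ ∂iidU (V × ℕ) := by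
        rw [integral_integral_swap i1]
        refine integral_congr_ae (ae_of_all _ fun u => ?_)
        simp only
        rw [← integral_const_mul]
        exact integral_congr_ae (ae_of_all _ fun σ => by ring)
    _ = ∫ u, pf (Y u) * ∫ σ, lik P.ε S σ (Y u) ∂P.μ ∂iidU (V × ℕ) := by
        refine integral_congr_ae (ae_of_all _ fun u => ?_)
        have := (integral_lik_pos (μ := P.μ) hε S (Y u)).ne'
        simp only [pf, post]
        field_simp
    _ = ∫ σ, ∫ u, pf (Y u) * lik P.ε S σ (Y u) ∂iidU (V × ℕ) ∂P.μ := by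
        rw [integral_integral_swap i2]
        exact integral_congr_ae (ae_of_all _ fun u => (integral_const_mul _ _).symm)
    _ = ∫ p, pf (obs P p.1 p.2) ∂base P := by
        haveI := isProb_base hP
        rw [base, integral_prod (f := fun p : (V → Bool) × (V × ℕ → ℝ) => pf (obs P p.1 p.2))
          (integrable_of_abs_le (hpf.comp hobs) fun p => hpfb _)]
        exact integral_congr_ae (ae_of_all _ fun σ => (integral_obs_eq hP S hpf hpdep hpfb σ).symm)

/-- Integrating out one slot that is later than all slots in `T`. -/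
lemma last_slot [DecidableEq V] (hP : P.Good G θ) (T : Finset (V × ℕ)) (t : V × ℕ) (ht : t ∉ T)
    {f : (V × ℕ → ℝ) → ℝ} (hf : Measurable f) (hdep : DependsOn f (T : Set (V × ℕ)))
    (hfb : ∀ y, |f y| ≤ 1) {φ : ℝ → ℝ} (hφ : Measurable φ) (hφb : ∀ x, |φ x| ≤ 1) :
    ∫ p, f (obs P p.1 p.2) *
        φ (chF (P.ε * post P.μ P.ε T t.1 (obs P p.1 p.2)) (obs P p.1 p.2 t)) ∂base P =
      (∫ p, f (obs P p.1 p.2) ∂base P) * ∫ x, φ x ∂unifR := by
  haveI := hP.prob
  haveI := isProb_base hP
  obtain ⟨m, hm, hmb, hmdep, hmdef⟩ : ∃ m : (V × ℕ → ℝ) → ℝ, Measurable m ∧ (∀ y, |m y| ≤ 1) ∧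
      (∀ y y', (∀ q ∈ T, y q = y' q) → m y = m y') ∧ m = post P.μ P.ε T t.1 :=
    ⟨_, measurable_post T t.1, fun y => abs_post hP.eps_abs T t.1 y,
      fun y y' h => post_congr t.1 h, rfl⟩
  let F : (V × ℕ → ℝ) → ℝ → ℝ := fun y x => φ (chF (P.ε * m y) (xi x))
  have hFm : Measurable (fun p : (V × ℕ → ℝ) × ℝ => F p.1 p.2) :=
    hφ.comp (continuous_chF.measurable.comp ((measurable_const.mul (hm.comp measurable_fst)).prodMk
      (continuous_xi.measurable.comp measurable_snd)))
  let c0 : (V × ℕ → ℝ) → ℝ := fun y => ∫ x, F y x ∂unifR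
  let c1 : (V × ℕ → ℝ) → ℝ := fun y => ∫ x, P.ε * xi x * F y x ∂unifR
  have hc0 : Measurable c0 := (hFm.stronglyMeasurable.integral_prod_right' (ν := unifR)).measurable
  have hc1 : Measurable c1 :=
    (((measurable_const.mul (continuous_xi.measurable.comp measurable_snd)).mul
      hFm).stronglyMeasurable.integral_prod_right' (ν := unifR)).measurable
  have hF1 : ∀ y x, |P.ε * xi x * F y x| ≤ 1 := fun y x => by
    have h1 := hP.abs_bias (abs_xi x)
    have h2 : |F y x| ≤ 1 := hφb _
    rw [abs_mul]
    nlinarith [abs_nonneg (P.ε * xi x), abs_nonneg (F y x)]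
  have hc0b : ∀ y, |c0 y| ≤ 1 := fun y => abs_integral_le_of_bound fun x => hφb _
  have hc1b : ∀ y, |c1 y| ≤ 1 := fun y => abs_integral_le_of_bound (hF1 y)
  have hFy : ∀ y, Measurable (F y) := fun y =>
    Measurable.comp (g := fun p : (V × ℕ → ℝ) × ℝ => F p.1 p.2) (f := fun x : ℝ => (y, x)) hFm
      measurable_prodMk_left
  have hlin : ∀ y a, ∫ x, (1 + P.ε * a * xi x) * F y x ∂unifR = c0 y + a * c1 y := fun y a => by
    have hFi : Integrable (F y) unifR :=
      integrable_of_abs_le (hFy y) fun x => hφb _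
    have hFi1 : Integrable (fun x => P.ε * xi x * F y x) unifR :=
      integrable_of_abs_le ((measurable_const.mul continuous_xi.measurable).mul (hFy y)) (hF1 y)
    simp only [c0, c1]
    rw [← integral_const_mul, ← integral_add hFi (hFi1.const_mul a)]
    exact integral_congr_ae (ae_of_all _ fun x => by ring)
  have hfull : ∀ y, c0 y + m y * c1 y = ∫ x, φ x ∂unifR := fun y => by
    have hb : |P.ε * m y| < 1 := lt_of_le_of_lt (hP.abs_bias (hmb y)) (by norm_num)
    rw [← hlin]
    have := integral_chQ hb (fun c => φ (chF (P.ε * m y) c))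
    simp only [F]
    rw [← this]
    refine integral_congr_ae ?_
    filter_upwards [ae_unifR_mem] with x hx
    rw [chF_chQ hb, clZ_of_mem hx.1 hx.2]
  let g0 : (V × ℕ → ℝ) → ℝ := fun y => f y * φ (chF (P.ε * m y) (y t))
  have hg0 : Measurable g0 := hf.mul (hφ.comp (continuous_chF.measurable.comp
    ((measurable_const.mul hm).prodMk (measurable_pi_apply t))))
  have hg0b : ∀ y, |g0 y| ≤ 1 := fun y => by
    rw [abs_mul]; exact mul_le_one₀ (hfb _) (abs_nonneg _) (hφb _)
  let h0 : (V × ℕ → ℝ) → ℝ := fun y => f y * c0 y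
  let h1 : (V × ℕ → ℝ) → ℝ := fun y => f y * c1 y
  have hh0 : Measurable h0 := hf.mul hc0
  have hh1 : Measurable h1 := hf.mul hc1
  have hh0b : ∀ y, |h0 y| ≤ 1 := fun y => by
    rw [abs_mul]; exact mul_le_one₀ (hfb _) (abs_nonneg _) (hc0b _)
  have hh1b : ∀ y, |h1 y| ≤ 1 := fun y => by
    rw [abs_mul]; exact mul_le_one₀ (hfb _) (abs_nonneg _) (hc1b _)
  have hh1dep : DependsOn h1 (T : Set (V × ℕ)) := fun y y' h => by
    simp only [h1, c1, F, hdep h, hmdep y y' h]
  have hcoord : ∀ σ, ∫ u, g0 (obs P σ u) ∂iidU (V × ℕ) =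
      ∫ u, h0 (obs P σ u) + sgn (σ t.1) * h1 (obs P σ u) ∂iidU (V × ℕ) := by
    intro σ
    have hmo : Measurable (fun u : V × ℕ → ℝ => obs P σ u) :=
      measurable_obs.comp (measurable_const.prodMk measurable_id)
    rw [integral_update t (f := fun u => g0 (obs P σ u)) (hg0.comp hmo) fun u => hg0b _]
    refine integral_congr_ae (ae_of_all _ fun u => ?_)
    have hno : ∀ x, ∀ q ∈ T, obs P σ (Function.update u t x) q = obs P σ u q :=
      fun x q hq => by
        simp only [obs, Function.update_of_ne (show q ≠ t from fun h => ht (h ▸ hq))]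
    have hnt : ∀ x, obs P σ (Function.update u t x) t = chQ (P.ε * sgn (σ t.1)) x := fun x => by
      simp only [obs, Function.update_self]
    simp only [g0, h0, h1, fun x => hdep (x := obs P σ (Function.update u t x)) (y := obs P σ u)
      (hno x), fun x => hmdep _ (obs P σ u) (hno x), hnt]
    rw [integral_const_mul,
      integral_chQ (hP.abs_obs_bias _) (fun c => φ (chF (P.ε * m (obs P σ u)) c))]
    have h4 := hlin (obs P σ u) (sgn (σ t.1))
    simp only [F] at h4
    rw [h4]
    ring
  have i0 : Integrable (fun p : (V → Bool) × (V × ℕ → ℝ) => h0 (obs P p.1 p.2)) (base P) :=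
    integrable_of_abs_le (hh0.comp measurable_obs) fun p => hh0b _
  have i1 : Integrable (fun p : (V → Bool) × (V × ℕ → ℝ) => sgn (p.1 t.1) * h1 (obs P p.1 p.2))
      (base P) :=
    integrable_of_abs_le (((measurable_sgn_eval t.1).comp measurable_fst).mul
      (hh1.comp measurable_obs)) (C := 1) fun p => by
        rw [abs_mul, abs_sgn, one_mul]
        exact hh1b _
  have i2 : Integrable (fun p : (V → Bool) × (V × ℕ → ℝ) =>
      m (obs P p.1 p.2) * h1 (obs P p.1 p.2)) (base P) :=
    integrable_of_abs_le ((hm.comp measurable_obs).mul (hh1.comp measurable_obs)) (C := 1) fun p => by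
      rw [abs_mul]
      exact mul_le_one₀ (hmb _) (abs_nonneg _) (hh1b _)
  rw [← hmdef]
  calc ∫ p, g0 (obs P p.1 p.2) ∂base P
      = ∫ p, h0 (obs P p.1 p.2) + sgn (p.1 t.1) * h1 (obs P p.1 p.2) ∂base P := by
        rw [base, integral_prod (f := fun p : (V → Bool) × (V × ℕ → ℝ) => g0 (obs P p.1 p.2))
          (integrable_of_abs_le (hg0.comp measurable_obs) fun p => hg0b _),
          integral_prod (f := fun p : (V → Bool) × (V × ℕ → ℝ) =>
            h0 (obs P p.1 p.2) + sgn (p.1 t.1) * h1 (obs P p.1 p.2)) (i0.add i1)]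
        exact integral_congr_ae (ae_of_all _ hcoord)
    _ = ∫ p, h0 (obs P p.1 p.2) + m (obs P p.1 p.2) * h1 (obs P p.1 p.2) ∂base P := by
        rw [integral_add i0 i1, posterior_identity hP T t.1 hh1 hh1dep hh1b, ← hmdef,
          ← integral_add i0 i2]
    _ = (∫ p, f (obs P p.1 p.2) ∂base P) * ∫ x, φ x ∂unifR := by
        rw [← integral_mul_const]
        refine integral_congr_ae (ae_of_all _ fun p => ?_)
        simp only [h0, h1]
        rw [← hfull (obs P p.1 p.2)]
        ring

lemma innov_prod_law (hP : P.Good G θ) (A : Finset V) (L : V → ℝ) (φ : V × ℕ → ℝ → ℝ)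
    (hφ : ∀ s, Measurable (φ s)) (hφb : ∀ s x, |φ s x| ≤ 1) :
    ∀ S : Finset (V × ℕ), (∀ s ∈ S, s.1 ∈ A) →
      ∫ p, ∏ s ∈ S, φ s (innov P A L (obs P p.1 p.2) s) ∂base P = ∏ s ∈ S, ∫ x, φ s x ∂unifR := by
  classical
  haveI := hP.prob
  haveI := isProb_base hP
  intro S
  induction hn : S.card using Nat.strong_induction_on generalizing S with
  | _ n ih =>
    intro hS
    rcases S.eq_empty_or_nonempty with rfl | hne
    · simp
    obtain ⟨t, htS, hmax⟩ := exists_max_image S (slotKey P.e L) hne
    have hlt : ∀ s ∈ S.erase t, slotKey P.e L s < slotKey P.e L t := fun s hs =>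
      lt_of_le_of_ne (hmax s (mem_erase.1 hs).2) fun h =>
        (mem_erase.1 hs).1 (slotKey_injective hP.inj L h)
    have hmem : ∀ s ∈ S.erase t, s ∈ past P.e A L t := fun s hs =>
      mem_past.2 ⟨hS s (mem_erase.1 hs).2, hlt s hs⟩
    let f : (V × ℕ → ℝ) → ℝ := fun y => ∏ s ∈ S.erase t, φ s (innov P A L y s)
    have hf : Measurable f := Finset.measurable_prod _ fun s _ => (hφ s).comp
      (Measurable.comp (g := fun q : V × ℕ → ℝ => q s) (f := fun y => innov P A L y)
        (measurable_pi_apply s)
        (measurable_innov_pi hP A (g := fun _ => L) (h := fun y => y) measurable_const measurable_id))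
    have hfb : ∀ y, |f y| ≤ 1 := fun y => by
      rw [Finset.abs_prod]; exact prod_le_one (fun _ _ => abs_nonneg _) fun s _ => hφb _ _
    have hdep : DependsOn f (past P.e A L t : Set (V × ℕ)) := fun y y' h => by
      refine prod_congr rfl fun s hs => ?_
      simp only [innov, mval]
      rw [post_congr s.1 fun q hq => h q (past_trans (hmem s hs) hq), h s (hmem s hs)]
    have key := last_slot hP (past P.e A L t) t self_notMem_past hf hdep hfb (hφ t) (hφb t)
    have hsplit : ∀ y, ∏ s ∈ S, φ s (innov P A L y s) =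
        f y * φ t (chF (P.ε * post P.μ P.ε (past P.e A L t) t.1 y) (y t)) := fun y => by
      rw [← Finset.mul_prod_erase S _ htS, mul_comm]
      simp only [f, innov, mval]
    simp only [hsplit]
    rw [key, ← Finset.mul_prod_erase S (fun s => ∫ x, φ s x ∂unifR) htS, mul_comm]
    congr 1
    exact ih _ (hn ▸ Finset.card_erase_lt_of_mem htS) _ rfl fun s hs => hS s (mem_erase.1 hs).2

/-- A function of finitely many innovations in `A` has the same mean as under IID uniforms. -/
lemma integral_innov (hP : P.Good G θ) (A : Finset V) (L : V → ℝ) (D : Finset (V × ℕ))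
    (hD : ∀ s ∈ D, s.1 ∈ A) {F : (V × ℕ → ℝ) → ℝ} (hF : Measurable F)
    (hdep : DependsOn F (D : Set (V × ℕ))) :
    ∫ p, F (innov P A L (obs P p.1 p.2)) ∂base P = ∫ z, F z ∂iidU (V × ℕ) := by
  classical
  haveI := hP.prob
  haveI := isProb_base hP
  let Z : (V → Bool) × (V × ℕ → ℝ) → V × ℕ → ℝ := fun p => innov P A L (obs P p.1 p.2)
  have hZ : Measurable Z := measurable_innov_pi hP A (g := fun _ => L)
    (h := fun p : (V → Bool) × (V × ℕ → ℝ) => obs P p.1 p.2) measurable_const measurable_obs
  let rD : (V × ℕ → ℝ) → (D → ℝ) := Finset.restrict (π := fun _ => ℝ) D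
  have hr : Measurable rD := measurable_restrict D
  have hlaw : (base P).map (rD ∘ Z) = (iidU (V × ℕ)).map rD := by
    rw [show (iidU (V × ℕ)).map rD = Measure.pi fun _ : D => unifR from
      Measure.infinitePi_map_restrict _]
    refine (Measure.pi_eq fun q hq => ?_).symm
    rw [Measure.map_apply (hr.comp hZ) (MeasurableSet.univ_pi hq)]
    let φ : V × ℕ → ℝ → ℝ := fun s =>
      if h : s ∈ D then (q ⟨s, h⟩).indicator 1 else fun _ => 1
    have hφ : ∀ s, Measurable (φ s) := fun s => by
      simp only [φ]; split_ifs with h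
      · exact measurable_one.indicator (hq _)
      · exact measurable_const
    have hφb : ∀ s x, |φ s x| ≤ 1 := fun s x => by
      simp only [φ]; split_ifs with h
      · by_cases hx : x ∈ q ⟨s, h⟩ <;> simp [hx]
      · simp
    have key := innov_prod_law hP A L φ hφ hφb D hD
    have hfs : ∀ p, ∏ s ∈ D, φ s (innov P A L (obs P p.1 p.2) s) =
        ((rD ∘ Z) ⁻¹' Set.univ.pi q).indicator 1 p := fun p => by
      by_cases hp : p ∈ (rD ∘ Z) ⁻¹' Set.univ.pi q
      · rw [Set.indicator_of_mem hp, Pi.one_apply]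
        refine prod_eq_one fun s hs => ?_
        simp only [φ, dif_pos hs]
        exact Set.indicator_of_mem (hp ⟨s, hs⟩ trivial) _
      · rw [Set.indicator_of_notMem hp]
        simp only [Set.mem_preimage, Set.mem_pi, Set.mem_univ, true_implies, not_forall] at hp
        obtain ⟨s, hs⟩ := hp
        refine prod_eq_zero s.2 ?_
        simp only [φ, dif_pos s.2]
        exact Set.indicator_of_notMem hs _
    simp only [hfs] at key
    rw [integral_indicator_one ((hr.comp hZ) (MeasurableSet.univ_pi hq)),
      ← Finset.prod_coe_sort] at key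
    have hx : ∀ s : D, ∫ x, φ s x ∂unifR = (unifR (q s)).toReal := fun s => by
      simp only [φ, dif_pos s.2, Subtype.coe_eta]
      rw [integral_indicator_one (hq s), measureReal_def]
    simp only [hx, measureReal_def, ← ENNReal.toReal_prod] at key
    exact (ENNReal.toReal_eq_toReal_iff' (measure_ne_top _ _)
      (ENNReal.prod_ne_top fun _ _ => measure_ne_top _ _)).1 key
  let ext0 : (D → ℝ) → V × ℕ → ℝ := fun z s => if h : s ∈ D then z ⟨s, h⟩ else 0
  have hext : Measurable ext0 := measurable_pi_lambda _ fun s => by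
    by_cases h : s ∈ D
    · simp only [ext0, dif_pos h]; exact measurable_pi_apply _
    · simp only [ext0, dif_neg h]; exact measurable_const
  have hF' : ∀ z, F z = F (ext0 (rD z)) := fun z => hdep fun s hs => by
    simp [ext0, rD, mem_coe.1 hs]
  calc ∫ p, F (innov P A L (obs P p.1 p.2)) ∂base P
      = ∫ z, F (ext0 z) ∂(base P).map (rD ∘ Z) := by
        rw [integral_map (f := fun z => F (ext0 z)) (hr.comp hZ).aemeasurable (hF.comp hext).aestronglyMeasurable]
        exact integral_congr_ae (ae_of_all _ fun p => hF' _)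
    _ = ∫ z, F (ext0 z) ∂(iidU (V × ℕ)).map rD := by rw [hlaw]
    _ = _ := by
        rw [integral_map (f := fun z => F (ext0 z)) hr.aemeasurable (hF.comp hext).aestronglyMeasurable]
        exact integral_congr_ae (ae_of_all _ fun z => (hF' z).symm)

end Vale.Agent.P161
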